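import Mathlib

/-!
Chains of levels: the next member of a chain, and telescoping identities along a chain.
-/

namespace Vale.Agent.P249.Sharp

open Finset

variable (χ : ℕ → Prop) (L : ℕ)

/-- The least member of the chain in `[a, L)`, and `L` if there is none. -/
noncomputable def up (a : ℕ) : ℕ :=
  open Classical in if h : ∃ k, a ≤ k ∧ k < L ∧ χ k then Nat.find h else L

variable {χ L}

lemma le_up {a : ℕ} (ha : a ≤ L) : a ≤ up χ L a := by
  classical
  unfold up
  split_ifs with h
  · exact (Nat.find_spec h).1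
  · exact ha

lemma up_le {a : ℕ} : up χ L a ≤ L := by
  classical
  unfold up
  split_ifs with h
  · exact (Nat.find_spec h).2.1.le
  · exact le_rfl

lemma up_mem {a : ℕ} (h : up χ L a < L) : χ (up χ L a) := by
  classical
  unfold up at h ⊢
  split_ifs with h'
  · exact (Nat.find_spec h').2.2
  · simp [h'] at h

lemma up_self {a : ℕ} (ha : a < L) (h : χ a) : up χ L a = a := by
  classical
  refine le_antisymm ?_ (le_up ha.le)
  unfold up
  rw [dif_pos ⟨a, le_rfl, ha, h⟩]
  exact Nat.find_min' _ ⟨le_rfl, ha, h⟩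

lemma not_mem_of_lt_up {a j : ℕ} (h1 : a ≤ j) (h2 : j < up χ L a) : ¬ χ j := by
  classical
  intro hj
  have hjL : j < L := lt_of_lt_of_le h2 up_le
  unfold up at h2
  rw [dif_pos ⟨j, h1, hjL, hj⟩] at h2
  exact absurd h2 (not_lt.2 (Nat.find_min' _ ⟨h1, hjL, hj⟩))

lemma up_succ {a : ℕ} (h : ¬ χ a) : up χ L a = up χ L (a + 1) := by
  classical
  have hiff : (∃ k, a ≤ k ∧ k < L ∧ χ k) ↔ ∃ k, a + 1 ≤ k ∧ k < L ∧ χ k := by
    constructor
    · rintro ⟨k, h1, h2, h3⟩
      refine ⟨k, ?_, h2, h3⟩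
      rcases h1.eq_or_lt with h1 | h1
      · exact absurd (h1 ▸ h3) h
      · exact h1
    · rintro ⟨k, h1, h2, h3⟩; exact ⟨k, by omega, h2, h3⟩
  unfold up
  by_cases h' : ∃ k, a ≤ k ∧ k < L ∧ χ k
  · rw [dif_pos h', dif_pos (hiff.1 h')]
    refine le_antisymm (Nat.find_min' _ ?_) (Nat.find_min' _ ?_)
    · obtain ⟨h1, h2, h3⟩ := Nat.find_spec (hiff.1 h'); exact ⟨by omega, h2, h3⟩
    · obtain ⟨h1, h2, h3⟩ := Nat.find_spec h'
      refine ⟨?_, h2, h3⟩
      rcases h1.eq_or_lt with h1 | h1
      · exact absurd (h1 ▸ h3) h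
      · exact h1
  · rw [dif_neg h', dif_neg (fun h'' => h' (hiff.2 h''))]

lemma up_last : up χ L L = L := le_antisymm up_le (le_up le_rfl)

/-- Segments starting below a member end at or below it. -/
lemma up_le_of_mem {a b : ℕ} (hab : a ≤ b) (hb : b = L ∨ χ b) : up χ L a ≤ b := by
  rcases hb with rfl | hb
  · exact up_le
  · by_contra h
    exact not_mem_of_lt_up hab (not_le.1 h) hb

/-- Two chains that agree above `a` have the same next members there. -/
lemma up_congr {χ' : ℕ → Prop} {a : ℕ} (h : ∀ j, a ≤ j → j < L → (χ j ↔ χ' j)) :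
    up χ L a = up χ' L a := by
  classical
  by_cases h' : ∃ k, a ≤ k ∧ k < L ∧ χ k
  · have h'' : ∃ k, a ≤ k ∧ k < L ∧ χ' k := by
      obtain ⟨k, h1, h2, h3⟩ := h'; exact ⟨k, h1, h2, (h k h1 h2).1 h3⟩
    unfold up
    rw [dif_pos h', dif_pos h'']
    refine le_antisymm (Nat.find_min' _ ?_) (Nat.find_min' _ ?_)
    · obtain ⟨h1, h2, h3⟩ := Nat.find_spec h''; exact ⟨h1, h2, (h _ h1 h2).2 h3⟩
    · obtain ⟨h1, h2, h3⟩ := Nat.find_spec h'; exact ⟨h1, h2, (h _ h1 h2).1 h3⟩
  · have h'' : ¬ ∃ k, a ≤ k ∧ k < L ∧ χ' k := fun ⟨k, h1, h2, h3⟩ =>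
      h' ⟨k, h1, h2, (h k h1 h2).2 h3⟩
    unfold up
    rw [dif_neg h', dif_neg h'']

open Classical in
/-- Telescoping along a chain, up to a member `b`. -/
lemma chain_telescope {G : Type*} [AddCommGroup G] (φ : ℕ → G) {a b : ℕ} (hab : a ≤ b)
    (hbL : b ≤ L) (hb : b = L ∨ χ b) :
    ∑ i ∈ Ico a b, (if χ i then φ i - φ (up χ L (i + 1)) else 0) = φ (up χ L a) - φ b := by
  induction hab using Nat.decreasingInduction with
  | self =>
    rcases hb with rfl | hb
    · simp [up_last]
    · rcases hbL.eq_or_lt with h | h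
      · subst h; simp [up_last]
      · simp [up_self h hb]
  | of_succ a hab ih =>
    have haL : a < L := lt_of_lt_of_le hab hbL
    rw [sum_eq_sum_Ico_succ_bot hab, ih]
    by_cases h : χ a
    · rw [if_pos h, up_self haL h]; abel
    · rw [if_neg h, zero_add, up_succ h]

open Classical in
/-- The skipped levels are the non-members. -/
lemma chain_gaps {a b : ℕ} (hab : a ≤ b) (hbL : b ≤ L) (hb : b = L ∨ χ b) :
    ∑ i ∈ Ico a b, (if χ i then (up χ L (i + 1) - (i + 1)) else 0) + (up χ L a - a)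
      = ((Ico a b).filter fun j => ¬ χ j).card := by
  induction hab using Nat.decreasingInduction with
  | self =>
    rcases hb with rfl | hb
    · simp [up_last]
    · rcases hbL.eq_or_lt with h | h
      · subst h; simp [up_last]
      · simp [up_self h hb]
  | of_succ a hab ih =>
    have haL : a < L := lt_of_lt_of_le hab hbL
    rw [sum_eq_sum_Ico_succ_bot hab]
    have hins : Ico a b = insert a (Ico (a + 1) b) := by
      ext j; simp only [mem_Ico, mem_insert]; omega
    rw [hins, filter_insert]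
    by_cases h : χ a
    · rw [if_pos h, if_neg (not_not.2 h), up_self haL h]
      omega
    · rw [if_neg h, if_pos h, up_succ h, card_insert_of_notMem (by simp)]
      have := le_up (χ := χ) (show a + 1 ≤ L by omega)
      omega

open Classical in
/-- A single gap is at most the number of non-members. -/
lemma gap_le {a : ℕ} :
    up χ L a - a ≤ ((range (L + 1)).filter fun j => ¬ χ j).card := by
  have h : Ico a (up χ L a) ⊆ (range (L + 1)).filter fun j => ¬ χ j := by
    intro j hj
    rw [mem_Ico] at hj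
    refine mem_filter.2 ⟨mem_range.2 ?_, not_mem_of_lt_up hj.1 hj.2⟩
    have := up_le (χ := χ) (L := L) (a := a); omega
  simpa using card_le_card h

end Vale.Agent.P249.Sharp
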