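import Mathlib
import Vale.Agent.P249.Vec

/-!
Slowly rotating frames: a map from the line into the unit sphere of `ℓ_p^(2N+1)`, `16/J`-Lipschitz,
each of whose coordinates is supported in a window of length `2J`.
-/

namespace Vale.Agent.P249.Sharp

open Finset

/-- Clamped position of a value. -/
noncomputable def pos (J : ℝ) (N : ℕ) (v : ℝ) : ℝ := max (-(N:ℝ)) (min (N:ℝ) (v / J))

/-- Tent values. -/
noncomputable def tent (J : ℝ) (N : ℕ) (v : ℝ) (i : Fin (2 * N + 1)) : ℝ :=
  max 0 (1 - |pos J N v - ((i:ℕ) - (N:ℝ))|)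

/-- The frame. -/
noncomputable def frame (p J : ℝ) (N : ℕ) (v : ℝ) (i : Fin (2 * N + 1)) : ℝ :=
  tent J N v i / nrm p (tent J N v)

variable {p J : ℝ} {N : ℕ}

lemma abs_pos_le (v : ℝ) : |pos J N v| ≤ N := by
  have : (0:ℝ) ≤ N := Nat.cast_nonneg N
  unfold pos
  rw [abs_le]
  exact ⟨le_max_left _ _, max_le (by linarith) (min_le_left _ _)⟩

lemma pos_lip (hJ : 0 < J) (v v' : ℝ) : |pos J N v - pos J N v'| ≤ |v - v'| / J := by
  unfold pos
  refine (abs_max_sub_max_le_max _ _ _ _).trans ?_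
  rw [sub_self, abs_zero]
  refine max_le (by positivity) ((abs_min_sub_min_le_max _ _ _ _).trans ?_)
  rw [sub_self, abs_zero]
  refine max_le (by positivity) (le_of_eq ?_)
  rw [← sub_div, abs_div, abs_of_pos hJ]

lemma tent_near (v : ℝ) : ∃ i, 1 / 2 ≤ tent J N v i := by
  have h := abs_pos_le (J := J) (N := N) v
  rw [abs_le] at h
  have hr0 : 0 ≤ round (pos J N v + N) := by
    have := abs_sub_round (pos J N v + N)
    rw [abs_le] at this
    by_contra hneg
    have : (round (pos J N v + N) : ℝ) ≤ -1 := by exact_mod_cast (show round (pos J N v + N) ≤ -1 by omega)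
    linarith
  have hr1 : round (pos J N v + N) ≤ 2 * (N:ℤ) := by
    have := abs_sub_round (pos J N v + N)
    rw [abs_le] at this
    by_contra hneg
    have : ((2 * (N:ℤ) + 1 : ℤ) : ℝ) ≤ (round (pos J N v + N) : ℝ) := by
      exact_mod_cast (show 2 * (N:ℤ) + 1 ≤ round (pos J N v + N) by omega)
    push_cast at this
    linarith
  obtain ⟨k, hk⟩ := Int.eq_ofNat_of_zero_le hr0
  refine ⟨⟨k, by omega⟩, le_max_of_le_right ?_⟩
  have := abs_sub_round (pos J N v + N)
  rw [hk] at this
  push_cast at this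
  have e : pos J N v - ((k:ℝ) - N) = pos J N v + N - k := by ring
  show 1 / 2 ≤ 1 - |pos J N v - ((k:ℝ) - N)|
  rw [e]
  linarith

lemma half_le_nrm_tent (hp : 1 ≤ p) (v : ℝ) : 1 / 2 ≤ nrm p (tent J N v) := by
  obtain ⟨i, hi⟩ := tent_near (J := J) (N := N) v
  refine (Real.rpow_le_rpow_iff (by norm_num) (nrm_nonneg _) (by linarith : 0 < p)).1 ?_
  rw [nrm_rpow hp]
  refine le_trans ?_ (single_le_sum (fun c _ => Real.rpow_nonneg (abs_nonneg _) p) (mem_univ i))
  exact Real.rpow_le_rpow (by norm_num) (hi.trans (le_abs_self _)) (by linarith)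

lemma nrm_frame (hp : 1 ≤ p) (v : ℝ) : nrm p (frame p J N v) = 1 := by
  have h := half_le_nrm_tent (J := J) (N := N) hp v
  have e : frame p J N v = fun i => (nrm p (tent J N v))⁻¹ * tent J N v i := by
    funext i; rw [frame, inv_mul_eq_div]
  rw [e, nrm_smul hp (by positivity)]
  exact inv_mul_cancel₀ (by linarith)

lemma abs_frame_le (hp : 1 ≤ p) (v : ℝ) (i : Fin (2 * N + 1)) : |frame p J N v i| ≤ 1 := by
  refine (Real.rpow_le_rpow_iff (abs_nonneg _) zero_le_one (by linarith : 0 < p)).1 ?_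
  rw [Real.one_rpow]
  refine (single_le_sum (fun c _ => Real.rpow_nonneg (abs_nonneg (frame p J N v c)) p)
    (mem_univ i)).trans (le_of_eq ?_)
  rw [← nrm_rpow hp, nrm_frame hp, Real.one_rpow]

lemma frame_ne_zero (v : ℝ) (i : Fin (2 * N + 1)) (h : frame p J N v i ≠ 0) :
    |pos J N v - ((i:ℕ) - (N:ℝ))| < 1 := by
  by_contra hc
  refine h ?_
  rw [frame, tent, max_eq_left (by linarith [not_lt.1 hc]), zero_div]

lemma card_tent_support (v : ℝ) :
    ((univ : Finset (Fin (2 * N + 1))).filter fun i => tent J N v i ≠ 0).card ≤ 2 := by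
  set u := pos J N v + N with hu
  refine le_trans ?_ (card_le_two (a := ⌊u⌋) (b := ⌊u⌋ + 1))
  refine card_le_card_of_injOn (fun i => ((i:ℕ):ℤ)) ?_ ?_
  · intro i hi
    rw [mem_coe, mem_filter] at hi
    have h1 : |u - (i:ℕ)| < 1 := by
      by_contra hc
      refine hi.2 ?_
      rw [tent, max_eq_left]
      rw [show pos J N v - ((i:ℕ) - (N:ℝ)) = u - (i:ℕ) by rw [hu]; ring]
      linarith [not_lt.1 hc]
    rw [abs_lt] at h1
    simp only [mem_coe, mem_insert, mem_singleton]
    have h2 : ⌊u⌋ ≤ ((i:ℕ):ℤ) := by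
      have : ⌊u⌋ < ((i:ℕ):ℤ) + 1 := Int.floor_lt.2 (by push_cast; linarith)
      omega
    have h3 : ((i:ℕ):ℤ) ≤ ⌊u⌋ + 1 := by
      have : ((i:ℕ):ℤ) - 1 ≤ ⌊u⌋ := Int.le_floor.2 (by push_cast; linarith)
      omega
    omega
  · intro a _ b _ hab
    simp only at hab
    exact Fin.ext (by exact_mod_cast hab)

lemma tent_lip (hp : 1 ≤ p) (hJ : 0 < J) (v v' : ℝ) :
    nrm p (fun i => tent J N v i - tent J N v' i) ≤ 4 * (|v - v'| / J) := by
  classical
  have hp0 : 0 < p := by linarith
  have hd0 : 0 ≤ |v - v'| / J := by positivity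
  refine (Real.rpow_le_rpow_iff (nrm_nonneg _) (by positivity) hp0).1 ?_
  rw [nrm_rpow hp]
  set S := ((univ : Finset (Fin (2 * N + 1))).filter fun i => tent J N v i ≠ 0)
    ∪ ((univ : Finset (Fin (2 * N + 1))).filter fun i => tent J N v' i ≠ 0)
  have hS : S.card ≤ 4 := (card_union_le _ _).trans
    (by linarith [card_tent_support (J := J) (N := N) v, card_tent_support (J := J) (N := N) v'])
  rw [← sum_subset (subset_univ S) (fun i _ hi => by
    simp only [S, mem_union, mem_filter, mem_univ, true_and, not_or, not_not] at hi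
    simp [hi.1, hi.2, Real.zero_rpow hp0.ne'])]
  have hterm : ∀ i ∈ S, |tent J N v i - tent J N v' i| ^ p ≤ (|v - v'| / J) ^ p := by
    intro i _
    refine Real.rpow_le_rpow (abs_nonneg _) ?_ hp0.le
    refine (abs_max_sub_max_le_max _ _ _ _).trans ?_
    rw [sub_self, abs_zero]
    refine max_le hd0 ?_
    rw [sub_sub_sub_cancel_left]
    refine (abs_abs_sub_abs_le_abs_sub _ _).trans ?_
    rw [sub_sub_sub_cancel_right, abs_sub_comm]
    exact pos_lip hJ v v'
  calc _ ≤ ∑ _i ∈ S, (|v - v'| / J) ^ p := sum_le_sum hterm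
    _ ≤ 4 * (|v - v'| / J) ^ p := by
        rw [sum_const, nsmul_eq_mul]
        exact mul_le_mul_of_nonneg_right (by exact_mod_cast hS) (by positivity)
    _ ≤ _ := by
        rw [Real.mul_rpow (by norm_num : (0:ℝ) ≤ 4) hd0]
        exact mul_le_mul_of_nonneg_right (Real.self_le_rpow_of_one_le (by norm_num) hp)
          (by positivity)

lemma frame_lip (hp : 1 ≤ p) (hJ : 0 < J) (v v' : ℝ) :
    nrm p (fun i => frame p J N v i - frame p J N v' i) ≤ 16 / J * |v - v'| := by
  set T := tent J N v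
  set T' := tent J N v'
  set a := nrm p T with ha
  set b := nrm p T' with hb
  have ha2 : 1 / 2 ≤ a := half_le_nrm_tent hp v
  have hb2 : 1 / 2 ≤ b := half_le_nrm_tent hp v'
  have hd := tent_lip (N := N) hp hJ v v'
  set d := nrm p (fun i => T i - T' i)
  have hab : |b - a| ≤ d := by
    have h1 := nrm_add hp T' (fun i => T i - T' i)
    have h2 := nrm_add hp T (fun i => T' i - T i)
    rw [nrm_sub_comm T' T] at h2
    simp only [add_sub_cancel] at h1 h2
    rw [abs_sub_le_iff]
    exact ⟨by linarith, by linarith⟩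
  have e : (fun i => frame p J N v i - frame p J N v' i)
      = fun i => a⁻¹ * (T i - T' i) + (b - a) * (a⁻¹ * b⁻¹ * T' i) := by
    funext i
    show T i / a - T' i / b = _
    field_simp; ring
  rw [e]
  refine (nrm_add hp _ _).trans ?_
  have h1 : nrm p (fun i => a⁻¹ * (T i - T' i)) ≤ 2 * d := by
    rw [nrm_smul hp (by positivity)]
    refine mul_le_mul_of_nonneg_right ?_ (nrm_nonneg _)
    rw [inv_le_comm₀ (by linarith) two_pos]; linarith
  have h2 : nrm p (fun i => (b - a) * (a⁻¹ * b⁻¹ * T' i)) ≤ 2 * d := by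
    have e2 : nrm p (fun i => (b - a) * (a⁻¹ * b⁻¹ * T' i))
        = nrm p (fun i => (|b - a| * a⁻¹ * b⁻¹) * T' i) := by
      unfold nrm
      congr 1
      refine sum_congr rfl fun i _ => ?_
      simp only [abs_mul, abs_inv, abs_abs]
      ring_nf
    rw [e2, nrm_smul hp (by positivity), ← hb, mul_assoc, inv_mul_cancel₀ (by linarith), mul_one,
      mul_comm]
    refine mul_le_mul ?_ hab (abs_nonneg _) zero_le_two
    rw [inv_le_comm₀ (by linarith) two_pos]; linarith
  calc _ ≤ 4 * d := by linarith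
    _ ≤ 4 * (4 * (|v - v'| / J)) := by linarith
    _ = _ := by ring

end Vale.Agent.P249.Sharp
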