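import Mathlib

/-!
Scalar inequalities for logarithmic magnitude profiles.
-/

namespace Vale.Agent.P249.Sharp

open Finset

variable {p : ℝ}

/-- `z ↦ z log(1 + D / z^p)` is bounded by `p D^(1/p)`. -/
lemma mul_log_le (hp : 1 ≤ p) {z D : ℝ} (hz : 0 ≤ z) (hD : 0 ≤ D) :
    z * Real.log (1 + D / z ^ p) ≤ p * D ^ (1 / p) := by
  have hp0 : 0 < p := by linarith
  rcases hz.eq_or_lt' with h | h
  · rw [h, zero_mul]; positivity
  set y := D ^ (1 / p) / z with hy
  have hy0 : 0 ≤ y := by positivity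
  have e : D / z ^ p = y ^ p := by
    rw [hy, Real.div_rpow (by positivity) hz, ← Real.rpow_mul hD, one_div_mul_cancel hp0.ne',
      Real.rpow_one]
  have h1 : 1 + y ^ p ≤ (1 + y) ^ p := by
    have := Real.add_rpow_le_rpow_add zero_le_one hy0 hp
    rwa [Real.one_rpow] at this
  have h2 : Real.log (1 + y ^ p) ≤ p * y := by
    refine (Real.log_le_log (by positivity) h1).trans ?_
    rw [Real.log_rpow (by positivity)]
    refine mul_le_mul_of_nonneg_left ?_ hp0.le
    linarith [Real.log_le_sub_one_of_pos (show 0 < 1 + y by positivity)]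
  rw [e]
  refine (mul_le_mul_of_nonneg_left h2 hz).trans_eq ?_
  rw [hy]; field_simp

/-- A shift of a profile costs at most the `1/p`-th power of the shift. -/
lemma abs_log_shift (hp : 1 ≤ p) {z A B D : ℝ} (hz : 0 ≤ z) (hA : 0 < A) (hB : 0 < B)
    (hAD : A ≤ D) (hBD : B ≤ D) :
    z * |Real.log (A + z ^ p) - Real.log (B + z ^ p)| ≤ p * D ^ (1 / p) := by
  rcases hz.eq_or_lt' with h | h
  · rw [h, zero_mul]
    have : 0 < D := lt_of_lt_of_le hA hAD
    positivity
  have key : ∀ a b : ℝ, 0 < a → 0 < b → a ≤ D →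
      Real.log (a + z ^ p) - Real.log (b + z ^ p) ≤ Real.log (1 + D / z ^ p) := by
    intro a b ha hb haD
    have hzp : 0 < z ^ p := Real.rpow_pos_of_pos h p
    have hD : 0 < D := lt_of_lt_of_le ha haD
    rw [← Real.log_div (by positivity) (by positivity)]
    refine Real.log_le_log (by positivity) ?_
    rw [div_le_iff₀ (by positivity), add_mul, one_mul, div_mul_eq_mul_div, mul_add,
      add_div, mul_div_assoc D (z ^ p), div_self hzp.ne', mul_one]
    have : 0 ≤ D * b / z ^ p := by positivity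
    linarith
  refine le_trans (mul_le_mul_of_nonneg_left ?_ hz) (mul_log_le hp hz (hA.le.trans hAD))
  exact abs_sub_le_iff.2 ⟨key A B hA hB hAD, key B A hB hA hBD⟩

/-- Telescoping inequality for logarithms. -/
lemma log_ratio_mul_le (hp : 0 < p) {X Y : ℝ} (hY : 0 < Y) (hXY : Y ≤ X) :
    (Real.log X - Real.log Y) * Y ^ (1 / p) ≤ p * (X ^ (1 / p) - Y ^ (1 / p)) := by
  have hX : 0 < X := lt_of_lt_of_le hY hXY
  have hYp : 0 < Y ^ (1 / p) := Real.rpow_pos_of_pos hY _
  have h := Real.log_le_sub_one_of_pos (show 0 < X ^ (1 / p) / Y ^ (1 / p) by positivity)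
  rw [Real.log_div (by positivity) hYp.ne', Real.log_rpow hX, Real.log_rpow hY] at h
  have h2 := mul_le_mul_of_nonneg_right h hYp.le
  rw [sub_mul, sub_mul, one_mul, div_mul_cancel₀ _ hYp.ne'] at h2
  have h3 := mul_le_mul_of_nonneg_left h2 hp.le
  refine le_of_eq_of_le ?_ h3
  field_simp

/-- Concavity of `x ↦ x^(1/p)`: the key telescoping inequality, where `p > 1` is used. -/
lemma rpow_increment (hp : 1 ≤ p) {X Y : ℝ} (hX : 0 < X) (hY : 0 ≤ Y) :
    (X - Y) * X ^ (1 / p - 1) ≤ p * (X ^ (1 / p) - Y ^ (1 / p)) := by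
  have hp0 : 0 < p := by linarith
  have hs : -1 ≤ -((X - Y) / X) := by
    rw [neg_le_neg_iff, div_le_one hX]; linarith
  have h := rpow_one_add_le_one_add_mul_self hs (by positivity : (0:ℝ) ≤ 1 / p)
    ((div_le_one hp0).2 hp)
  have e : 1 + -((X - Y) / X) = Y / X := by field_simp; ring
  rw [e, Real.div_rpow hY hX.le] at h
  have hXp : 0 < X ^ (1 / p) := Real.rpow_pos_of_pos hX _
  rw [div_le_iff₀ hXp] at h
  rw [Real.rpow_sub_one hX.ne']
  have h' := mul_le_mul_of_nonneg_left h hp0.le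
  have e2 : p * ((1 + 1 / p * -((X - Y) / X)) * X ^ (1 / p))
      = p * X ^ (1 / p) - (X - Y) * (X ^ (1 / p) / X) := by field_simp; ring
  rw [e2] at h'
  linarith

/-- `z / (V + z^p) ≤ V^(1/p - 1)`. -/
lemma div_add_rpow_le (hp : 1 ≤ p) {z V : ℝ} (hz : 0 ≤ z) (hV : 0 < V) :
    z / (V + z ^ p) ≤ V ^ (1 / p - 1) := by
  have hp0 : 0 < p := by linarith
  have hzp : 0 ≤ z ^ p := Real.rpow_nonneg hz p
  rw [Real.rpow_sub_one hV.ne', div_le_div_iff₀ (by positivity) hV]
  rcases le_total (z ^ p) V with h | h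
  · have : z ≤ V ^ (1 / p) := by
      rw [one_div, Real.le_rpow_inv_iff_of_pos hz hV.le hp0]; exact h
    exact mul_le_mul this (le_add_of_nonneg_right hzp) hV.le (by positivity)
  · have hzV : V ^ (1 / p) ≤ z := by
      rw [one_div, Real.rpow_inv_le_iff_of_pos hV.le hz hp0]; exact h
    rcases eq_or_lt_of_le hp with h1 | h1
    · subst h1
      rw [one_div_one, Real.rpow_one, Real.rpow_one]
      have := mul_nonneg hV.le hV.le
      linarith
    have hz0 : 0 < z := lt_of_lt_of_le (by positivity) hzV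
    have key : z * V ≤ V ^ (1 / p) * z ^ p := by
      have e1 : V = V ^ (1 / p) * (V ^ (1 / p)) ^ (p - 1) := by
        rw [← Real.rpow_mul hV.le, ← Real.rpow_add hV]
        rw [show 1 / p + 1 / p * (p - 1) = 1 by field_simp; ring, Real.rpow_one]
      have e2 : z ^ p = z * z ^ (p - 1) := by
        conv_rhs => rw [← Real.rpow_one_add' hz (by linarith), add_sub_cancel]
      rw [e2]
      nth_rewrite 1 [e1]
      have : (V ^ (1 / p)) ^ (p - 1) ≤ z ^ (p - 1) :=
        Real.rpow_le_rpow (by positivity) hzV (by linarith)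
      have := mul_le_mul_of_nonneg_left this (by positivity : 0 ≤ z * V ^ (1 / p))
      linarith
    have : 0 ≤ V ^ (1 / p) * V := by positivity
    linarith

/-- Lipschitz bound for `z ↦ log(A + z^p)`, weighted by the smaller magnitude. -/
lemma mul_log_diff_le (hp : 1 ≤ p) {A z z' : ℝ} (hA : 0 < A) (hz : 0 ≤ z) (h : z ≤ z') :
    z * (Real.log (A + z' ^ p) - Real.log (A + z ^ p)) ≤ p * (z' - z) ∧
      z * (Real.log (A + z' ^ p) - Real.log (A + z ^ p)) ≤ p * (z' - z) * (z' ^ p / A) := by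
  have hp0 : 0 < p := by linarith
  rcases hz.eq_or_lt' with h0 | h0
  · subst h0
    simp only [zero_mul, sub_zero]
    constructor <;> positivity
  have hz' : 0 < z' := lt_of_lt_of_le h0 h
  have hle : z ^ p ≤ z' ^ p := Real.rpow_le_rpow hz h hp0.le
  have hzp : 0 < z ^ p := Real.rpow_pos_of_pos h0 p
  constructor
  · have h1 : Real.log (A + z' ^ p) - Real.log (A + z ^ p) ≤ p * (Real.log z' - Real.log z) := by
      rw [mul_sub, ← Real.log_rpow hz', ← Real.log_rpow h0, ← Real.log_div (by positivity)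
        (by positivity), ← Real.log_div (by positivity) hzp.ne']
      refine Real.log_le_log (by positivity) ?_
      rw [div_le_div_iff₀ (by positivity) hzp]
      have := mul_le_mul_of_nonneg_left hle hA.le
      linarith
    have h2 : Real.log z' - Real.log z ≤ (z' - z) / z := by
      rw [← Real.log_div hz'.ne' h0.ne']
      refine (Real.log_le_sub_one_of_pos (by positivity)).trans_eq ?_
      field_simp
    calc _ ≤ z * (p * ((z' - z) / z)) :=
          mul_le_mul_of_nonneg_left (h1.trans (mul_le_mul_of_nonneg_left h2 hp0.le)) hz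
      _ = _ := by field_simp
  · have h1 : Real.log (A + z' ^ p) - Real.log (A + z ^ p) ≤ (z' ^ p - z ^ p) / A := by
      rw [← Real.log_div (by positivity) (by positivity)]
      refine (Real.log_le_sub_one_of_pos (by positivity)).trans ?_
      rw [div_sub_one (by positivity), show A + z' ^ p - (A + z ^ p) = z' ^ p - z ^ p by ring]
      exact div_le_div_of_nonneg_left (by linarith) hA (by linarith)
    have h2 : z' ^ p - z ^ p ≤ p * ((z' - z) / z') * z' ^ p := by
      have hb := one_add_mul_self_le_rpow_one_add (s := -((z' - z) / z'))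
        (by rw [neg_le_neg_iff, div_le_one hz']; linarith) hp
      have e : 1 + -((z' - z) / z') = z / z' := by field_simp; ring
      rw [e, Real.div_rpow hz hz'.le, le_div_iff₀ (by positivity)] at hb
      linarith
    have h3 : z * (p * ((z' - z) / z') * z' ^ p) ≤ p * (z' - z) * z' ^ p := by
      have : z / z' ≤ 1 := (div_le_one hz').2 h
      have hn : 0 ≤ p * (z' - z) * z' ^ p :=
        mul_nonneg (mul_nonneg hp0.le (by linarith)) (by positivity)
      calc z * (p * ((z' - z) / z') * z' ^ p) = (z / z') * (p * (z' - z) * z' ^ p) := by ring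
        _ ≤ _ := mul_le_of_le_one_left hn this
    calc _ ≤ z * ((z' ^ p - z ^ p) / A) := mul_le_mul_of_nonneg_left h1 hz
      _ = z * (z' ^ p - z ^ p) / A := by rw [mul_div_assoc]
      _ ≤ p * (z' - z) * z' ^ p / A := by
          refine div_le_div_of_nonneg_right ?_ hA.le
          exact (mul_le_mul_of_nonneg_left h2 hz).trans h3
      _ = _ := by rw [mul_div_assoc]

/-- `|log X - log Y| ≤ |X - Y| / min X Y`. -/
lemma abs_log_sub_le {X Y : ℝ} (hX : 0 < X) (hY : 0 < Y) :
    |Real.log X - Real.log Y| ≤ |X - Y| / min X Y := by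
  have key : ∀ a b : ℝ, 0 < a → 0 < b → b ≤ a →
      |Real.log a - Real.log b| ≤ |a - b| / min a b := by
    intro a b ha hb hba
    rw [abs_of_nonneg (sub_nonneg.2 (Real.log_le_log hb hba)), abs_of_nonneg (sub_nonneg.2 hba),
      min_eq_right hba, ← Real.log_div ha.ne' hb.ne']
    refine (Real.log_le_sub_one_of_pos (by positivity)).trans_eq ?_
    field_simp
  rcases le_total Y X with h | h
  · exact key X Y hX hY h
  · rw [abs_sub_comm, abs_sub_comm X, min_comm]; exact key Y X hY hX h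

/-- Sum of a profile increment times a power: `log (1 + 2^(s+p) X) ≤ s + 2^p X`. -/
lemma log_shift_le {s X q : ℝ} (hs : 0 ≤ s) (hX : 0 ≤ X) :
    Real.log (1 + (2:ℝ) ^ (s + q) * X) ≤ s + 2 ^ q * X := by
  have h2 : (0:ℝ) < 2 ^ q := Real.rpow_pos_of_pos two_pos q
  have h1 : (1:ℝ) ≤ 2 ^ s := Real.one_le_rpow one_le_two hs
  have hle : 1 + (2:ℝ) ^ (s + q) * X ≤ 2 ^ s * (1 + 2 ^ q * X) := by
    rw [Real.rpow_add two_pos, mul_add, mul_one, mul_assoc]
    linarith
  refine (Real.log_le_log (by positivity) hle).trans ?_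
  rw [Real.log_mul (by positivity) (by positivity), Real.log_rpow two_pos]
  have := Real.log_le_sub_one_of_pos (show 0 < 1 + 2 ^ q * X by positivity)
  have hl : Real.log 2 ≤ 1 := by
    have := Real.log_le_sub_one_of_pos (two_pos (α := ℝ)); linarith
  have := mul_le_of_le_one_right hs hl
  linarith

/-- `(a + ε b)^p ≤ (1 + ε)^(p-1) (a^p + ε b^p)`. -/
lemma add_eps_rpow_le (hp : 1 ≤ p) {a b ε : ℝ} (ha : 0 ≤ a) (hb : 0 ≤ b) (hε : 0 ≤ ε) :
    (a + ε * b) ^ p ≤ (1 + ε) ^ (p - 1) * (a ^ p + ε * b ^ p) := by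
  have h1 : (0:ℝ) < 1 + ε := by linarith
  have hc : (1 / (1 + ε) * a + ε / (1 + ε) * b) ^ p
      ≤ 1 / (1 + ε) * a ^ p + ε / (1 + ε) * b ^ p := by
    have := (convexOn_rpow hp).2 (Set.mem_Ici.2 ha) (Set.mem_Ici.2 hb)
      (show (0:ℝ) ≤ 1 / (1 + ε) by positivity) (show (0:ℝ) ≤ ε / (1 + ε) by positivity)
      (by field_simp)
    simpa using this
  have e : a + ε * b = (1 + ε) * (1 / (1 + ε) * a + ε / (1 + ε) * b) := by field_simp
  rw [e, Real.mul_rpow h1.le (by positivity)]
  refine (mul_le_mul_of_nonneg_left hc (by positivity)).trans_eq ?_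
  rw [Real.rpow_sub_one h1.ne']
  field_simp

/-- On the unit interval `exp (c x) ≤ 1 + x (exp c - 1)`. -/
lemma exp_mul_le {c x : ℝ} (hx : 0 ≤ x) (hx1 : x ≤ 1) :
    Real.exp (c * x) ≤ 1 + x * (Real.exp c - 1) := by
  have := convexOn_exp.2 (Set.mem_univ c) (Set.mem_univ 0) hx
    (by linarith : 0 ≤ 1 - x) (by ring)
  simp only [smul_eq_mul, mul_zero, add_zero, Real.exp_zero, mul_one] at this
  rw [mul_comm]
  linarith

end Vale.Agent.P249.Sharp
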