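import Mathlib
import Vale.Agent.P249.Vec
import Vale.Agent.P249.Sharp.Scalar

/-!
Gibbs barycentres of a finite subset of `ℓ_p^κ`. The growth `growth lam X` is the increment of
the log-partition function between the inverse scales `lam` and `lam / 2`; it controls all the
moments of the distance at inverse scale `lam`, and its dyadic sum telescopes.
-/

namespace Vale.Agent.P249.Sharp

open Finset

variable {n : ℕ} {κ : Type*} [Fintype κ] (p : ℝ) (v : Fin n → κ → ℝ)

/-- Distance from a point to the `z`-th point of the configuration. -/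
noncomputable def dz (X : κ → ℝ) (z : Fin n) : ℝ := nrm p (fun c => X c - v z c)

/-- Partition function at inverse scale `lam`. -/
noncomputable def part (lam : ℝ) (X : κ → ℝ) : ℝ := ∑ z, Real.exp (-(lam * dz p v X z))

/-- Gibbs weights. -/
noncomputable def prob (lam : ℝ) (X : κ → ℝ) (z : Fin n) : ℝ :=
  Real.exp (-(lam * dz p v X z)) / part p v lam X

/-- Growth at inverse scale `lam`. -/
noncomputable def growth (lam : ℝ) (X : κ → ℝ) : ℝ :=
  Real.log (part p v (lam / 2) X) - Real.log (part p v lam X)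

/-- Gibbs barycentre. -/
noncomputable def bary (lam : ℝ) (X : κ → ℝ) (c : κ) : ℝ := ∑ z, prob p v lam X z * v z c

/-- Normalised oscillation of a coordinate at inverse scale `lam`. -/
noncomputable def osc (lam : ℝ) (X : κ → ℝ) (c : κ) : ℝ :=
  ∑ e : Fin n × Fin n, prob p v lam X e.1 * prob p v lam X e.2 * (lam * |v e.1 c - v e.2 c|) ^ p

/-- The weight of a level of growth `g`. -/
noncomputable def kap (g : ℝ) : ℝ := g * (1 + g) ^ (p - 1)

/-- The moment constant. -/
noncomputable def mom : ℝ := 4 * (4 * p) ^ p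

variable {p v}

lemma dz_nonneg (X : κ → ℝ) (z : Fin n) : 0 ≤ dz p v X z := nrm_nonneg _

lemma dz_le (hp : 1 ≤ p) (X Y : κ → ℝ) (z : Fin n) :
    dz p v X z ≤ nrm p (fun c => X c - Y c) + dz p v Y z := nrm_triangle hp X Y (v z)

lemma kap_nonneg {g : ℝ} (hg : 0 ≤ g) : 0 ≤ kap p g :=
  mul_nonneg hg (Real.rpow_nonneg (by linarith) _)

lemma mom_nonneg (hp : 1 ≤ p) : 0 ≤ mom p := by unfold mom; positivity

variable [NeZero n]

lemma part_pos (lam : ℝ) (X : κ → ℝ) : 0 < part p v lam X :=
  sum_pos (fun z _ => Real.exp_pos _) univ_nonempty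

lemma one_le_part (hp : 1 ≤ p) (lam : ℝ) (x : Fin n) : 1 ≤ part p v lam (v x) := by
  have h0 : dz p v (v x) x = 0 := by simp [dz, nrm_zero hp]
  refine le_trans (le_of_eq ?_) (single_le_sum (fun z _ => (Real.exp_pos _).le) (mem_univ x))
  simp [h0]

lemma part_le {lam : ℝ} {X : κ → ℝ} (hlam : ∀ z, 0 ≤ lam * dz p v X z) : part p v lam X ≤ n := by
  calc part p v lam X ≤ ∑ _z : Fin n, (1:ℝ) := sum_le_sum fun z _ =>
        Real.exp_le_one_iff.2 (by linarith [hlam z])
    _ = n := by simp

lemma part_anti {lam lam' : ℝ} (h : lam' ≤ lam) (X : κ → ℝ) :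
    part p v lam X ≤ part p v lam' X :=
  sum_le_sum fun z _ => Real.exp_le_exp.2 (by
    linarith [mul_le_mul_of_nonneg_right h (dz_nonneg (p := p) (v := v) X z)])

lemma growth_nonneg {lam : ℝ} (hl : 0 ≤ lam) (X : κ → ℝ) : 0 ≤ growth p v lam X :=
  sub_nonneg.2 (Real.log_le_log (part_pos lam X) (part_anti (by linarith) X))

lemma part_le_exp (hp : 1 ≤ p) {lam : ℝ} (hl : 0 ≤ lam) (X Y : κ → ℝ) :
    part p v lam Y ≤ Real.exp (lam * nrm p (fun c => X c - Y c)) * part p v lam X := by
  unfold part
  rw [mul_sum]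
  refine sum_le_sum fun z _ => ?_
  rw [← Real.exp_add, Real.exp_le_exp]
  have := mul_le_mul_of_nonneg_left (dz_le (v := v) hp X Y z) hl
  linarith

lemma log_part_lip (hp : 1 ≤ p) {lam : ℝ} (hl : 0 ≤ lam) (X Y : κ → ℝ) :
    |Real.log (part p v lam X) - Real.log (part p v lam Y)|
      ≤ lam * nrm p (fun c => X c - Y c) := by
  have key : ∀ A B : κ → ℝ, Real.log (part p v lam B) - Real.log (part p v lam A)
      ≤ lam * nrm p (fun c => A c - B c) := by
    intro A B
    have h := Real.log_le_log (part_pos lam B) (part_le_exp (v := v) hp hl A B)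
    rw [Real.log_mul (Real.exp_pos _).ne' (part_pos lam A).ne', Real.log_exp] at h
    linarith
  refine abs_sub_le_iff.2 ⟨?_, key X Y⟩
  rw [nrm_sub_comm]; exact key Y X

lemma growth_lip (hp : 1 ≤ p) {lam : ℝ} (hl : 0 ≤ lam) (X Y : κ → ℝ) :
    |growth p v lam X - growth p v lam Y| ≤ 2 * (lam * nrm p (fun c => X c - Y c)) := by
  have h1 := log_part_lip (v := v) hp hl X Y
  have h2 := log_part_lip (v := v) hp (show 0 ≤ lam / 2 by linarith) X Y
  have h3 : 0 ≤ lam * nrm p (fun c => X c - Y c) := mul_nonneg hl (nrm_nonneg _)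
  unfold growth
  rw [abs_le] at h1 h2 ⊢
  constructor <;> linarith [h1.1, h1.2, h2.1, h2.2]

lemma prob_nonneg (lam : ℝ) (X : κ → ℝ) (z : Fin n) : 0 ≤ prob p v lam X z :=
  div_nonneg (Real.exp_pos _).le (part_pos lam X).le

lemma sum_prob (lam : ℝ) (X : κ → ℝ) : ∑ z, prob p v lam X z = 1 := by
  unfold prob
  rw [← sum_div]
  exact div_self (part_pos lam X).ne'

lemma sum_prob_pair (lam : ℝ) (X : κ → ℝ) :
    ∑ e : Fin n × Fin n, prob p v lam X e.1 * prob p v lam X e.2 = 1 := by
  rw [Fintype.sum_prod_type]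
  simp only [← mul_sum, sum_prob, mul_one]

lemma prob_le_exp (hp : 1 ≤ p) {lam : ℝ} (hl : 0 ≤ lam) (X Y : κ → ℝ) (z : Fin n) :
    prob p v lam X z
      ≤ Real.exp (2 * (lam * nrm p (fun c => X c - Y c))) * prob p v lam Y z := by
  unfold prob
  rw [← mul_div_assoc, div_le_div_iff₀ (part_pos lam X) (part_pos lam Y)]
  have h1 := part_le_exp (v := v) hp hl X Y
  have h2 := mul_le_mul_of_nonneg_left (dz_le (v := v) hp Y X z) hl
  rw [nrm_sub_comm] at h2
  calc Real.exp (-(lam * dz p v X z)) * part p v lam Y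
      ≤ (Real.exp (lam * nrm p (fun c => X c - Y c)) * Real.exp (-(lam * dz p v Y z)))
        * (Real.exp (lam * nrm p (fun c => X c - Y c)) * part p v lam X) := by
        refine mul_le_mul ?_ h1 (part_pos lam Y).le (by positivity)
        rw [← Real.exp_add, Real.exp_le_exp]
        linarith
    _ = _ := by rw [two_mul, Real.exp_add]; ring

lemma sum_prob_exp (lam : ℝ) (X : κ → ℝ) :
    ∑ z, prob p v lam X z * Real.exp (lam * dz p v X z / 2)
      = Real.exp (growth p v lam X) := by
  unfold growth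
  rw [Real.exp_sub, Real.exp_log (part_pos _ X), Real.exp_log (part_pos _ X)]
  unfold prob
  simp only [div_mul_eq_mul_div, ← Real.exp_add, ← sum_div]
  congr 1
  refine sum_congr rfl fun z _ => ?_
  congr 1
  ring

/-- The moments at inverse scale `lam` are controlled by the growth. -/
lemma moment (hp : 1 ≤ p) {lam : ℝ} (hl : 0 ≤ lam) (X : κ → ℝ) :
    ∑ z, prob p v lam X z * (lam * dz p v X z) ^ p ≤ mom p * kap p (growth p v lam X) := by
  have hp0 : 0 < p := by linarith
  set g := growth p v lam X with hgdef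
  have hg : 0 ≤ g := growth_nonneg hl X
  set s : Fin n → ℝ := fun z => lam * dz p v X z / 2 with hs
  have hs0 : ∀ z, 0 ≤ s z := fun z => by
    have := mul_nonneg hl (dz_nonneg (p := p) (v := v) X z)
    simp only [hs]; linarith
  have hexp : ∑ z, prob p v lam X z * Real.exp (s z) = Real.exp g := sum_prob_exp lam X
  have hP := fun z => prob_nonneg (p := p) (v := v) lam X z
  have e : ∀ z, (lam * dz p v X z) ^ p = 2 ^ p * s z ^ p := fun z => by
    rw [← Real.mul_rpow zero_le_two (hs0 z)]; simp only [hs]; congr 1; ring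
  simp only [e, mul_left_comm _ ((2:ℝ) ^ p), ← mul_sum]
  have h2p : (0:ℝ) ≤ 2 ^ p := by positivity
  have hpp : 1 ≤ p ^ p := Real.one_le_rpow hp hp0.le
  have h4 : (4 * p) ^ p = 2 ^ p * (2 * p) ^ p := by
    rw [← Real.mul_rpow zero_le_two (by linarith)]; ring_nf
  rcases le_total g 1 with hg1 | hg1
  · have hpt : ∀ z, s z ^ p ≤ 2 * p ^ p * (Real.exp (s z) - 1) := by
      intro z
      have he := Real.add_one_le_exp (s z)
      rcases le_total (s z) 1 with h | h
      · have h1 : s z ^ p ≤ s z := by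
          simpa using Real.rpow_le_self_of_le_one (hs0 z) h hp
        have h2 := le_mul_of_one_le_left (show 0 ≤ Real.exp (s z) - 1 by linarith [hs0 z])
          (show 1 ≤ 2 * p ^ p by linarith)
        linarith
      · have h1 : s z / p ≤ Real.exp (s z / p) := by linarith [Real.add_one_le_exp (s z / p)]
        have h2 := Real.rpow_le_rpow (div_nonneg (hs0 z) hp0.le) h1 hp0.le
        rw [Real.div_rpow (hs0 z) hp0.le, ← Real.exp_mul, div_mul_cancel₀ _ hp0.ne',
          div_le_iff₀ (by positivity)] at h2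
        have h3 : Real.exp (s z) ≤ 2 * (Real.exp (s z) - 1) := by linarith
        calc s z ^ p ≤ Real.exp (s z) * p ^ p := h2
          _ ≤ 2 * (Real.exp (s z) - 1) * p ^ p := by gcongr
          _ = _ := by ring
    have hE : ∑ z, prob p v lam X z * s z ^ p ≤ 2 * p ^ p * (Real.exp g - 1) := by
      calc _ ≤ ∑ z, prob p v lam X z * (2 * p ^ p * (Real.exp (s z) - 1)) :=
            sum_le_sum fun z _ => mul_le_mul_of_nonneg_left (hpt z) (hP z)
        _ = 2 * p ^ p * ∑ z, (prob p v lam X z * Real.exp (s z) - prob p v lam X z) := by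
            rw [mul_sum]; exact sum_congr rfl fun z _ => by ring
        _ = _ := by rw [sum_sub_distrib, hexp, sum_prob]
    have heg : Real.exp g - 1 ≤ 2 * g := by
      have := Real.abs_exp_sub_one_le (x := g) (by rw [abs_of_nonneg hg]; exact hg1)
      rw [abs_of_nonneg hg] at this
      linarith [le_abs_self (Real.exp g - 1)]
    have hk : g ≤ kap p g :=
      le_mul_of_one_le_right hg (Real.one_le_rpow (by linarith) (by linarith))
    have h2pp : p ^ p ≤ (2 * p) ^ p := Real.rpow_le_rpow hp0.le (by linarith) hp0.le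
    calc 2 ^ p * ∑ z, prob p v lam X z * s z ^ p
        ≤ 2 ^ p * (2 * p ^ p * (2 * g)) := mul_le_mul_of_nonneg_left
          (hE.trans (mul_le_mul_of_nonneg_left heg (by positivity))) h2p
      _ ≤ 2 ^ p * (2 * (2 * p) ^ p * (2 * kap p g)) := by
          have := kap_nonneg (p := p) hg
          gcongr
      _ = _ := by rw [mom, h4]; ring
  · have hpt : ∀ z, s z ^ p ≤ (2 * p) ^ p * (g + 1) ^ p * (1 + Real.exp (s z - g)) := by
      intro z
      have hg1' : 1 ≤ (g + 1) ^ p := Real.one_le_rpow (by linarith) hp0.le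
      rcases le_total (s z) (2 * (g + 1)) with h | h
      · have h1 : s z ^ p ≤ (2 * p) ^ p * (g + 1) ^ p := by
          rw [← Real.mul_rpow (by linarith) (by linarith)]
          refine Real.rpow_le_rpow (hs0 z) (h.trans ?_) hp0.le
          exact mul_le_mul_of_nonneg_right (by linarith) (by linarith)
        exact h1.trans (le_mul_of_one_le_right (by positivity)
          (by linarith [Real.exp_pos (s z - g)]))
      · have h1 : s z / (2 * p) ≤ Real.exp (s z / (2 * p)) := by
          linarith [Real.add_one_le_exp (s z / (2 * p))]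
        have h2 := Real.rpow_le_rpow (div_nonneg (hs0 z) (by linarith)) h1 hp0.le
        rw [Real.div_rpow (hs0 z) (by linarith), ← Real.exp_mul,
          div_le_iff₀ (by positivity)] at h2
        have e2 : s z / (2 * p) * p = s z / 2 := by field_simp
        rw [e2] at h2
        have h3 : Real.exp (s z / 2) ≤ (g + 1) ^ p * (1 + Real.exp (s z - g)) := by
          refine le_trans ?_ (le_mul_of_one_le_left (by positivity) hg1')
          have := Real.exp_le_exp.2 (show s z / 2 ≤ s z - g by linarith)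
          linarith
        calc s z ^ p ≤ Real.exp (s z / 2) * (2 * p) ^ p := h2
          _ ≤ (g + 1) ^ p * (1 + Real.exp (s z - g)) * (2 * p) ^ p := by gcongr
          _ = _ := by ring
    have hE : ∑ z, prob p v lam X z * s z ^ p ≤ (2 * p) ^ p * (g + 1) ^ p * 2 := by
      calc _ ≤ ∑ z, prob p v lam X z * ((2 * p) ^ p * (g + 1) ^ p * (1 + Real.exp (s z - g))) :=
            sum_le_sum fun z _ => mul_le_mul_of_nonneg_left (hpt z) (hP z)
        _ = (2 * p) ^ p * (g + 1) ^ p * ∑ z, (prob p v lam X z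
              + prob p v lam X z * Real.exp (s z) * Real.exp (-g)) := by
            rw [mul_sum]
            refine sum_congr rfl fun z _ => ?_
            rw [sub_eq_add_neg (s z), Real.exp_add]; ring
        _ = _ := by
            rw [sum_add_distrib, sum_prob, ← sum_mul, hexp, ← Real.exp_add, add_neg_cancel,
              Real.exp_zero]; norm_num
    have hk : (g + 1) ^ p ≤ 2 * kap p g := by
      have e3 : (g + 1) ^ p = (1 + g) * (1 + g) ^ (p - 1) := by
        rw [← Real.rpow_one_add' (by linarith) (by linarith), add_sub_cancel, add_comm]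
      rw [e3, kap, ← mul_assoc]
      exact mul_le_mul_of_nonneg_right (by linarith) (by positivity)
    calc 2 ^ p * ∑ z, prob p v lam X z * s z ^ p
        ≤ 2 ^ p * ((2 * p) ^ p * (g + 1) ^ p * 2) := mul_le_mul_of_nonneg_left hE h2p
      _ ≤ 2 ^ p * ((2 * p) ^ p * (2 * kap p g) * 2) := by gcongr
      _ = _ := by rw [mom, h4]; ring

/-- Jensen for the Gibbs weights. -/
lemma prob_jensen (hp : 1 ≤ p) (lam : ℝ) (X : κ → ℝ) (F : Fin n → ℝ) :
    |∑ z, prob p v lam X z * F z| ^ p ≤ ∑ z, prob p v lam X z * |F z| ^ p := by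
  refine le_trans (Real.rpow_le_rpow (abs_nonneg _) ?_ (by linarith))
    (Real.rpow_arith_mean_le_arith_mean_rpow univ (fun z => prob p v lam X z) (fun z => |F z|)
      (fun z _ => prob_nonneg lam X z) (sum_prob lam X) (fun z _ => abs_nonneg _) hp)
  refine (abs_sum_le_sum_abs _ _).trans (le_of_eq (sum_congr rfl fun z _ => ?_))
  rw [abs_mul, abs_of_nonneg (prob_nonneg lam X z)]

lemma osc_nonneg {lam : ℝ} (hl : 0 ≤ lam) (X : κ → ℝ) (c : κ) : 0 ≤ osc p v lam X c :=
  sum_nonneg fun e _ => mul_nonneg (mul_nonneg (prob_nonneg _ _ _) (prob_nonneg _ _ _))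
    (Real.rpow_nonneg (mul_nonneg hl (abs_nonneg _)) _)

lemma osc_le_exp (hp : 1 ≤ p) {lam : ℝ} (hl : 0 ≤ lam) (X Y : κ → ℝ) (c : κ) :
    osc p v lam X c
      ≤ Real.exp (4 * (lam * nrm p (fun c => X c - Y c))) * osc p v lam Y c := by
  unfold osc
  rw [mul_sum]
  refine sum_le_sum fun e _ => ?_
  have h1 := prob_le_exp (v := v) hp hl X Y e.1
  have h2 := prob_le_exp (v := v) hp hl X Y e.2
  rw [← mul_assoc]
  refine mul_le_mul_of_nonneg_right ?_ (Real.rpow_nonneg (mul_nonneg hl (abs_nonneg _)) _)
  refine (mul_le_mul h1 h2 (prob_nonneg _ _ _)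
    (mul_nonneg (Real.exp_pos _).le (prob_nonneg _ _ _))).trans_eq ?_
  rw [show (4:ℝ) * (lam * nrm p fun c => X c - Y c)
    = 2 * (lam * nrm p fun c => X c - Y c) + 2 * (lam * nrm p fun c => X c - Y c) by ring,
    Real.exp_add]
  ring

/-- The barycentre moves by at most (log-Lipschitz constant) times the oscillation. -/
lemma bary_lip (hp : 1 ≤ p) {lam : ℝ} (hl : 0 < lam) (X Y : κ → ℝ) (c : κ) :
    lam * |bary p v lam X c - bary p v lam Y c|
      ≤ (Real.exp (2 * (lam * nrm p (fun c => X c - Y c))) - 1)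
        * osc p v lam Y c ^ (1 / p) := by
  have hp0 : 0 < p := by linarith
  set E := Real.exp (2 * (lam * nrm p (fun c => X c - Y c))) with hE
  have hE1 : 1 ≤ E := Real.one_le_exp (by have := nrm_nonneg (p := p) (fun c => X c - Y c); positivity)
  have hd : ∀ z, |prob p v lam X z - prob p v lam Y z| ≤ (E - 1) * prob p v lam Y z := by
    intro z
    have h1 := prob_le_exp (v := v) hp hl.le X Y z
    have h2 := prob_le_exp (v := v) hp hl.le Y X z
    rw [nrm_sub_comm Y X, ← hE] at h2
    rw [← hE] at h1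
    have hY := prob_nonneg (p := p) (v := v) lam Y z
    rw [abs_sub_le_iff]
    refine ⟨by linarith, ?_⟩
    have h3 : prob p v lam Y z - prob p v lam X z ≤ (E - 1) * prob p v lam X z := by linarith
    rcases le_total (prob p v lam X z) (prob p v lam Y z) with h | h
    · exact h3.trans (mul_le_mul_of_nonneg_left h (by linarith))
    · exact le_trans (by linarith) (mul_nonneg (by linarith) hY)
  have hid : bary p v lam X c - bary p v lam Y c
      = ∑ z, (prob p v lam X z - prob p v lam Y z) * (v z c - bary p v lam Y c) := by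
    simp only [sub_mul, mul_sub, sum_sub_distrib, ← sum_mul, sum_prob, one_mul]
    show _ = _ - bary p v lam Y c - (bary p v lam Y c - _)
    unfold bary; ring
  rw [hid]
  have hY := fun z => prob_nonneg (p := p) (v := v) lam Y z
  have hb : ∀ z, lam * |v z c - bary p v lam Y c|
      ≤ ∑ z', prob p v lam Y z' * (lam * |v z c - v z' c|) := by
    intro z
    have : v z c - bary p v lam Y c = ∑ z', prob p v lam Y z' * (v z c - v z' c) := by
      simp only [mul_sub, sum_sub_distrib, ← sum_mul, sum_prob, one_mul, bary]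
    rw [this]
    refine (mul_le_mul_of_nonneg_left (abs_sum_le_sum_abs _ _) hl.le).trans_eq ?_
    rw [mul_sum]
    refine sum_congr rfl fun z' _ => ?_
    rw [abs_mul, abs_of_nonneg (hY z')]; ring
  calc lam * |∑ z, (prob p v lam X z - prob p v lam Y z) * (v z c - bary p v lam Y c)|
      ≤ ∑ z, (E - 1) * prob p v lam Y z *
          ∑ z', prob p v lam Y z' * (lam * |v z c - v z' c|) := by
        refine (mul_le_mul_of_nonneg_left (abs_sum_le_sum_abs _ _) hl.le).trans ?_
        rw [mul_sum]
        refine sum_le_sum fun z _ => ?_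
        rw [abs_mul, mul_left_comm]
        exact mul_le_mul (hd z) (hb z) (mul_nonneg hl.le (abs_nonneg _))
          (mul_nonneg (by linarith) (hY z))
    _ = (E - 1) * ∑ e : Fin n × Fin n,
          prob p v lam Y e.1 * prob p v lam Y e.2 * (lam * |v e.1 c - v e.2 c|) := by
        rw [Fintype.sum_prod_type, mul_sum]
        refine sum_congr rfl fun z _ => ?_
        rw [mul_sum, mul_sum]
        exact sum_congr rfl fun z' _ => by ring
    _ ≤ _ := by
        refine mul_le_mul_of_nonneg_left ?_ (by linarith)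
        exact Real.arith_mean_le_rpow_mean univ
          (fun e : Fin n × Fin n => prob p v lam Y e.1 * prob p v lam Y e.2)
          (fun e => lam * |v e.1 c - v e.2 c|)
          (fun e _ => mul_nonneg (hY _) (hY _)) (sum_prob_pair lam Y)
          (fun e _ => mul_nonneg hl.le (abs_nonneg _)) hp

lemma sum_rpow_lam (hp : 1 ≤ p) {lam : ℝ} (hl : 0 ≤ lam) (u : κ → ℝ) :
    ∑ c, (lam * |u c|) ^ p = (lam * nrm p u) ^ p := by
  rw [Real.mul_rpow hl (nrm_nonneg _), nrm_rpow hp, mul_sum]
  exact sum_congr rfl fun c _ => Real.mul_rpow hl (abs_nonneg _)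

/-- Total oscillation. -/
lemma osc_sum_le (hp : 1 ≤ p) {lam : ℝ} (hl : 0 ≤ lam) (X : κ → ℝ) :
    ∑ c, osc p v lam X c ≤ 2 ^ p * (mom p * kap p (growth p v lam X)) := by
  have hp0 : 0 < p := by linarith
  have hm := moment (v := v) hp hl X
  set Pr := prob p v lam X with hPr
  set D : Fin n → ℝ := fun z => (lam * dz p v X z) ^ p with hD
  have hpair : ∀ e : Fin n × Fin n, (lam * nrm p (fun c => v e.1 c - v e.2 c)) ^ p
      ≤ 2 ^ (p - 1) * (D e.1 + D e.2) := by
    intro e
    have h1 : nrm p (fun c => v e.1 c - v e.2 c) ≤ dz p v X e.1 + dz p v X e.2 := by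
      have := nrm_triangle hp (v e.1) X (v e.2)
      rwa [nrm_sub_comm (v e.1) X] at this
    refine le_trans (Real.rpow_le_rpow (mul_nonneg hl (nrm_nonneg _))
      ((mul_le_mul_of_nonneg_left h1 hl).trans_eq (mul_add _ _ _)) hp0.le) ?_
    have := add_eps_rpow_le hp (mul_nonneg hl (dz_nonneg (p := p) (v := v) X e.1))
      (mul_nonneg hl (dz_nonneg (p := p) (v := v) X e.2)) zero_le_one
    rwa [one_mul, one_mul, one_add_one_eq_two] at this
  unfold osc
  rw [sum_comm]
  simp only [← mul_sum, sum_rpow_lam hp hl]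
  calc ∑ e : Fin n × Fin n, Pr e.1 * Pr e.2 * (lam * nrm p fun c => v e.1 c - v e.2 c) ^ p
      ≤ ∑ e : Fin n × Fin n, 2 ^ (p - 1) * (Pr e.2 * (Pr e.1 * D e.1) + Pr e.1 * (Pr e.2 * D e.2)) := by
        refine sum_le_sum fun e _ => ?_
        refine (mul_le_mul_of_nonneg_left (hpair e)
          (mul_nonneg (prob_nonneg _ _ _) (prob_nonneg _ _ _))).trans_eq ?_
        ring
    _ = 2 ^ (p - 1) * (2 * ∑ z, Pr z * D z) := by
        rw [← mul_sum, sum_add_distrib, Fintype.sum_prod_type, Fintype.sum_prod_type]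
        congr 1
        simp only [← sum_mul, ← mul_sum, hPr, sum_prob, one_mul]
        ring
    _ ≤ 2 ^ (p - 1) * (2 * (mom p * kap p (growth p v lam X))) := by
        gcongr
    _ = _ := by rw [Real.rpow_sub_one two_ne_zero]; ring

/-- The barycentre is close to the point. -/
lemma bary_near (hp : 1 ≤ p) {lam : ℝ} (hl : 0 ≤ lam) (X : κ → ℝ) :
    (lam * nrm p (fun c => bary p v lam X c - X c)) ^ p
      ≤ mom p * kap p (growth p v lam X) := by
  refine le_trans ?_ (moment (v := v) hp hl X)
  rw [← sum_rpow_lam hp hl]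
  calc ∑ c, (lam * |bary p v lam X c - X c|) ^ p
      ≤ ∑ c, ∑ z, prob p v lam X z * (lam * |v z c - X c|) ^ p := by
        refine sum_le_sum fun c _ => ?_
        have e : lam * |bary p v lam X c - X c|
            = |∑ z, prob p v lam X z * (lam * (v z c - X c))| := by
          rw [← abs_of_nonneg hl, ← abs_mul, abs_of_nonneg hl]
          congr 1
          simp only [mul_sub, sum_sub_distrib, ← sum_mul, sum_prob, one_mul, bary, mul_sum]
          congr 1
          exact sum_congr rfl fun z _ => by ring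
        rw [e]
        refine (prob_jensen hp lam X _).trans_eq ?_
        simp only [abs_mul, abs_of_nonneg hl]
    _ = _ := by
        rw [sum_comm]
        simp only [← mul_sum, sum_rpow_lam hp hl]
        refine sum_congr rfl fun z _ => ?_
        rw [dz, nrm_sub_comm]

end Vale.Agent.P249.Sharp
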