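import Mathlib
import Vale.Agent.P249.Sharp.Gibbs
import Vale.Agent.P249.Sharp.Scalar

/-!
Dyadic levels, and the monotone log-Lipschitz magnitude profile of every coordinate.
-/

namespace Vale.Agent.P249.Sharp

open Finset

/-- A configuration of `n` points of `ℓ_p^κ`, the dyadic levels `r0 2^k`, `k ≤ L`, a threshold
`τ` and a floor `η`. -/
structure Cfg (n : ℕ) (κ : Type*) where
  v : Fin n → κ → ℝ
  p : ℝ
  r0 : ℝ
  τ : ℝ
  η : ℝ
  L : ℕ
  hp : 1 ≤ p
  hr0 : 0 < r0
  hτ : 1 ≤ τ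
  hη : 0 < η

/-- A geometric sum with ratio at most one half. -/
lemma geom_le_two {q : ℝ} (h0 : 0 ≤ q) (h1 : q ≤ 1 / 2) (N : ℕ) : ∑ j ∈ range N, q ^ j ≤ 2 := by
  calc ∑ j ∈ range N, q ^ j ≤ ∑ j ∈ range N, (1 / 2 : ℝ) ^ j :=
        sum_le_sum fun j _ => pow_le_pow_left₀ h0 h1 j
    _ ≤ 2 := sum_geometric_two_le N

lemma geom_Ioc_le {q : ℝ} (h0 : 0 ≤ q) (h1 : q ≤ 1 / 2) (i L : ℕ) :
    ∑ k ∈ Ioc i L, q ^ (k - i - 1) ≤ 2 := by
  have e : Ioc i L = Ico (i + 1) (L + 1) := by ext k; simp only [mem_Ioc, mem_Ico]; omega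
  rw [e, sum_Ico_eq_sum_range]
  refine le_of_eq_of_le (sum_congr rfl fun j _ => ?_) (geom_le_two h0 h1 (L + 1 - (i + 1)))
  congr 1; omega

lemma geom_swap_le {q : ℝ} (h0 : 0 ≤ q) (h1 : q ≤ 1 / 2) (L : ℕ) (f : ℕ → ℝ)
    (hf : ∀ k, 0 ≤ f k) :
    ∑ i ∈ range (L + 1), ∑ k ∈ Ioc i L, q ^ (k - i - 1) * f k
      ≤ 2 * ∑ k ∈ range (L + 1), f k := by
  rw [sum_comm' (t' := range (L + 1)) (s' := fun k => range k) (h := fun i k => by
    simp only [mem_range, mem_Ioc]; omega)]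
  rw [mul_sum]
  refine sum_le_sum fun k _ => ?_
  rw [← sum_mul]
  refine mul_le_mul_of_nonneg_right ?_ (hf k)
  refine le_of_eq_of_le ?_ (geom_le_two h0 h1 k)
  rw [← sum_range_reflect (fun j => q ^ j) k]
  refine sum_congr rfl fun i _ => ?_
  congr 1; omega

namespace Cfg

variable {n : ℕ} {κ : Type*} [Fintype κ] (C : Cfg n κ)

/-- Inverse scale of level `k`. -/
noncomputable def lam (k : ℕ) : ℝ := 1 / (C.r0 * 2 ^ k)

/-- Radius of level `k`. -/
noncomputable def rad (k : ℕ) : ℝ := C.r0 * 2 ^ k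

/-- Growth at level `k`. -/
noncomputable def gr (k : ℕ) (X : κ → ℝ) : ℝ := growth C.p C.v (C.lam k) X

/-- Oscillation at level `k`. -/
noncomputable def A (k : ℕ) (X : κ → ℝ) (c : κ) : ℝ := osc C.p C.v (C.lam k) X c

/-- Barycentre at level `k`. -/
noncomputable def bar (k : ℕ) (X : κ → ℝ) (c : κ) : ℝ := bary C.p C.v (C.lam k) X c

/-- Increment between two levels. -/
noncomputable def inc (i k : ℕ) (X : κ → ℝ) (c : κ) : ℝ := C.bar i X c - C.bar k X c

/-- Smooth cut-off of levels with growth much above the threshold. -/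
noncomputable def wt (k : ℕ) (X : κ → ℝ) : ℝ := Real.exp (-max 0 (C.gr k X - 2 * C.τ))

/-- The decay factor between distant levels. -/
noncomputable def q : ℝ := (2:ℝ) ^ (-C.p)

/-- Increment of the profile at level `i`. -/
noncomputable def elem (i : ℕ) (X : κ → ℝ) (c : κ) : ℝ :=
  C.wt i X * C.A i X c + ∑ k ∈ Ioc i C.L, C.q ^ (k - i - 1) *
    (C.wt i X * C.wt k X * (|C.inc i k X c| / C.rad k) ^ C.p + C.wt k X * C.A k X c)

/-- The monotone profile. -/
noncomputable def prof (i : ℕ) (X : κ → ℝ) (c : κ) : ℝ :=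
  C.η + ∑ k ∈ Icc i C.L, C.elem k X c

/-- Log-Lipschitz constant of the profile. -/
noncomputable def ce : ℝ := C.p + 6 + 16 ^ C.p

lemma rad_pos (k : ℕ) : 0 < C.rad k := mul_pos C.hr0 (by positivity)

lemma lam_pos (k : ℕ) : 0 < C.lam k := one_div_pos.2 (C.rad_pos k)

lemma lam_eq (k : ℕ) : C.lam k = 1 / C.rad k := rfl

lemma rad_succ (k : ℕ) : C.rad (k + 1) = 2 * C.rad k := by
  simp only [rad, pow_succ]; ring

lemma rad_mono {i k : ℕ} (h : i ≤ k) : C.rad i ≤ C.rad k :=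
  mul_le_mul_of_nonneg_left (pow_le_pow_right₀ one_le_two h) C.hr0.le

lemma rad_two_mul {i k : ℕ} (h : i < k) : 2 * C.rad i ≤ C.rad k := by
  rw [← rad_succ]; exact C.rad_mono h

lemma rad_eq {i k : ℕ} (h : i ≤ k) : C.rad k = 2 ^ (k - i) * C.rad i := by
  obtain ⟨m, rfl⟩ := Nat.exists_eq_add_of_le h
  simp only [rad, pow_add, Nat.add_sub_cancel_left]; ring

lemma q_pos : 0 < C.q := Real.rpow_pos_of_pos two_pos _

lemma q_le : C.q ≤ 1 / 2 := by
  refine (Real.rpow_le_rpow_of_exponent_le one_le_two (neg_le_neg C.hp)).trans_eq ?_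
  rw [Real.rpow_neg_one]; norm_num

lemma ce_nonneg : 0 ≤ C.ce := by
  have := C.hp
  have : (0:ℝ) < 16 ^ C.p := by positivity
  unfold ce; linarith

variable [NeZero n]

lemma gr_nonneg (k : ℕ) (X : κ → ℝ) : 0 ≤ C.gr k X := growth_nonneg (C.lam_pos k).le X

lemma A_nonneg (k : ℕ) (X : κ → ℝ) (c : κ) : 0 ≤ C.A k X c := osc_nonneg (C.lam_pos k).le X c

omit [NeZero n] in
lemma wt_nonneg (k : ℕ) (X : κ → ℝ) : 0 ≤ C.wt k X := (Real.exp_pos _).le

omit [NeZero n] in
lemma wt_le_one (k : ℕ) (X : κ → ℝ) : C.wt k X ≤ 1 :=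
  Real.exp_le_one_iff.2 (neg_nonpos.2 (le_max_left _ _))

omit [NeZero n] in
lemma wt_eq_one {k : ℕ} {X : κ → ℝ} (h : C.gr k X ≤ 2 * C.τ) : C.wt k X = 1 := by
  rw [wt, max_eq_left (by linarith), neg_zero, Real.exp_zero]

lemma elem_nonneg (i : ℕ) (X : κ → ℝ) (c : κ) : 0 ≤ C.elem i X c := by
  refine add_nonneg (mul_nonneg (C.wt_nonneg _ _) (C.A_nonneg _ _ _))
    (sum_nonneg fun k _ => mul_nonneg (pow_nonneg C.q_pos.le _) (add_nonneg
      (mul_nonneg (mul_nonneg (C.wt_nonneg _ _) (C.wt_nonneg _ _))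
        (Real.rpow_nonneg (div_nonneg (abs_nonneg _) (C.rad_pos k).le) _))
      (mul_nonneg (C.wt_nonneg _ _) (C.A_nonneg _ _ _))))

lemma eta_le_prof (i : ℕ) (X : κ → ℝ) (c : κ) : C.η ≤ C.prof i X c :=
  le_add_of_nonneg_right (sum_nonneg fun k _ => C.elem_nonneg k X c)

lemma prof_pos (i : ℕ) (X : κ → ℝ) (c : κ) : 0 < C.prof i X c :=
  lt_of_lt_of_le C.hη (C.eta_le_prof i X c)

lemma prof_anti {i k : ℕ} (h : i ≤ k) (X : κ → ℝ) (c : κ) : C.prof k X c ≤ C.prof i X c := by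
  unfold prof
  gcongr
  exact fun b _ _ => C.elem_nonneg b X c

lemma elem_le_prof {i k : ℕ} (h1 : i ≤ k) (h2 : k ≤ C.L) (X : κ → ℝ) (c : κ) :
    C.elem k X c ≤ C.prof i X c := by
  have := single_le_sum (fun b _ => C.elem_nonneg b X c) (mem_Icc.2 ⟨h1, h2⟩)
  have := C.hη
  unfold prof
  linarith

omit [NeZero n] in
lemma prof_succ {i : ℕ} (h : i ≤ C.L) (X : κ → ℝ) (c : κ) :
    C.prof i X c = C.elem i X c + C.prof (i + 1) X c := by
  unfold prof
  rw [← add_sum_Ioc_eq_sum_Icc h, show Ioc i C.L = Icc (i + 1) C.L by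
    ext k; simp only [mem_Ioc, mem_Icc]; omega]
  ring

/-- The barycentres move at most eight times the oscillation. -/
lemma bar_lip {k : ℕ} {X Y : κ → ℝ} {t : ℝ} (ht : nrm C.p (fun c => X c - Y c) = t)
    (hk : t ≤ C.rad k) (c : κ) :
    |C.bar k X c - C.bar k Y c| ≤ 8 * t * C.A k Y c ^ (1 / C.p) := by
  have ht0 : 0 ≤ t := ht ▸ nrm_nonneg _
  have hr := C.rad_pos k
  have h := bary_lip (v := C.v) C.hp (C.lam_pos k) X Y c
  rw [ht] at h
  have hx : C.lam k * t ≤ 1 := by rw [lam_eq, one_div_mul_eq_div, div_le_one hr]; exact hk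
  have hx0 : 0 ≤ C.lam k * t := mul_nonneg (C.lam_pos k).le ht0
  have he : Real.exp (2 * (C.lam k * t)) - 1 ≤ 8 * (C.lam k * t) := by
    have h1 := exp_mul_le (c := 2) hx0 hx
    have h2 : Real.exp 2 ≤ 9 := by
      rw [show (2:ℝ) = 1 + 1 by norm_num, Real.exp_add]
      have := Real.exp_one_lt_three
      nlinarith [Real.exp_pos 1]
    have := mul_le_mul_of_nonneg_left (show Real.exp 2 - 1 ≤ 8 by linarith) hx0
    linarith
  have hA : 0 ≤ C.A k Y c ^ (1 / C.p) := Real.rpow_nonneg (C.A_nonneg k Y c) _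
  refine le_of_mul_le_mul_left ?_ (C.lam_pos k)
  calc C.lam k * |C.bar k X c - C.bar k Y c|
      ≤ (Real.exp (2 * (C.lam k * t)) - 1) * C.A k Y c ^ (1 / C.p) := h
    _ ≤ 8 * (C.lam k * t) * C.A k Y c ^ (1 / C.p) := mul_le_mul_of_nonneg_right he hA
    _ = _ := by ring

lemma inc_lip {i k : ℕ} (hik : i ≤ k) {X Y : κ → ℝ} {t : ℝ}
    (ht : nrm C.p (fun c => X c - Y c) = t) (hi : t ≤ C.rad i) (c : κ) :
    |C.inc i k X c - C.inc i k Y c|
      ≤ 8 * t * (C.A i Y c ^ (1 / C.p) + C.A k Y c ^ (1 / C.p)) := by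
  have h1 := C.bar_lip ht hi c
  have h2 := C.bar_lip ht (hi.trans (C.rad_mono hik)) c
  unfold inc
  rw [mul_add]
  calc |C.bar i X c - C.bar k X c - (C.bar i Y c - C.bar k Y c)|
      = |(C.bar i X c - C.bar i Y c) - (C.bar k X c - C.bar k Y c)| := by congr 1; ring
    _ ≤ _ := (abs_sub _ _).trans (add_le_add h1 h2)

lemma wt_le_exp {k : ℕ} {X Y : κ → ℝ} {ε : ℝ}
    (hε : C.lam k * nrm C.p (fun c => X c - Y c) ≤ ε) :
    C.wt k X ≤ Real.exp (2 * ε) * C.wt k Y := by
  unfold wt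
  rw [← Real.exp_add, Real.exp_le_exp]
  have h := (abs_le.1 (growth_lip (v := C.v) C.hp (C.lam_pos k).le X Y))
  have hg : C.gr k Y - C.gr k X ≤ 2 * ε := by
    unfold gr; linarith [h.1]
  have hε0 : 0 ≤ ε := le_trans (mul_nonneg (C.lam_pos k).le (nrm_nonneg _)) hε
  have : max 0 (C.gr k Y - 2 * C.τ) ≤ 2 * ε + max 0 (C.gr k X - 2 * C.τ) :=
    max_le (by linarith [le_max_left 0 (C.gr k X - 2 * C.τ)])
      (by linarith [le_max_right 0 (C.gr k X - 2 * C.τ)])
  linarith

/-- The profile increments are log-Lipschitz at their scale. -/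
lemma elem_le_exp {i : ℕ} {X Y : κ → ℝ} {t : ℝ} (ht : nrm C.p (fun c => X c - Y c) = t)
    (hi : t ≤ C.rad i) (c : κ) :
    C.elem i X c ≤ Real.exp (C.ce * (t / C.rad i)) * C.elem i Y c := by
  have hp := C.hp
  have hp0 : 0 < C.p := by linarith
  set ε := t / C.rad i with hεdef
  have hri := C.rad_pos i
  have ht0 : 0 ≤ t := ht ▸ nrm_nonneg _
  have hε0 : 0 ≤ ε := div_nonneg ht0 hri.le
  have hlam : ∀ k, i ≤ k → C.lam k * nrm C.p (fun c => X c - Y c) ≤ ε := by
    intro k hk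
    rw [ht, lam_eq, one_div_mul_eq_div]
    exact div_le_div_of_nonneg_left ht0 hri (C.rad_mono hk)
  have hA : ∀ k, i ≤ k → C.A k X c ≤ Real.exp (4 * ε) * C.A k Y c := by
    intro k hk
    refine (osc_le_exp (v := C.v) C.hp (C.lam_pos k).le X Y c).trans ?_
    exact mul_le_mul_of_nonneg_right (Real.exp_le_exp.2 (by linarith [hlam k hk]))
      (C.A_nonneg k Y c)
  set K : ℝ := 8 ^ C.p * 2 ^ (C.p - 1) with hK
  have hK0 : 0 ≤ K := by positivity
  have hK2 : 2 * K = 16 ^ C.p := by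
    rw [hK, Real.rpow_sub_one two_ne_zero, show (16:ℝ) = 8 * 2 by norm_num,
      Real.mul_rpow (by norm_num) zero_le_two]
    ring
  set E := Real.exp ((C.p + 6) * ε) with hE
  have hexp : ∀ a, a ≤ (C.p + 6) * ε → Real.exp a ≤ E := fun a ha => Real.exp_le_exp.2 ha
  have hwA : ∀ k, i ≤ k → C.wt k X * C.A k X c ≤ E * (C.wt k Y * C.A k Y c) := by
    intro k hk
    calc C.wt k X * C.A k X c
        ≤ (Real.exp (2 * ε) * C.wt k Y) * (Real.exp (4 * ε) * C.A k Y c) :=
          mul_le_mul (C.wt_le_exp (hlam k hk)) (hA k hk) (C.A_nonneg _ _ _)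
            (mul_nonneg (Real.exp_pos _).le (C.wt_nonneg _ _))
      _ = Real.exp (2 * ε + 4 * ε) * (C.wt k Y * C.A k Y c) := by rw [Real.exp_add]; ring
      _ ≤ _ := mul_le_mul_of_nonneg_right
          (hexp _ (by have := mul_nonneg hp0.le hε0; linarith))
          (mul_nonneg (C.wt_nonneg _ _) (C.A_nonneg _ _ _))
  have hcross : ∀ k ∈ Ioc i C.L,
      C.wt i X * C.wt k X * (|C.inc i k X c| / C.rad k) ^ C.p
        ≤ E * (C.wt i Y * C.wt k Y * (|C.inc i k Y c| / C.rad k) ^ C.p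
          + ε * K * (C.wt i Y * C.A i Y c + C.wt k Y * C.A k Y c)) := by
    intro k hk
    have hik : i ≤ k := (mem_Ioc.1 hk).1.le
    have hrk := C.rad_pos k
    set a := C.A i Y c ^ (1 / C.p) with ha
    set b := C.A k Y c ^ (1 / C.p) with hb
    have ha0 : 0 ≤ a := Real.rpow_nonneg (C.A_nonneg _ _ _) _
    have hb0 : 0 ≤ b := Real.rpow_nonneg (C.A_nonneg _ _ _) _
    have h1 : |C.inc i k X c| / C.rad k ≤ |C.inc i k Y c| / C.rad k + ε * (8 * (a + b)) := by
      have h2 := C.inc_lip hik ht hi c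
      have h3 : |C.inc i k X c| ≤ |C.inc i k Y c| + 8 * t * (a + b) := by
        have := abs_sub_abs_le_abs_sub (C.inc i k X c) (C.inc i k Y c); linarith
      calc |C.inc i k X c| / C.rad k ≤ (|C.inc i k Y c| + 8 * t * (a + b)) / C.rad k :=
            div_le_div_of_nonneg_right h3 hrk.le
        _ = |C.inc i k Y c| / C.rad k + t / C.rad k * (8 * (a + b)) := by ring
        _ ≤ _ := by
            gcongr
            rw [hεdef]
            exact div_le_div_of_nonneg_left ht0 hri (C.rad_mono hik)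
    have h4 : (8 * (a + b)) ^ C.p ≤ K * (C.A i Y c + C.A k Y c) := by
      rw [Real.mul_rpow (by norm_num) (by positivity), hK, mul_assoc]
      refine mul_le_mul_of_nonneg_left ?_ (by positivity)
      have := add_eps_rpow_le C.hp ha0 hb0 zero_le_one
      rw [one_mul, one_mul, one_add_one_eq_two] at this
      rwa [ha, hb, ← Real.rpow_mul (C.A_nonneg _ _ _), ← Real.rpow_mul (C.A_nonneg _ _ _),
        one_div_mul_cancel hp0.ne', Real.rpow_one, Real.rpow_one, ← ha, ← hb] at this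
    have h5 : (1 + ε) ^ (C.p - 1) ≤ Real.exp (C.p * ε) := by
      have := Real.rpow_le_rpow (by linarith) (show 1 + ε ≤ Real.exp ε by
        linarith [Real.add_one_le_exp ε]) (show 0 ≤ C.p - 1 by linarith)
      rw [← Real.exp_mul] at this
      exact this.trans (Real.exp_le_exp.2 (by rw [mul_comm C.p]; gcongr; linarith))
    have h6 := (Real.rpow_le_rpow (by positivity) h1 hp0.le).trans
      (add_eps_rpow_le C.hp (by positivity) (by positivity) hε0)
    have h7 : C.wt i X * C.wt k X ≤ Real.exp (4 * ε) * (C.wt i Y * C.wt k Y) := by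
      calc _ ≤ (Real.exp (2 * ε) * C.wt i Y) * (Real.exp (2 * ε) * C.wt k Y) :=
            mul_le_mul (C.wt_le_exp (hlam i le_rfl)) (C.wt_le_exp (hlam k hik)) (C.wt_nonneg _ _)
              (mul_nonneg (Real.exp_pos _).le (C.wt_nonneg _ _))
        _ = _ := by rw [show 4 * ε = 2 * ε + 2 * ε by ring, Real.exp_add]; ring
    set Z := (|C.inc i k Y c| / C.rad k) ^ C.p
    have hZ0 : 0 ≤ Z := Real.rpow_nonneg (by positivity) _
    have hwi := C.wt_nonneg i Y
    have hwk := C.wt_nonneg k Y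
    have hAi := C.A_nonneg i Y c
    have hAk := C.A_nonneg k Y c
    have hsplit : C.wt i Y * C.wt k Y * (C.A i Y c + C.A k Y c)
        ≤ C.wt i Y * C.A i Y c + C.wt k Y * C.A k Y c := by
      have := mul_le_mul_of_nonneg_right (mul_le_of_le_one_right hwi (C.wt_le_one k Y)) hAi
      have := mul_le_mul_of_nonneg_right (mul_le_of_le_one_left hwk (C.wt_le_one i Y)) hAk
      linarith
    calc C.wt i X * C.wt k X * (|C.inc i k X c| / C.rad k) ^ C.p
        ≤ Real.exp (4 * ε) * (C.wt i Y * C.wt k Y) * (Real.exp (C.p * ε) *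
            (Z + ε * (K * (C.A i Y c + C.A k Y c)))) := by
          refine mul_le_mul h7 (h6.trans ?_) (Real.rpow_nonneg (by positivity) _) (by positivity)
          gcongr
      _ = Real.exp (4 * ε + C.p * ε) * (C.wt i Y * C.wt k Y * Z
            + ε * K * (C.wt i Y * C.wt k Y * (C.A i Y c + C.A k Y c))) := by
          rw [Real.exp_add]; ring
      _ ≤ _ := by
          gcongr
          exact hexp _ (by linarith)
  set F := ∑ k ∈ Ioc i C.L, C.q ^ (k - i - 1) * (C.wt k Y * C.A k Y c) with hF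
  have hF0 : 0 ≤ F := sum_nonneg fun k _ => mul_nonneg (pow_nonneg C.q_pos.le _)
    (mul_nonneg (C.wt_nonneg _ _) (C.A_nonneg _ _ _))
  have hwAi : 0 ≤ C.wt i Y * C.A i Y c := mul_nonneg (C.wt_nonneg _ _) (C.A_nonneg _ _ _)
  have hGF : ∑ k ∈ Ioc i C.L, C.q ^ (k - i - 1) *
      (C.wt i Y * C.A i Y c + C.wt k Y * C.A k Y c) ≤ 2 * (C.wt i Y * C.A i Y c) + F := by
    simp only [mul_add, sum_add_distrib, ← sum_mul, hF]
    gcongr
    exact geom_Ioc_le C.q_pos.le C.q_le i C.L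
  have hmain : C.elem i X c ≤ E * (C.elem i Y c + ε * K * (2 * (C.wt i Y * C.A i Y c) + F)) := by
    have h := add_le_add (hwA i le_rfl) (sum_le_sum (s := Ioc i C.L) fun k hk =>
      mul_le_mul_of_nonneg_left (add_le_add (hcross k hk) (hwA k (mem_Ioc.1 hk).1.le))
        (pow_nonneg C.q_pos.le (k - i - 1)))
    refine h.trans ?_
    have h8 := mul_le_mul_of_nonneg_left hGF (mul_nonneg (Real.exp_pos ((C.p + 6) * ε)).le
      (mul_nonneg hε0 hK0))
    rw [← hE, mul_sum] at h8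
    unfold elem
    simp only [mul_add, sum_add_distrib, mul_sum] at h8 ⊢
    simp only [mul_assoc, mul_left_comm] at h8 ⊢
    linarith
  refine hmain.trans ?_
  have hle : 2 * (C.wt i Y * C.A i Y c) + F ≤ 2 * C.elem i Y c := by
    have : F ≤ ∑ k ∈ Ioc i C.L, C.q ^ (k - i - 1) *
        (C.wt i Y * C.wt k Y * (|C.inc i k Y c| / C.rad k) ^ C.p
          + C.wt k Y * C.A k Y c) :=
      sum_le_sum fun k _ => mul_le_mul_of_nonneg_left (le_add_of_nonneg_left
        (mul_nonneg (mul_nonneg (C.wt_nonneg _ _) (C.wt_nonneg _ _))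
          (Real.rpow_nonneg (div_nonneg (abs_nonneg _) (C.rad_pos k).le) _)))
        (pow_nonneg C.q_pos.le _)
    unfold elem
    linarith
  calc E * (C.elem i Y c + ε * K * (2 * (C.wt i Y * C.A i Y c) + F))
      ≤ E * ((1 + 16 ^ C.p * ε) * C.elem i Y c) := by
        gcongr
        have h9 := mul_le_mul_of_nonneg_left hle (mul_nonneg hε0 hK0)
        rw [← hK2]
        linarith
    _ ≤ E * (Real.exp (16 ^ C.p * ε) * C.elem i Y c) := by
        gcongr
        · exact C.elem_nonneg i Y c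
        · linarith [Real.add_one_le_exp (16 ^ C.p * ε)]
    _ = _ := by rw [← mul_assoc, hE, ← Real.exp_add, ce]; ring_nf

/-- Profiles at nearby points are comparable. -/
lemma prof_le_exp {i : ℕ} {X Y : κ → ℝ} {t : ℝ} (ht : nrm C.p (fun c => X c - Y c) = t)
    (hi : t ≤ C.rad i) (c : κ) : C.prof i X c ≤ Real.exp C.ce * C.prof i Y c := by
  have hce := C.ce_nonneg
  have h1 : 1 ≤ Real.exp C.ce := Real.one_le_exp hce
  unfold prof
  rw [mul_add, mul_sum]
  refine add_le_add (le_mul_of_one_le_left C.hη.le h1) (sum_le_sum fun k hk => ?_)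
  have hik := (mem_Icc.1 hk).1
  refine (C.elem_le_exp ht (hi.trans (C.rad_mono hik)) c).trans ?_
  refine mul_le_mul_of_nonneg_right (Real.exp_le_exp.2 ?_) (C.elem_nonneg k Y c)
  exact mul_le_of_le_one_right hce ((div_le_one (C.rad_pos k)).2 (hi.trans (C.rad_mono hik)))

/-- Variation of the profile increments. -/
lemma elem_diff {i : ℕ} {X Y : κ → ℝ} {t : ℝ} (ht : nrm C.p (fun c => X c - Y c) = t)
    (hi : t ≤ C.rad i) (c : κ) :
    |C.elem i X c - C.elem i Y c|
      ≤ Real.exp C.ce * (t / C.rad i) * (C.elem i X c + C.elem i Y c) := by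
  have ht0 : 0 ≤ t := ht ▸ nrm_nonneg _
  set ε := t / C.rad i
  have hε0 : 0 ≤ ε := div_nonneg ht0 (C.rad_pos i).le
  have hε1 : ε ≤ 1 := (div_le_one (C.rad_pos i)).2 hi
  have h1 := C.elem_le_exp ht hi c
  have h2 := C.elem_le_exp (by rw [nrm_sub_comm]; exact ht) hi c (X := Y) (Y := X)
  have he : Real.exp (C.ce * ε) - 1 ≤ Real.exp C.ce * ε := by
    have := exp_mul_le (c := C.ce) hε0 hε1
    linarith
  have hx := C.elem_nonneg i X c
  have hy := C.elem_nonneg i Y c
  have hee : 0 ≤ Real.exp C.ce * ε := mul_nonneg (Real.exp_pos _).le hε0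
  rw [abs_sub_le_iff]
  constructor
  · have := mul_le_mul_of_nonneg_right he hy
    have := mul_nonneg hee hx
    linarith
  · have := mul_le_mul_of_nonneg_right he hx
    have := mul_nonneg hee hy
    linarith

omit [NeZero n] in
lemma gr_eq (k : ℕ) (X : κ → ℝ) : C.gr k X
    = Real.log (part C.p C.v (C.lam (k + 1)) X) - Real.log (part C.p C.v (C.lam k) X) := by
  have : C.lam (k + 1) = C.lam k / 2 := by simp only [lam, pow_succ]; ring
  rw [gr, growth, this]

/-- The growths telescope. -/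
lemma sum_gr_le (x : Fin n) (m : ℕ) :
    ∑ k ∈ range m, C.gr k (C.v x) ≤ Real.log n := by
  simp only [gr_eq]
  rw [sum_range_sub (fun k => Real.log (part C.p C.v (C.lam k) (C.v x)))]
  have h1 : 0 ≤ Real.log (part C.p C.v (C.lam 0) (C.v x)) :=
    Real.log_nonneg (one_le_part C.hp _ x)
  have h2 : Real.log (part C.p C.v (C.lam m) (C.v x)) ≤ Real.log n :=
    Real.log_le_log (part_pos _ _) (part_le fun z => mul_nonneg (C.lam_pos m).le (dz_nonneg _ _))
  linarith

/-- The damped weight of a level. -/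
lemma wt_kap_le (k : ℕ) (X : κ → ℝ) :
    C.wt k X * kap C.p (C.gr k X)
      ≤ C.p ^ (C.p - 1) * 2 ^ (C.p - 1) * (1 + C.τ) ^ (C.p - 1) * C.gr k X := by
  have hp := C.hp
  have hτ := C.hτ
  have hp0 : 0 < C.p := by linarith
  set g := C.gr k X with hg
  have hg0 : 0 ≤ g := C.gr_nonneg k X
  set s := max 0 (g - 2 * C.τ) with hs
  have hs0 : 0 ≤ s := le_max_left _ _
  have hgs : g ≤ 2 * C.τ + s := by linarith [le_max_right 0 (g - 2 * C.τ)]
  have h1 : 1 + g ≤ 2 * (1 + C.τ) * (C.p * Real.exp (s / C.p)) := by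
    have h2 : 1 + s ≤ C.p * Real.exp (s / C.p) := by
      have := mul_le_mul_of_nonneg_left (Real.add_one_le_exp (s / C.p)) hp0.le
      rw [mul_add, mul_one, mul_div_cancel₀ _ hp0.ne'] at this
      linarith
    refine le_trans ?_ (mul_le_mul_of_nonneg_left h2 (by linarith))
    have := mul_nonneg (show (0:ℝ) ≤ C.τ by linarith) hs0
    linarith
  have h3 := Real.rpow_le_rpow (by linarith) h1 (show 0 ≤ C.p - 1 by linarith)
  rw [Real.mul_rpow (by linarith) (by positivity), Real.mul_rpow zero_le_two (by linarith),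
    Real.mul_rpow hp0.le (Real.exp_pos _).le, ← Real.exp_mul] at h3
  have h4 : C.wt k X * Real.exp (s / C.p * (C.p - 1)) ≤ 1 := by
    rw [wt, ← hs, ← Real.exp_add, Real.exp_le_one_iff]
    have : s / C.p * (C.p - 1) = s - s / C.p := by field_simp
    have : 0 ≤ s / C.p := by positivity
    linarith
  calc C.wt k X * kap C.p g = g * (C.wt k X * (1 + g) ^ (C.p - 1)) := by unfold kap; ring
    _ ≤ g * (C.wt k X * (2 ^ (C.p - 1) * (1 + C.τ) ^ (C.p - 1) *
          (C.p ^ (C.p - 1) * Real.exp (s / C.p * (C.p - 1))))) := by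
        gcongr
        exact C.wt_nonneg k X
    _ = C.p ^ (C.p - 1) * 2 ^ (C.p - 1) * (1 + C.τ) ^ (C.p - 1) * g
          * (C.wt k X * Real.exp (s / C.p * (C.p - 1))) := by ring
    _ ≤ _ := mul_le_of_le_one_right (by positivity) h4

lemma A_sum_le (k : ℕ) (X : κ → ℝ) :
    ∑ c, C.A k X c ≤ 2 ^ C.p * (mom C.p * kap C.p (C.gr k X)) :=
  osc_sum_le C.hp (C.lam_pos k).le X

/-- Norm of an increment. -/
lemma inc_sum_le {i k : ℕ} (hik : i ≤ k) (X : κ → ℝ) :
    ∑ c, (|C.inc i k X c| / C.rad k) ^ C.p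
      ≤ 2 ^ (C.p - 1) * (mom C.p * kap C.p (C.gr i X) + mom C.p * kap C.p (C.gr k X)) := by
  have hp0 : 0 < C.p := by linarith [C.hp]
  have hl := (C.lam_pos k).le
  have e : ∀ c, |C.inc i k X c| / C.rad k = C.lam k * |C.inc i k X c| := fun c => by
    rw [lam_eq]; ring
  simp only [e]
  rw [sum_rpow_lam C.hp hl]
  have h1 : nrm C.p (fun c => C.inc i k X c)
      ≤ nrm C.p (fun c => C.bar i X c - X c) + nrm C.p (fun c => C.bar k X c - X c) := by
    refine (nrm_triangle C.hp (C.bar i X) X (C.bar k X)).trans_eq ?_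
    rw [nrm_sub_comm X]
  have hli : C.lam k ≤ C.lam i := one_div_le_one_div_of_le (C.rad_pos i) (C.rad_mono hik)
  have h2 : C.lam k * nrm C.p (fun c => C.inc i k X c)
      ≤ C.lam i * nrm C.p (fun c => C.bar i X c - X c)
        + C.lam k * nrm C.p (fun c => C.bar k X c - X c) := by
    refine (mul_le_mul_of_nonneg_left h1 hl).trans ?_
    rw [mul_add]
    gcongr
    exact nrm_nonneg _
  refine (Real.rpow_le_rpow (mul_nonneg hl (nrm_nonneg _)) h2 hp0.le).trans ?_
  have h3 := add_eps_rpow_le C.hp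
    (mul_nonneg (C.lam_pos i).le (nrm_nonneg (p := C.p) (fun c => C.bar i X c - X c)))
    (mul_nonneg hl (nrm_nonneg (p := C.p) (fun c => C.bar k X c - X c))) zero_le_one
  rw [one_mul, one_mul, one_add_one_eq_two] at h3
  refine h3.trans ?_
  gcongr
  · exact bary_near C.hp (C.lam_pos i).le X
  · exact bary_near C.hp hl X

/-- The total profile constant. -/
noncomputable def cv : ℝ :=
  6 * (2 ^ C.p * mom C.p) * (C.p ^ (C.p - 1) * 2 ^ (C.p - 1))

/-- The norm of the profile. -/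
lemma prof_sum_le (x : Fin n) (i : ℕ) :
    ∑ c, C.prof i (C.v x) c
      ≤ Fintype.card κ * C.η + C.cv * ((1 + C.τ) ^ (C.p - 1) * Real.log n) := by
  have hp := C.hp
  set X := C.v x
  set K := 2 ^ C.p * mom C.p with hK
  have hm : 0 ≤ mom C.p := mom_nonneg hp
  have hK0 : 0 ≤ K := mul_nonneg (by positivity) hm
  set f : ℕ → ℝ := fun k => C.wt k X * kap C.p (C.gr k X) with hf
  have hf0 : ∀ k, 0 ≤ f k := fun k => mul_nonneg (C.wt_nonneg k X) (kap_nonneg (C.gr_nonneg k X))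
  have hi : ∀ j, ∑ c, C.elem j X c
      ≤ 2 * K * f j + 2 * K * ∑ k ∈ Ioc j C.L, C.q ^ (k - j - 1) * f k := by
    intro j
    unfold elem
    rw [sum_add_distrib, sum_comm]
    simp only [mul_add, ← mul_assoc, sum_add_distrib, ← mul_sum]
    have h1 : C.wt j X * ∑ c, C.A j X c ≤ K * f j := by
      refine (mul_le_mul_of_nonneg_left (C.A_sum_le j X) (C.wt_nonneg j X)).trans_eq ?_
      simp only [hK, hf]; ring
    have h2 : ∀ k ∈ Ioc j C.L, C.q ^ (k - j - 1) * C.wt j X * C.wt k X *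
        ∑ c, (|C.inc j k X c| / C.rad k) ^ C.p
          ≤ C.q ^ (k - j - 1) * (K / 2 * f j + K / 2 * f k) := by
      intro k hk
      have hkj := C.inc_sum_le (mem_Ioc.1 hk).1.le X
      rw [mul_assoc, mul_assoc]
      refine mul_le_mul_of_nonneg_left ?_ (pow_nonneg C.q_pos.le _)
      rw [← mul_assoc]
      refine (mul_le_mul_of_nonneg_left hkj
        (mul_nonneg (C.wt_nonneg _ _) (C.wt_nonneg _ _))).trans ?_
      have a0 := C.wt_nonneg j X
      have b0 := C.wt_nonneg k X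
      have a1 := mul_le_of_le_one_right a0 (C.wt_le_one k X)
      have b1 := mul_le_of_le_one_left b0 (C.wt_le_one j X)
      have hkj0 := kap_nonneg (p := C.p) (C.gr_nonneg j X)
      have hkk0 := kap_nonneg (p := C.p) (C.gr_nonneg k X)
      calc C.wt j X * C.wt k X *
            (2 ^ (C.p - 1) * (mom C.p * kap C.p (C.gr j X) + mom C.p * kap C.p (C.gr k X)))
          = K / 2 * ((C.wt j X * C.wt k X) * kap C.p (C.gr j X))
            + K / 2 * ((C.wt j X * C.wt k X) * kap C.p (C.gr k X)) := by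
            rw [hK, Real.rpow_sub_one two_ne_zero]; ring
        _ ≤ K / 2 * (C.wt j X * kap C.p (C.gr j X))
            + K / 2 * (C.wt k X * kap C.p (C.gr k X)) := by gcongr
    have h3 : ∀ k ∈ Ioc j C.L, C.q ^ (k - j - 1) * C.wt k X * ∑ c, C.A k X c
        ≤ C.q ^ (k - j - 1) * (K * f k) := by
      intro k _
      rw [mul_assoc]
      refine mul_le_mul_of_nonneg_left ?_ (pow_nonneg C.q_pos.le _)
      refine (mul_le_mul_of_nonneg_left (C.A_sum_le k X) (C.wt_nonneg k X)).trans_eq ?_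
      simp only [hK, hf]; ring
    have h4 := mul_le_mul_of_nonneg_left (geom_Ioc_le C.q_pos.le C.q_le j C.L)
      (show 0 ≤ K / 2 * f j by have := hf0 j; positivity)
    have h5 := sum_le_sum h2
    have h6 := sum_le_sum h3
    simp only [mul_add, sum_add_distrib, mul_left_comm _ (K / 2 : ℝ), mul_left_comm _ K,
      ← mul_sum, ← sum_mul] at h5 h6
    have hS : 0 ≤ ∑ k ∈ Ioc j C.L, C.q ^ (k - j - 1) * f k :=
      sum_nonneg fun k _ => mul_nonneg (pow_nonneg C.q_pos.le _) (hf0 k)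
    have := mul_nonneg hK0 hS
    linarith
  have hsum : ∑ j ∈ range (C.L + 1), ∑ c, C.elem j X c ≤ 6 * K * ∑ j ∈ range (C.L + 1), f j := by
    refine (sum_le_sum fun j _ => hi j).trans ?_
    rw [sum_add_distrib, ← mul_sum, ← mul_sum]
    have := mul_le_mul_of_nonneg_left (geom_swap_le C.q_pos.le C.q_le C.L f hf0)
      (show 0 ≤ 2 * K by positivity)
    linarith
  have hfs : ∑ j ∈ range (C.L + 1), f j
      ≤ C.p ^ (C.p - 1) * 2 ^ (C.p - 1) * (1 + C.τ) ^ (C.p - 1) * Real.log n := by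
    refine (sum_le_sum fun j _ => C.wt_kap_le j X).trans ?_
    rw [← mul_sum]
    have := C.hτ
    exact mul_le_mul_of_nonneg_left (C.sum_gr_le x _) (by positivity)
  calc ∑ c, C.prof i X c = Fintype.card κ * C.η + ∑ j ∈ Icc i C.L, ∑ c, C.elem j X c := by
        unfold prof
        rw [sum_add_distrib, sum_comm, sum_const, card_univ, nsmul_eq_mul]
    _ ≤ Fintype.card κ * C.η + ∑ j ∈ range (C.L + 1), ∑ c, C.elem j X c := by
        gcongr
        · exact fun j _ _ => sum_nonneg fun c _ => C.elem_nonneg j X c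
        · intro j hj; simp only [mem_range, mem_Icc] at *; omega
    _ ≤ Fintype.card κ * C.η + 6 * K * (C.p ^ (C.p - 1) * 2 ^ (C.p - 1)
          * (1 + C.τ) ^ (C.p - 1) * Real.log n) := by
        gcongr
        exact hsum.trans (mul_le_mul_of_nonneg_left hfs (by positivity))
    _ = _ := by rw [cv, hK]; ring

end Cfg

end Vale.Agent.P249.Sharp
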