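import Mathlib
import Vale.Agent.P249.Sharp.Profile
import Vale.Agent.P249.Sharp.Frame

/-!
Estimates for one segment of a chain: the increment between two levels, placed in the frame of
its magnitude.
-/

namespace Vale.Agent.P249.Sharp

open Finset

namespace Cfg

variable {n : ℕ} {κ : Type*} [Fintype κ] (C : Cfg n κ)

/-- Magnitude of an increment, normalised at the finer radius. -/
noncomputable def mag (i k : ℕ) (X : κ → ℝ) (c : κ) : ℝ := |C.inc i k X c| / C.rad i

/-- Position of an increment in the frame. -/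
noncomputable def wfun (i k : ℕ) (X : κ → ℝ) (c : κ) : ℝ :=
  Real.log (C.prof i X c + C.mag i k X c ^ C.p)

/-- An increment placed in its frame. -/
noncomputable def psi (J : ℝ) (N : ℕ) (i k : ℕ) (X : κ → ℝ) (c : κ) (s : Fin (2 * N + 1)) : ℝ :=
  C.inc i k X c * frame C.p J N (C.wfun i k X c) s

/-- The two-point profile. -/
noncomputable def vb (i : ℕ) (X Y : κ → ℝ) (c : κ) : ℝ := C.prof i X c + C.prof i Y c

/-- The reference position of a pair. -/
noncomputable def ref (i : ℕ) (X Y : κ → ℝ) (c : κ) : ℝ := Real.log (C.vb i X Y c / 2)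

/-- Sum of the oscillations of two points. -/
noncomputable def osc2 (k : ℕ) (X Y : κ → ℝ) (c : κ) : ℝ :=
  C.A k X c ^ (1 / C.p) + C.A k Y c ^ (1 / C.p)

lemma vb_comm (i : ℕ) (X Y : κ → ℝ) (c : κ) : C.vb i X Y c = C.vb i Y X c := add_comm _ _

lemma ref_comm (i : ℕ) (X Y : κ → ℝ) (c : κ) : C.ref i X Y c = C.ref i Y X c := by
  rw [ref, ref, C.vb_comm]

lemma osc2_comm (k : ℕ) (X Y : κ → ℝ) (c : κ) : C.osc2 k X Y c = C.osc2 k Y X c := add_comm _ _

lemma mag_nonneg (i k : ℕ) (X : κ → ℝ) (c : κ) : 0 ≤ C.mag i k X c :=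
  div_nonneg (abs_nonneg _) (C.rad_pos i).le

lemma abs_inc_eq (i k : ℕ) (X : κ → ℝ) (c : κ) : |C.inc i k X c| = C.rad i * C.mag i k X c := by
  rw [mag, mul_div_cancel₀ _ (C.rad_pos i).ne']

/-- A vector of frame differences. -/
lemma nrm_frame_diff {J : ℝ} (hJ : 0 < J) (N : ℕ) (u a b : ℝ) :
    nrm C.p (fun s : Fin (2 * N + 1) => u * (frame C.p J N a s - frame C.p J N b s))
      ≤ 16 / J * (|u| * |a - b|) := by
  have e : nrm C.p (fun s : Fin (2 * N + 1) => u * (frame C.p J N a s - frame C.p J N b s))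
      = |u| * nrm C.p (fun s : Fin (2 * N + 1) => frame C.p J N a s - frame C.p J N b s) := by
    rw [← nrm_smul C.hp (abs_nonneg u)]
    unfold nrm
    simp only [abs_mul, abs_abs]
  rw [e]
  refine (mul_le_mul_of_nonneg_left (frame_lip C.hp hJ a b) (abs_nonneg u)).trans_eq ?_
  ring

variable [NeZero n]

lemma vb_pos (i : ℕ) (X Y : κ → ℝ) (c : κ) : 0 < C.vb i X Y c :=
  add_pos (C.prof_pos i X c) (C.prof_pos i Y c)

lemma osc2_nonneg (k : ℕ) (X Y : κ → ℝ) (c : κ) : 0 ≤ C.osc2 k X Y c :=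
  add_nonneg (Real.rpow_nonneg (C.A_nonneg _ _ _) _) (Real.rpow_nonneg (C.A_nonneg _ _ _) _)

lemma A_le_elem {i : ℕ} {X : κ → ℝ} (hi : C.gr i X ≤ 2 * C.τ) (c : κ) :
    C.A i X c ≤ C.elem i X c := by
  unfold elem
  rw [C.wt_eq_one hi, one_mul]
  refine le_add_of_nonneg_right (sum_nonneg fun k _ => mul_nonneg (pow_nonneg C.q_pos.le _)
    (add_nonneg (mul_nonneg (by rw [one_mul]; exact C.wt_nonneg _ _)
      (Real.rpow_nonneg (div_nonneg (abs_nonneg _) (C.rad_pos k).le) _))
      (mul_nonneg (C.wt_nonneg _ _) (C.A_nonneg _ _ _))))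

lemma root_A_le {j i : ℕ} (hji : j ≤ i) (hiL : i ≤ C.L) {X : κ → ℝ}
    (hi : C.gr i X ≤ 2 * C.τ) (c : κ) :
    C.A i X c ^ (1 / C.p) ≤ C.prof j X c ^ (1 / C.p) :=
  Real.rpow_le_rpow (C.A_nonneg _ _ _) ((C.A_le_elem hi c).trans (C.elem_le_prof hji hiL X c))
    (by have := C.hp; positivity)

/-- A magnitude is controlled by the profile increment at its finer level. -/
lemma mag_le_elem {i k : ℕ} (hik : i < k) (hkL : k ≤ C.L) {X : κ → ℝ}
    (hi : C.gr i X ≤ 2 * C.τ) (hk : C.gr k X ≤ 2 * C.τ) (c : κ) :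
    C.mag i k X c ^ C.p
      ≤ (2:ℝ) ^ (2 * C.p * ((k - (i + 1) : ℕ) : ℝ) + C.p) * C.elem i X c := by
  have hp := C.hp
  set m := k - (i + 1) with hm
  set Z := (|C.inc i k X c| / C.rad k) ^ C.p with hZ
  have h1 : C.q ^ m * Z ≤ C.elem i X c := by
    have hs := single_le_sum (f := fun j => C.q ^ (j - i - 1) *
      (C.wt i X * C.wt j X * (|C.inc i j X c| / C.rad j) ^ C.p + C.wt j X * C.A j X c))
      (fun j _ => mul_nonneg (pow_nonneg C.q_pos.le _) (add_nonneg
        (mul_nonneg (mul_nonneg (C.wt_nonneg _ _) (C.wt_nonneg _ _))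
          (Real.rpow_nonneg (div_nonneg (abs_nonneg _) (C.rad_pos j).le) _))
        (mul_nonneg (C.wt_nonneg _ _) (C.A_nonneg _ _ _))))
      (mem_Ioc.2 ⟨hik, hkL⟩)
    simp only [C.wt_eq_one hi, C.wt_eq_one hk, one_mul] at hs
    rw [show k - i - 1 = m by omega] at hs
    have hA := mul_nonneg (pow_nonneg C.q_pos.le m) (C.A_nonneg k X c)
    have hwA := mul_nonneg (C.wt_nonneg i X) (C.A_nonneg i X c)
    unfold elem
    simp only [C.wt_eq_one hi, one_mul] at hwA ⊢
    rw [mul_add] at hs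
    linarith
  have h2 : C.mag i k X c = 2 ^ (m + 1) * (|C.inc i k X c| / C.rad k) := by
    rw [mag, C.rad_eq hik.le, show k - i = m + 1 by omega]
    field_simp
  have hq : C.q ^ m = (2:ℝ) ^ (-C.p * m) := by
    rw [q, ← Real.rpow_natCast, ← Real.rpow_mul zero_le_two]
  rw [h2, Real.mul_rpow (by positivity) (div_nonneg (abs_nonneg _) (C.rad_pos k).le), ← hZ,
    ← Real.rpow_natCast_mul zero_le_two]
  calc (2:ℝ) ^ (((m + 1 : ℕ) : ℝ) * C.p) * Z
      = (2:ℝ) ^ (2 * C.p * (m:ℝ) + C.p) * ((2:ℝ) ^ (-C.p * (m:ℝ)) * Z) := by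
        rw [← mul_assoc, ← Real.rpow_add two_pos]
        congr 2
        push_cast; ring
    _ ≤ _ := by
        rw [← hq]
        exact mul_le_mul_of_nonneg_left h1 (by positivity)

/-- Position of an increment against any profile dominating it. -/
lemma wfun_near {i k : ℕ} (hik : i < k) (hkL : k ≤ C.L) {X : κ → ℝ}
    (hi : C.gr i X ≤ 2 * C.τ) (hk : C.gr k X ≤ 2 * C.τ) (c : κ) {V : ℝ}
    (hV : C.prof 0 X c ≤ V) :
    |C.wfun i k X c - Real.log (V / 2)|
      ≤ C.p * (2 * ((k - (i + 1) : ℕ) : ℝ) + 3) + Real.log (1 + V / C.mag i k X c ^ C.p)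
      ∨ C.mag i k X c = 0 := by
  rcases (C.mag_nonneg i k X c).eq_or_lt' with h0 | h0
  · exact Or.inr h0
  left
  have hp := C.hp
  set z := C.mag i k X c ^ C.p with hz
  set Vi := C.prof i X c with hVi
  set m := ((k - (i + 1) : ℕ) : ℝ) with hmdef
  have hm : 0 ≤ m := Nat.cast_nonneg _
  have hz0 : 0 < z := Real.rpow_pos_of_pos h0 _
  have hVi0 : 0 < Vi := C.prof_pos i X c
  have hViV : Vi ≤ V := (C.prof_anti (Nat.zero_le i) X c).trans hV
  have hV0 : 0 < V := lt_of_lt_of_le hVi0 hViV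
  have hlog0 : 0 ≤ Real.log (1 + V / z) := Real.log_nonneg (by
    have : 0 ≤ V / z := by positivity
    linarith)
  unfold wfun
  rw [← hz, ← hVi, abs_sub_le_iff]
  constructor
  · have he : C.elem i X c ≤ V :=
      (C.elem_le_prof (Nat.zero_le i) (hik.le.trans hkL) X c).trans hV
    have hzV : z ≤ (2:ℝ) ^ (2 * C.p * m + C.p) * V :=
      (C.mag_le_elem hik hkL hi hk c).trans (mul_le_mul_of_nonneg_left he (by positivity))
    set T := (2:ℝ) ^ (2 * C.p * m + C.p)
    have hT : 1 ≤ T := Real.one_le_rpow one_le_two (by positivity)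
    rw [← Real.log_div (by positivity) (by positivity)]
    have hle : (Vi + z) / (V / 2) ≤ (2:ℝ) ^ (2 * C.p * m + C.p + 2) := by
      rw [div_le_iff₀ (by positivity), Real.rpow_add two_pos, Real.rpow_two]
      have := le_mul_of_one_le_left hV0.le hT
      change Vi + z ≤ T * 2 ^ 2 * (V / 2)
      linarith
    refine le_trans (Real.log_le_log (by positivity) hle) ?_
    rw [Real.log_rpow two_pos]
    have hl : Real.log 2 ≤ 1 := by
      have := Real.log_le_sub_one_of_pos (two_pos (α := ℝ)); linarith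
    have := mul_le_of_le_one_right (show 0 ≤ 2 * C.p * m + C.p + 2 by positivity) hl
    linarith
  · rw [← Real.log_div (by positivity) (by positivity)]
    have hle : V / 2 / (Vi + z) ≤ 1 + V / z := by
      calc V / 2 / (Vi + z) ≤ V / z := div_le_div₀ hV0.le (by linarith) hz0 (by linarith)
        _ ≤ 1 + V / z := by linarith
    have := Real.log_le_log (by positivity) hle
    have : 0 ≤ C.p * (2 * m + 3) := by positivity
    linarith

/-- An increment against any reference dominating its profile. -/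
lemma inc_mul_shift {i k : ℕ} (hik : i < k) (hkL : k ≤ C.L) {X : κ → ℝ}
    (hi : C.gr i X ≤ 2 * C.τ) (hk : C.gr k X ≤ 2 * C.τ) (c : κ) {V : ℝ}
    (hV : C.prof 0 X c ≤ V) {u : ℝ} {K : ℝ} (hK : 0 ≤ K)
    (hu : |u| ≤ K * |C.inc i k X c|) :
    |u| * |C.wfun i k X c - Real.log (V / 2)|
      ≤ C.p * ((2 * ((k - (i + 1) : ℕ) : ℝ) + 3) * |u| + K * C.rad i * V ^ (1 / C.p)) := by
  have hp := C.hp
  have hr := C.rad_pos i
  have hV0 : 0 < V := lt_of_lt_of_le (C.prof_pos 0 X c) hV
  rcases C.wfun_near hik hkL hi hk c hV with h | h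
  · have h1 := mul_le_mul_of_nonneg_left h (abs_nonneg u)
    have hL : 0 ≤ Real.log (1 + V / C.mag i k X c ^ C.p) := Real.log_nonneg (by
      have : 0 ≤ V / C.mag i k X c ^ C.p :=
        div_nonneg hV0.le (Real.rpow_nonneg (C.mag_nonneg _ _ _ _) _)
      linarith)
    have h2 := mul_le_mul_of_nonneg_right hu hL
    have h3 := mul_log_le C.hp (C.mag_nonneg i k X c) hV0.le
    rw [C.abs_inc_eq] at h2
    have h4 := mul_le_mul_of_nonneg_left h3 (show 0 ≤ K * C.rad i by positivity)
    linarith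
  · have : |u| = 0 := le_antisymm (by rw [C.abs_inc_eq, h, mul_zero, mul_zero] at hu; exact hu)
      (abs_nonneg u)
    rw [this, zero_mul]
    positivity

/-- A segment far below the scale of the pair. -/
lemma seg_far {i k : ℕ} (hik : i < k) (hkL : k ≤ C.L) {X : κ → ℝ}
    (hi : C.gr i X ≤ 2 * C.τ) (hk : C.gr k X ≤ 2 * C.τ) (c : κ) {V : ℝ}
    (hV : C.prof 0 X c ≤ V) {J : ℝ} (hJ : 0 < J) (N : ℕ) :
    nrm C.p (fun s => C.psi J N i k X c s - C.inc i k X c * frame C.p J N (Real.log (V / 2)) s)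
      ≤ 16 / J * (C.p * ((2 * ((k - (i + 1) : ℕ) : ℝ) + 3) * |C.inc i k X c|
          + C.rad i * V ^ (1 / C.p))) := by
  simp only [psi, ← mul_sub]
  refine (C.nrm_frame_diff hJ N _ _ _).trans ?_
  have := C.inc_mul_shift hik hkL hi hk c hV zero_le_one (u := C.inc i k X c) (by rw [one_mul])
  rw [one_mul] at this
  exact mul_le_mul_of_nonneg_left this (by positivity)

/-- Symmetric reduction for a two-point segment estimate. -/
lemma seg_split {J : ℝ} (hJ : 0 < J) (N : ℕ) (i k : ℕ) (X Y : κ → ℝ) (c : κ) (ξ : ℝ) :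
    nrm C.p (fun s => C.psi J N i k X c s - C.psi J N i k Y c s
        - (C.inc i k X c - C.inc i k Y c) * frame C.p J N ξ s)
      ≤ 16 / J * (|C.inc i k X c - C.inc i k Y c| * |C.wfun i k Y c - ξ|
          + |C.inc i k X c| * |C.wfun i k X c - C.wfun i k Y c|) := by
  have e : (fun s => C.psi J N i k X c s - C.psi J N i k Y c s
        - (C.inc i k X c - C.inc i k Y c) * frame C.p J N ξ s)
      = fun s => (C.inc i k X c - C.inc i k Y c) *
          (frame C.p J N (C.wfun i k Y c) s - frame C.p J N ξ s)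
        + C.inc i k X c *
          (frame C.p J N (C.wfun i k X c) s - frame C.p J N (C.wfun i k Y c) s) := by
    funext s; simp only [psi]; ring
  rw [e]
  refine (nrm_add C.hp _ _).trans ?_
  rw [mul_add]
  exact add_le_add (C.nrm_frame_diff hJ N _ _ _) (C.nrm_frame_diff hJ N _ _ _)

lemma seg_junction_aux {i k : ℕ} (hik : i < k) (hkL : k ≤ C.L) {X Y : κ → ℝ}
    (hiy : C.gr i Y ≤ 2 * C.τ) (hky : C.gr k Y ≤ 2 * C.τ) (c : κ)
    (hle : |C.inc i k X c| ≤ |C.inc i k Y c|) {J : ℝ} (hJ : 0 < J) (N : ℕ) :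
    nrm C.p (fun s => C.psi J N i k X c s - C.psi J N i k Y c s
        - (C.inc i k X c - C.inc i k Y c) * frame C.p J N (C.ref 0 X Y c) s)
      ≤ 16 / J * (C.p * ((2 * ((k - (i + 1) : ℕ) : ℝ) + 4) * |C.inc i k X c - C.inc i k Y c|
          + 3 * C.rad i * C.vb 0 X Y c ^ (1 / C.p))) := by
  have hp := C.hp
  have hr := C.rad_pos i
  refine (C.seg_split hJ N i k X Y c _).trans (mul_le_mul_of_nonneg_left ?_ (by positivity))
  set D := |C.inc i k X c - C.inc i k Y c| with hD
  have hD2 : D ≤ 2 * |C.inc i k Y c| := by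
    have := abs_sub (C.inc i k X c) (C.inc i k Y c); rw [hD]; linarith
  have hVY : C.prof 0 Y c ≤ C.vb 0 X Y c := le_add_of_nonneg_left (C.prof_pos 0 X c).le
  have h1 := C.inc_mul_shift hik hkL hiy hky c hVY zero_le_two
    (u := C.inc i k X c - C.inc i k Y c) hD2
  rw [← hD] at h1
  set zx := C.mag i k X c with hzx
  set zy := C.mag i k Y c with hzy
  have hz : zx ≤ zy := div_le_div_of_nonneg_right hle hr.le
  have hzd : C.rad i * (zy - zx) ≤ D := by
    rw [mul_sub, hzx, hzy, ← C.abs_inc_eq, ← C.abs_inc_eq, hD, abs_sub_comm]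
    exact abs_sub_abs_le_abs_sub _ _
  have hPX := C.prof_pos i X c
  have hPY := C.prof_pos i Y c
  have hshift := abs_log_shift C.hp (C.mag_nonneg i k X c) hPX hPY
    ((C.prof_anti (Nat.zero_le i) X c).trans (le_add_of_nonneg_right (C.prof_pos 0 Y c).le))
    ((C.prof_anti (Nat.zero_le i) Y c).trans hVY)
  have hdiff := (mul_log_diff_le C.hp hPY (C.mag_nonneg i k X c) hz).1
  have hmono : Real.log (C.prof i Y c + zx ^ C.p) ≤ Real.log (C.prof i Y c + zy ^ C.p) :=
    Real.log_le_log (by have := C.mag_nonneg i k X c; positivity)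
      (by linarith [Real.rpow_le_rpow (C.mag_nonneg i k X c) hz (by linarith : 0 ≤ C.p)])
  have h2 : |C.inc i k X c| * |C.wfun i k X c - C.wfun i k Y c|
      ≤ C.p * (C.rad i * C.vb 0 X Y c ^ (1 / C.p)) + C.p * D := by
    rw [C.abs_inc_eq]
    have htri : |C.wfun i k X c - C.wfun i k Y c|
        ≤ |Real.log (C.prof i X c + zx ^ C.p) - Real.log (C.prof i Y c + zx ^ C.p)|
          + (Real.log (C.prof i Y c + zy ^ C.p) - Real.log (C.prof i Y c + zx ^ C.p)) := by
      refine le_trans (abs_sub_le _ (Real.log (C.prof i Y c + zx ^ C.p)) _) ?_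
      rw [abs_sub_comm (Real.log (C.prof i Y c + zx ^ C.p)), wfun, wfun, ← hzy,
        abs_of_nonneg (show 0 ≤ Real.log (C.prof i Y c + zy ^ C.p)
          - Real.log (C.prof i Y c + zx ^ C.p) by linarith)]
    have := mul_le_mul_of_nonneg_left htri (mul_nonneg hr.le (C.mag_nonneg i k X c))
    have a1 := mul_le_mul_of_nonneg_left hshift hr.le
    have a2 := mul_le_mul_of_nonneg_left hdiff hr.le
    have a3 := mul_le_mul_of_nonneg_left hzd (show 0 ≤ C.p by linarith)
    simp only [vb] at a1 ⊢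
    linarith
  unfold ref
  linarith

/-- A segment across the scale of the pair. -/
lemma seg_junction {i k : ℕ} (hik : i < k) (hkL : k ≤ C.L) {X Y : κ → ℝ}
    (hix : C.gr i X ≤ 2 * C.τ) (hkx : C.gr k X ≤ 2 * C.τ)
    (hiy : C.gr i Y ≤ 2 * C.τ) (hky : C.gr k Y ≤ 2 * C.τ) (c : κ) {J : ℝ} (hJ : 0 < J) (N : ℕ) :
    nrm C.p (fun s => C.psi J N i k X c s - C.psi J N i k Y c s
        - (C.inc i k X c - C.inc i k Y c) * frame C.p J N (C.ref 0 X Y c) s)
      ≤ 16 / J * (C.p * ((2 * ((k - (i + 1) : ℕ) : ℝ) + 4) * |C.inc i k X c - C.inc i k Y c|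
          + 3 * C.rad i * C.vb 0 X Y c ^ (1 / C.p))) := by
  rcases le_total |C.inc i k X c| |C.inc i k Y c| with h | h
  · exact C.seg_junction_aux hik hkL hiy hky c h hJ N
  · have := C.seg_junction_aux hik hkL hix hkx c h hJ N (X := Y) (Y := X)
    rw [C.vb_comm 0 Y X, C.ref_comm 0 Y X, abs_sub_comm (C.inc i k Y c)] at this
    refine le_of_eq_of_le ?_ this
    rw [← nrm_neg]
    congr 1; funext s; ring

/-- The gain term of a segment. -/
noncomputable def gain (i : ℕ) (X Y : κ → ℝ) (c : κ) : ℝ :=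
  ∑ q ∈ Icc i C.L, C.rad i / C.rad q *
    ((C.elem q X c + C.elem q Y c) * C.vb q X Y c ^ (1 / C.p - 1))

/-- Constant of a segment above the scale of the pair. -/
noncomputable def ch : ℝ := 200 * C.p * (2:ℝ) ^ C.p * Real.exp C.ce ^ 2

lemma seg_high_aux {i k : ℕ} (hik : i < k) (hkL : k ≤ C.L) {X Y : κ → ℝ} {t : ℝ}
    (ht : nrm C.p (fun c => X c - Y c) = t) (hti : t ≤ C.rad i)
    (hiy : C.gr i Y ≤ 2 * C.τ) (hky : C.gr k Y ≤ 2 * C.τ) (c : κ)
    (hle : |C.inc i k X c| ≤ |C.inc i k Y c|) {J : ℝ} (hJ : 0 < J) (N : ℕ) :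
    nrm C.p (fun s => C.psi J N i k X c s - C.psi J N i k Y c s
        - (C.inc i k X c - C.inc i k Y c) * frame C.p J N (C.ref i X Y c) s)
      ≤ 16 / J * (C.ch * t * (C.gain i X Y c
          + ((k - (i + 1) : ℕ) : ℝ) * (C.osc2 i X Y c + C.osc2 k X Y c))) := by
  have hp := C.hp
  have hp0 : 0 < C.p := by linarith
  have hr := C.rad_pos i
  have ht0 : 0 ≤ t := ht ▸ nrm_nonneg _
  have hiL : i ≤ C.L := hik.le.trans hkL
  refine (C.seg_split hJ N i k X Y c _).trans (mul_le_mul_of_nonneg_left ?_ (by positivity))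
  set e := Real.exp C.ce with he
  have he1 : 1 ≤ e := Real.one_le_exp C.ce_nonneg
  set Px := C.prof i X c with hPxdef
  set Py := C.prof i Y c with hPydef
  set Vb := C.vb i X Y c with hVbdef
  have hPx : 0 < Px := C.prof_pos i X c
  have hPy : 0 < Py := C.prof_pos i Y c
  have hVb : Vb = Px + Py := rfl
  have hVb0 : 0 < Vb := C.vb_pos i X Y c
  set R := Vb ^ (1 / C.p - 1) with hR
  have hR0 : 0 ≤ R := Real.rpow_nonneg hVb0.le _
  have hexp : 1 / C.p - 1 ≤ 0 := by
    have : 1 / C.p ≤ 1 := (div_le_one hp0).2 hp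
    linarith
  set G := C.gain i X Y c with hGdef
  -- every increment of the profile above `i` is suppressed
  have hG1 : ∑ q ∈ Icc i C.L, C.rad i / C.rad q * (C.elem q X c + C.elem q Y c) * R ≤ G := by
    refine sum_le_sum fun q hq => ?_
    rw [mul_assoc]
    refine mul_le_mul_of_nonneg_left (mul_le_mul_of_nonneg_left ?_
      (add_nonneg (C.elem_nonneg _ _ _) (C.elem_nonneg _ _ _)))
      (div_nonneg hr.le (C.rad_pos q).le)
    exact Real.rpow_le_rpow_of_nonpos (C.vb_pos q X Y c)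
      (add_le_add (C.prof_anti (mem_Icc.1 hq).1 X c) (C.prof_anti (mem_Icc.1 hq).1 Y c)) hexp
  have hG2 : C.elem i Y c * R ≤ G := by
    refine le_trans ?_ (single_le_sum (f := fun q => C.rad i / C.rad q *
      ((C.elem q X c + C.elem q Y c) * C.vb q X Y c ^ (1 / C.p - 1))) (fun q _ => ?_)
      (mem_Icc.2 ⟨le_rfl, hiL⟩))
    · simp only [div_self hr.ne', one_mul]
      exact mul_le_mul_of_nonneg_right (le_add_of_nonneg_left (C.elem_nonneg _ _ _)) hR0
    · exact mul_nonneg (div_nonneg hr.le (C.rad_pos q).le) (mul_nonneg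
        (add_nonneg (C.elem_nonneg _ _ _) (C.elem_nonneg _ _ _))
        (Real.rpow_nonneg (C.vb_pos q X Y c).le _))
  have hG0 : 0 ≤ G := le_trans (mul_nonneg (C.elem_nonneg _ _ _) hR0) hG2
  set S := ∑ q ∈ Icc i C.L, C.rad i / C.rad q * (C.elem q X c + C.elem q Y c) with hSdef
  have hS0 : 0 ≤ S := sum_nonneg fun q _ => mul_nonneg (div_nonneg hr.le (C.rad_pos q).le)
    (add_nonneg (C.elem_nonneg _ _ _) (C.elem_nonneg _ _ _))
  rw [← sum_mul] at hG1
  -- the variation of the profile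
  have hΔ : |Px - Py| ≤ e * (t / C.rad i) * S := by
    rw [hPxdef, hPydef, prof, prof, add_sub_add_left_eq_sub, ← sum_sub_distrib, hSdef, mul_sum]
    refine (abs_sum_le_sum_abs _ _).trans (sum_le_sum fun q hq => ?_)
    refine (C.elem_diff ht (hti.trans (C.rad_mono (mem_Icc.1 hq).1)) c).trans_eq ?_
    field_simp
    ring
  have htr : t / C.rad i ≤ 1 := (div_le_one hr).2 hti
  set M := min Px Py with hM
  have hM0 : 0 < M := lt_min hPx hPy
  have hMVb : Vb ≤ 2 * e * M := by
    have h1 := C.prof_le_exp ht hti c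
    have h2 := C.prof_le_exp (X := Y) (Y := X) (by rw [nrm_sub_comm]; exact ht) hti c
    rw [← he, ← hPxdef, ← hPydef] at h1 h2
    rw [hM, mul_min_of_nonneg _ _ (by positivity), hVb]
    have := mul_le_mul_of_nonneg_right he1 hPx.le
    have := mul_le_mul_of_nonneg_right he1 hPy.le
    exact le_min (by linarith) (by linarith)
  have hMR : M ^ (1 / C.p - 1) ≤ 2 * e * R := by
    have h1 : Vb / (2 * e) ≤ M := by rw [div_le_iff₀ (by positivity)]; linarith
    refine (Real.rpow_le_rpow_of_nonpos (by positivity) h1 hexp).trans ?_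
    rw [Real.div_rpow hVb0.le (by positivity), ← hR, div_eq_mul_inv, mul_comm,
      ← Real.rpow_neg (by positivity)]
    refine mul_le_mul_of_nonneg_right ?_ hR0
    calc (2 * e) ^ (-(1 / C.p - 1)) ≤ (2 * e) ^ (1:ℝ) :=
          Real.rpow_le_rpow_of_exponent_le (by linarith) (by
            have : 0 ≤ 1 / C.p := by positivity
            linarith)
      _ = 2 * e := Real.rpow_one _
  have hVbR : Vb ^ (1 / C.p) = Vb * R := by
    rw [hR, Real.rpow_sub_one hVb0.ne', mul_div_cancel₀ _ hVb0.ne']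
  -- the two increments
  set D := |C.inc i k X c - C.inc i k Y c| with hDdef
  have hD0 : 0 ≤ D := abs_nonneg _
  have hDa : D ≤ 8 * t * (C.osc2 i X Y c + C.osc2 k X Y c) := by
    refine (C.inc_lip hik.le ht hti c).trans (mul_le_mul_of_nonneg_left ?_ (by positivity))
    unfold osc2
    have := Real.rpow_nonneg (C.A_nonneg i X c) (1 / C.p)
    have := Real.rpow_nonneg (C.A_nonneg k X c) (1 / C.p)
    linarith
  have hDV : D ≤ 16 * t * (Vb * R) := by
    refine (C.inc_lip hik.le ht hti c).trans ?_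
    rw [← hVbR]
    have hle' : Py ^ (1 / C.p) ≤ Vb ^ (1 / C.p) :=
      Real.rpow_le_rpow hPy.le (by rw [hVb]; linarith) (by positivity)
    have h1 := (C.root_A_le le_rfl hiL hiy c).trans hle'
    have h2 := (C.root_A_le hik.le hkL hky c).trans hle'
    calc 8 * t * (C.A i Y c ^ (1 / C.p) + C.A k Y c ^ (1 / C.p))
        ≤ 8 * t * (Vb ^ (1 / C.p) + Vb ^ (1 / C.p)) :=
          mul_le_mul_of_nonneg_left (add_le_add h1 h2) (by positivity)
      _ = _ := by ring
  set m := ((k - (i + 1) : ℕ) : ℝ) with hmdef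
  have hm : 0 ≤ m := Nat.cast_nonneg _
  set Om := C.osc2 i X Y c + C.osc2 k X Y c with hOm
  have hOm0 : 0 ≤ Om := add_nonneg (C.osc2_nonneg _ _ _ _) (C.osc2_nonneg _ _ _ _)
  set zx := C.mag i k X c with hzxdef
  set zy := C.mag i k Y c with hzydef
  have hzx0 : 0 ≤ zx := C.mag_nonneg i k X c
  have hz : zx ≤ zy := div_le_div_of_nonneg_right hle hr.le
  have hzy0 : 0 ≤ zy := hzx0.trans hz
  have hzd : C.rad i * (zy - zx) ≤ D := by
    rw [mul_sub, hzxdef, hzydef, ← C.abs_inc_eq, ← C.abs_inc_eq, hDdef, abs_sub_comm]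
    exact abs_sub_abs_le_abs_sub _ _
  have hzy : zy ^ C.p ≤ (2:ℝ) ^ (2 * C.p * m + C.p) * C.elem i Y c :=
    C.mag_le_elem hik hkL hiy hky c
  have h2p : (1:ℝ) ≤ 2 ^ C.p := Real.one_le_rpow one_le_two hp0.le
  -- the gain of `D` times a relative variation
  have hDS : D * (|Px - Py| / M) ≤ 32 * e ^ 2 * t * G := by
    calc D * (|Px - Py| / M)
        ≤ 16 * t * (Vb * R) * (e * 1 * S / (Vb / (2 * e))) := by
          refine mul_le_mul hDV ?_ (by positivity) (by positivity)
          refine div_le_div₀ (by positivity) (hΔ.trans ?_) (by positivity)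
            (by rw [div_le_iff₀ (by positivity)]; linarith)
          gcongr
      _ = 32 * e ^ 2 * t * (S * R) := by field_simp; ring
      _ ≤ _ := mul_le_mul_of_nonneg_left hG1 (by positivity)
  have hDE : D * (C.elem i Y c / Py) ≤ 32 * e * t * G := by
    calc D * (C.elem i Y c / Py)
        ≤ 16 * t * (Vb * R) * (C.elem i Y c / (Vb / (2 * e))) := by
          refine mul_le_mul hDV ?_ (div_nonneg (C.elem_nonneg _ _ _) hPy.le) (by positivity)
          refine div_le_div_of_nonneg_left (C.elem_nonneg _ _ _) (by positivity) ?_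
          rw [div_le_iff₀ (by positivity)]
          have := mul_le_mul_of_nonneg_left (min_le_right Px Py) (show 0 ≤ 2 * e by positivity)
          linarith
      _ = 32 * e * t * (C.elem i Y c * R) := by field_simp; ring
      _ ≤ _ := mul_le_mul_of_nonneg_left hG2 (by positivity)
  -- first term
  have hB1 : D * |C.wfun i k Y c - C.ref i X Y c|
      ≤ 32 * e ^ 2 * t * G + 2 * C.p * m * (8 * t * Om) + 2 ^ C.p * (32 * e * t * G) := by
    have hw : |C.wfun i k Y c - C.ref i X Y c|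
        ≤ |Px - Py| / M + (2 * C.p * m + 2 ^ C.p * (C.elem i Y c / Py)) := by
      refine (abs_sub_le _ (Real.log Py) _).trans ?_
      rw [add_comm]
      refine add_le_add ?_ ?_
      · refine (abs_log_sub_le hPy (half_pos hVb0)).trans ?_
        refine div_le_div₀ (abs_nonneg _) ?_ hM0 ?_
        · rw [hVb, show Py - (Px + Py) / 2 = (Py - Px) / 2 by ring, abs_div, abs_sub_comm,
            abs_two]
          linarith [abs_nonneg (Px - Py)]
        · refine le_min (min_le_right _ _) ?_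
          rw [hVb]
          linarith [min_le_left Px Py, min_le_right Px Py]
      · have hzp : 0 ≤ zy ^ C.p := Real.rpow_nonneg hzy0 _
        have e1 : C.wfun i k Y c - Real.log Py = Real.log (1 + zy ^ C.p / Py) := by
          rw [wfun, ← hPydef, ← hzydef, ← Real.log_div (by positivity) hPy.ne']
          congr 1; field_simp
        rw [e1, abs_of_nonneg (Real.log_nonneg (le_add_of_nonneg_right (by positivity)))]
        refine le_trans (Real.log_le_log (by positivity) ?_)
          (log_shift_le (by positivity) (div_nonneg (C.elem_nonneg _ _ _) hPy.le))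
        rw [mul_div_assoc']
        exact add_le_add le_rfl (div_le_div_of_nonneg_right hzy hPy.le)
    refine (mul_le_mul_of_nonneg_left hw hD0).trans ?_
    have := mul_le_mul_of_nonneg_left hDa (show 0 ≤ 2 * C.p * m by positivity)
    have := mul_le_mul_of_nonneg_left hDE (show (0:ℝ) ≤ 2 ^ C.p by positivity)
    linarith
  -- second term
  have hB2 : |C.inc i k X c| * |C.wfun i k X c - C.wfun i k Y c|
      ≤ 2 * e ^ 2 * t * G + C.p * (2 ^ C.p * (32 * e * t * G)) + C.p * m * (8 * t * Om) := by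
    have hzp : 0 ≤ zx ^ C.p := Real.rpow_nonneg hzx0 _
    have h1 : C.rad i * zx *
        |Real.log (Px + zx ^ C.p) - Real.log (Py + zx ^ C.p)| ≤ 2 * e ^ 2 * t * G := by
      have h2 := abs_log_sub_le (show 0 < Px + zx ^ C.p by positivity)
        (show 0 < Py + zx ^ C.p by positivity)
      rw [min_add_add_right, ← hM, add_sub_add_right_eq_sub] at h2
      calc C.rad i * zx * |Real.log (Px + zx ^ C.p) - Real.log (Py + zx ^ C.p)|
          ≤ C.rad i * zx * (|Px - Py| / (M + zx ^ C.p)) :=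
            mul_le_mul_of_nonneg_left h2 (by positivity)
        _ = C.rad i * (zx / (M + zx ^ C.p)) * |Px - Py| := by ring
        _ ≤ C.rad i * (2 * e * R) * (e * (t / C.rad i) * S) := by
            refine mul_le_mul (mul_le_mul_of_nonneg_left
              ((div_add_rpow_le C.hp hzx0 hM0).trans hMR) hr.le) hΔ (abs_nonneg _) (by positivity)
        _ = 2 * e ^ 2 * t * (S * R) := by field_simp
        _ ≤ _ := mul_le_mul_of_nonneg_left hG1 (by positivity)
    have hlog0 : 0 ≤ Real.log (Py + zy ^ C.p) - Real.log (Py + zx ^ C.p) :=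
      sub_nonneg.2 (Real.log_le_log (by positivity)
        (by linarith [Real.rpow_le_rpow hzx0 hz hp0.le]))
    have h3 : C.rad i * zx * (Real.log (Py + zy ^ C.p) - Real.log (Py + zx ^ C.p))
        ≤ C.p * (2 ^ C.p * (32 * e * t * G)) + C.p * m * (8 * t * Om) := by
      obtain ⟨ha, hb⟩ := mul_log_diff_le C.hp hPy hzx0 hz
      rcases Nat.eq_zero_or_pos (k - (i + 1)) with h0 | h0
      · have hm0 : m = 0 := by rw [hmdef, h0]; simp
        rw [hm0] at hzy ⊢
        rw [mul_zero, zero_add] at hzy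
        have h4 := mul_le_mul_of_nonneg_left hb hr.le
        have h5 := mul_le_mul_of_nonneg_right (mul_le_mul_of_nonneg_left hzd hp0.le)
          (show 0 ≤ zy ^ C.p / Py by positivity)
        have h6 := mul_le_mul_of_nonneg_left (div_le_div_of_nonneg_right hzy hPy.le)
          (show 0 ≤ C.p * D by positivity)
        have h7 := mul_le_mul_of_nonneg_left hDE (show 0 ≤ C.p * 2 ^ C.p by positivity)
        rw [mul_div_assoc ((2:ℝ) ^ C.p)] at h6
        linarith
      · have hm1 : 1 ≤ m := by rw [hmdef]; exact_mod_cast h0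
        have h4 := mul_le_mul_of_nonneg_left ha hr.le
        have h5 := mul_le_mul_of_nonneg_left hzd hp0.le
        have h6 := mul_le_mul_of_nonneg_left hDa (show 0 ≤ C.p * m by positivity)
        have h7 := mul_le_mul_of_nonneg_right hm1 (show 0 ≤ C.p * D by positivity)
        have : 0 ≤ C.p * (2 ^ C.p * (32 * e * t * G)) := by positivity
        linarith
    have htri : |C.wfun i k X c - C.wfun i k Y c|
        ≤ |Real.log (Px + zx ^ C.p) - Real.log (Py + zx ^ C.p)|
          + (Real.log (Py + zy ^ C.p) - Real.log (Py + zx ^ C.p)) := by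
      refine le_trans (abs_sub_le _ (Real.log (Py + zx ^ C.p)) _) ?_
      rw [abs_sub_comm (Real.log (Py + zx ^ C.p)), wfun, wfun, ← hPxdef, ← hPydef, ← hzxdef,
        ← hzydef, abs_of_nonneg hlog0]
    rw [C.abs_inc_eq, ← hzxdef]
    have := mul_le_mul_of_nonneg_left htri (show 0 ≤ C.rad i * zx by positivity)
    linarith
  refine (add_le_add hB1 hB2).trans ?_
  have hch : C.ch = 200 * C.p * 2 ^ C.p * e ^ 2 := rfl
  rw [hch]
  set P2 := (2:ℝ) ^ C.p
  have hee : e ≤ e ^ 2 := le_self_pow₀ he1 two_ne_zero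
  have he21 : 1 ≤ e ^ 2 := one_le_pow₀ he1
  have hpe : 1 ≤ C.p * P2 := one_le_mul_of_one_le_of_one_le hp h2p
  have htG : 0 ≤ t * G := mul_nonneg ht0 hG0
  have a1 : e ^ 2 * (t * G) ≤ C.p * P2 * (e ^ 2 * (t * G)) :=
    le_mul_of_one_le_left (by positivity) hpe
  have a2 : P2 * (e * (t * G)) ≤ C.p * P2 * (e ^ 2 * (t * G)) := by
    rw [mul_assoc C.p]
    refine le_trans ?_ (le_mul_of_one_le_left (by positivity) hp)
    gcongr
  have a3 : C.p * P2 * (e * (t * G)) ≤ C.p * P2 * (e ^ 2 * (t * G)) := by gcongr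
  have a4 : C.p * (m * (t * Om)) ≤ C.p * P2 * e ^ 2 * (m * (t * Om)) := by
    refine mul_le_mul_of_nonneg_right ?_ (by positivity)
    rw [mul_assoc]
    exact le_mul_of_one_le_right hp0.le (one_le_mul_of_one_le_of_one_le h2p he21)
  have : 0 ≤ C.p * P2 * e ^ 2 * (m * (t * Om)) := by positivity
  have : 0 ≤ C.p * P2 * (e ^ 2 * (t * G)) := by positivity
  linarith

/-- A segment above the scale of the pair. -/
lemma seg_high {i k : ℕ} (hik : i < k) (hkL : k ≤ C.L) {X Y : κ → ℝ} {t : ℝ}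
    (ht : nrm C.p (fun c => X c - Y c) = t) (hti : t ≤ C.rad i)
    (hix : C.gr i X ≤ 2 * C.τ) (hkx : C.gr k X ≤ 2 * C.τ)
    (hiy : C.gr i Y ≤ 2 * C.τ) (hky : C.gr k Y ≤ 2 * C.τ) (c : κ) {J : ℝ} (hJ : 0 < J) (N : ℕ) :
    nrm C.p (fun s => C.psi J N i k X c s - C.psi J N i k Y c s
        - (C.inc i k X c - C.inc i k Y c) * frame C.p J N (C.ref i X Y c) s)
      ≤ 16 / J * (C.ch * t * (C.gain i X Y c
          + ((k - (i + 1) : ℕ) : ℝ) * (C.osc2 i X Y c + C.osc2 k X Y c))) := by
  rcases le_total |C.inc i k X c| |C.inc i k Y c| with h | h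
  · exact C.seg_high_aux hik hkL ht hti hiy hky c h hJ N
  · have := C.seg_high_aux hik hkL (X := Y) (Y := X) (by rw [nrm_sub_comm]; exact ht) hti hix hkx c
      h hJ N
    have eg : C.gain i Y X c = C.gain i X Y c := by
      unfold gain
      refine sum_congr rfl fun q _ => ?_
      rw [C.vb_comm q Y X, add_comm (C.elem q Y c)]
    rw [eg, C.osc2_comm i Y X, C.osc2_comm k Y X, C.ref_comm i Y X] at this
    refine le_of_eq_of_le ?_ this
    rw [← nrm_neg]
    congr 1; funext s; ring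

end Cfg

end Vale.Agent.P249.Sharp
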