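import Mathlib
import Vale.Agent.P249.Sharp.Segment
import Vale.Agent.P249.Sharp.Chain

/-!
The map of a chain of levels, and its distortion on a pair of points.
-/

namespace Vale.Agent.P249.Sharp

open Finset

/-- A fibrewise bound gives a bound for the norm on a product. -/
lemma nrm_prod_le {α β : Type*} [Fintype α] [Fintype β] {p : ℝ} (hp : 1 ≤ p) (F : α × β → ℝ)
    (E : α → ℝ) (h : ∀ a, nrm p (fun b => F (a, b)) ≤ E a) : nrm p F ≤ nrm p E := by
  refine Real.rpow_le_rpow (sum_abs_rpow_nonneg _ _) ?_ (by positivity)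
  rw [Fintype.sum_prod_type]
  refine sum_le_sum fun a _ => ?_
  rw [← nrm_rpow hp (fun b => F (a, b))]
  exact Real.rpow_le_rpow (nrm_nonneg _) ((h a).trans (le_abs_self _)) (by linarith)

namespace Cfg

variable {n : ℕ} {κ : Type*} [Fintype κ] (C : Cfg n κ) (J : ℝ) (N : ℕ)

/-- The part of the map of a chain carried by the levels in `[a, b)`. -/
noncomputable def piece (χ : ℕ → Prop) (a b : ℕ) (X : κ → ℝ) (c : κ) (s : Fin (2 * N + 1)) : ℝ :=
  open Classical in ∑ i ∈ Ico a b, if χ i then C.psi J N i (up χ C.L (i + 1)) X c s else 0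

/-- A chain is valid at a point if it contains both ends and all members have small growth. -/
def Valid (χ : ℕ → Prop) (X : κ → ℝ) : Prop :=
  χ 0 ∧ χ C.L ∧ ∀ i ≤ C.L, χ i → C.gr i X ≤ 2 * C.τ

/-- Number of skipped levels. -/
noncomputable def skipped (χ : ℕ → Prop) : ℕ :=
  open Classical in ((range (C.L + 1)).filter fun j => ¬ χ j).card

/-- The constant of total oscillation and displacement. -/
noncomputable def cn : ℝ := 2 * (2 ^ C.p * mom C.p) ^ (1 / C.p)

/-- The size of the profile. -/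
noncomputable def size : ℝ :=
  (2 * (Fintype.card κ * C.η + C.cv * ((1 + C.τ) ^ (C.p - 1) * Real.log n))) ^ (1 / C.p)

variable [NeZero n]

lemma one_le_cn : 1 ≤ C.cn := by
  have hp := C.hp
  have hp0 : 0 < C.p := by linarith
  have h1 : 1 ≤ mom C.p := by
    have := Real.one_le_rpow (show 1 ≤ 4 * C.p by linarith) hp0.le
    unfold mom; linarith
  have h2 : 1 ≤ (2 ^ C.p * mom C.p) ^ (1 / C.p) :=
    Real.one_le_rpow (one_le_mul_of_one_le_of_one_le (Real.one_le_rpow one_le_two hp0.le) h1)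
      (by positivity)
  unfold cn; linarith

lemma kap_le {g : ℝ} (hg : 0 ≤ g) (hg2 : g ≤ 2 * C.τ) : kap C.p g ≤ (1 + 2 * C.τ) ^ C.p := by
  have hp := C.hp
  have hτ := C.hτ
  calc kap C.p g ≤ (1 + g) * (1 + g) ^ (C.p - 1) :=
        mul_le_mul_of_nonneg_right (by linarith) (by positivity)
    _ = (1 + g) ^ C.p := by
        rw [← Real.rpow_one_add' (by linarith) (by linarith), add_sub_cancel]
    _ ≤ _ := Real.rpow_le_rpow (by linarith) (by linarith) (by linarith)

lemma root_bound {S : ℝ} (hS : 0 ≤ S) (h : S ≤ 2 ^ C.p * mom C.p * (1 + 2 * C.τ) ^ C.p) :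
    S ^ (1 / C.p) ≤ C.cn * (1 + C.τ) := by
  have hp := C.hp
  have hτ := C.hτ
  have hm := mom_nonneg C.hp
  refine (Real.rpow_le_rpow hS h (by positivity)).trans ?_
  rw [Real.mul_rpow (by positivity) (by positivity), ← Real.rpow_mul (by linarith),
    mul_one_div_cancel (by linarith), Real.rpow_one, cn]
  have : 0 ≤ (2 ^ C.p * mom C.p) ^ (1 / C.p) := by positivity
  have := mul_le_mul_of_nonneg_left (show 1 + 2 * C.τ ≤ 2 * (1 + C.τ) by linarith) this
  linarith

lemma nrm_osc_le {k : ℕ} {X : κ → ℝ} (hk : C.gr k X ≤ 2 * C.τ) :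
    nrm C.p (fun c => C.A k X c ^ (1 / C.p)) ≤ C.cn * (1 + C.τ) := by
  have hp := C.hp
  have e : nrm C.p (fun c => C.A k X c ^ (1 / C.p)) = (∑ c, C.A k X c) ^ (1 / C.p) := by
    unfold nrm
    congr 1
    refine sum_congr rfl fun c _ => ?_
    rw [abs_of_nonneg (Real.rpow_nonneg (C.A_nonneg k X c) _), ← Real.rpow_mul (C.A_nonneg k X c),
      one_div_mul_cancel (by linarith), Real.rpow_one]
  rw [e]
  refine C.root_bound (sum_nonneg fun c _ => C.A_nonneg k X c) ((C.A_sum_le k X).trans ?_)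
  rw [mul_assoc]
  exact mul_le_mul_of_nonneg_left (mul_le_mul_of_nonneg_left (C.kap_le (C.gr_nonneg k X) hk)
    (mom_nonneg hp)) (by positivity)

lemma nrm_bar_le {k : ℕ} {X : κ → ℝ} (hk : C.gr k X ≤ 2 * C.τ) :
    nrm C.p (fun c => C.bar k X c - X c) ≤ C.rad k * (C.cn * (1 + C.τ)) := by
  have hp := C.hp
  have hr := C.rad_pos k
  have h0 := mul_nonneg (C.lam_pos k).le (nrm_nonneg (p := C.p) (fun c => C.bar k X c - X c))
  have h := bary_near (v := C.v) hp (C.lam_pos k).le X
  have h1 : (C.lam k * nrm C.p (fun c => C.bar k X c - X c)) ^ C.p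
      ≤ 2 ^ C.p * mom C.p * (1 + 2 * C.τ) ^ C.p := by
    refine h.trans ?_
    refine (mul_le_mul_of_nonneg_left (C.kap_le (C.gr_nonneg k X) hk) (mom_nonneg hp)).trans ?_
    have hτ := C.hτ
    have := Real.one_le_rpow one_le_two (show 0 ≤ C.p by linarith)
    have hm := mom_nonneg hp
    rw [mul_assoc]
    exact le_mul_of_one_le_left (by positivity) this
  have h2 := C.root_bound (Real.rpow_nonneg h0 _) h1
  rw [← Real.rpow_mul h0, mul_one_div_cancel (by linarith), Real.rpow_one, lam_eq,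
    one_div_mul_eq_div, div_le_iff₀ hr] at h2
  linarith

lemma nrm_inc_le {i k : ℕ} (hik : i ≤ k) {X : κ → ℝ} (hi : C.gr i X ≤ 2 * C.τ)
    (hk : C.gr k X ≤ 2 * C.τ) :
    nrm C.p (fun c => C.inc i k X c) ≤ 2 * C.rad k * (C.cn * (1 + C.τ)) := by
  have h1 := nrm_triangle C.hp (C.bar i X) X (C.bar k X)
  have h2 := C.nrm_bar_le hi
  have h3 := C.nrm_bar_le hk
  rw [nrm_sub_comm X] at h1
  have := C.hτ
  have h4 := mul_le_mul_of_nonneg_right (C.rad_mono hik)
    (show 0 ≤ C.cn * (1 + C.τ) by have := C.one_le_cn; positivity)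
  have e : nrm C.p (fun c => C.inc i k X c) = nrm C.p (fun c => C.bar i X c - C.bar k X c) := rfl
  linarith

lemma nrm_bar_diff_le {k : ℕ} {X Y : κ → ℝ} {t : ℝ} (ht : nrm C.p (fun c => X c - Y c) = t)
    (hk : t ≤ C.rad k) (hY : C.gr k Y ≤ 2 * C.τ) :
    nrm C.p (fun c => C.bar k X c - C.bar k Y c) ≤ 8 * t * (C.cn * (1 + C.τ)) := by
  have ht0 : 0 ≤ t := ht ▸ nrm_nonneg _
  calc nrm C.p (fun c => C.bar k X c - C.bar k Y c)
      ≤ nrm C.p (fun c => 8 * t * C.A k Y c ^ (1 / C.p)) :=
        nrm_mono C.hp fun c => (C.bar_lip ht hk c).trans (le_abs_self _)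
    _ = 8 * t * nrm C.p (fun c => C.A k Y c ^ (1 / C.p)) := nrm_smul C.hp (by positivity) _
    _ ≤ _ := mul_le_mul_of_nonneg_left (C.nrm_osc_le hY) (by positivity)

lemma nrm_vb_le (x y : Fin n) :
    nrm C.p (fun c => C.vb 0 (C.v x) (C.v y) c ^ (1 / C.p)) ≤ C.size := by
  have hp := C.hp
  unfold nrm size
  refine Real.rpow_le_rpow (sum_abs_rpow_nonneg _ _) ?_ (by positivity)
  have e : ∀ c, |C.vb 0 (C.v x) (C.v y) c ^ (1 / C.p)| ^ C.p
      = C.prof 0 (C.v x) c + C.prof 0 (C.v y) c := fun c => by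
    have h := (C.vb_pos 0 (C.v x) (C.v y) c).le
    rw [abs_of_nonneg (Real.rpow_nonneg h _), ← Real.rpow_mul h,
      one_div_mul_cancel (by linarith), Real.rpow_one]
    rfl
  simp only [e, sum_add_distrib]
  linarith [C.prof_sum_le x 0, C.prof_sum_le y 0]

lemma next_spec {χ : ℕ → Prop} (hL : χ C.L) {i : ℕ} (hi : i < C.L) :
    i < up χ C.L (i + 1) ∧ up χ C.L (i + 1) ≤ C.L ∧ χ (up χ C.L (i + 1)) := by
  refine ⟨le_up (χ := χ) hi, up_le, ?_⟩
  rcases (up_le (χ := χ) (L := C.L) (a := i + 1)).lt_or_eq with h | h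
  · exact up_mem h
  · rw [h]; exact hL

omit [NeZero n] in
lemma sum_rad_le (a b : ℕ) : ∑ i ∈ Ico a b, C.rad i ≤ C.rad b := by
  refine le_trans (sum_le_sum_of_subset_of_nonneg (t := range b)
    (fun i hi => mem_range.2 (mem_Ico.1 hi).2) fun i _ _ => (C.rad_pos i).le) ?_
  clear a
  induction b with
  | zero => simpa using (C.rad_pos 0).le
  | succ b ih => rw [sum_range_succ, rad_succ]; linarith

open Classical in
omit [NeZero n] in
lemma sum_gaps_le {χ : ℕ → Prop} {a b : ℕ} (hab : a ≤ b) (hbL : b ≤ C.L) (hb : b = C.L ∨ χ b) :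
    ∑ i ∈ Ico a b, (if χ i then ((up χ C.L (i + 1) - (i + 1) : ℕ) : ℝ) else 0)
      ≤ C.skipped χ := by
  have h := chain_gaps (χ := χ) hab hbL hb
  have h2 : ((Ico a b).filter fun j => ¬ χ j).card ≤ C.skipped χ := by
    unfold skipped
    refine card_le_card (filter_subset_filter _ fun j hj => ?_)
    rw [mem_Ico] at hj
    exact mem_range.2 (by omega)
  have h3 : ∑ i ∈ Ico a b, (if χ i then (up χ C.L (i + 1) - (i + 1)) else 0) ≤ C.skipped χ := by
    omega
  have h4 : ((∑ i ∈ Ico a b, (if χ i then (up χ C.L (i + 1) - (i + 1)) else 0) : ℕ) : ℝ)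
      ≤ C.skipped χ := by exact_mod_cast h3
  push_cast at h4
  exact h4

variable {J}

/-- The levels below `a` of a single point. -/
lemma low_le (hJ : 0 < J) {χ : ℕ → Prop} {X : κ → ℝ} (hv : C.Valid χ X) {a : ℕ} (haL : a ≤ C.L)
    (ha : χ a) (V : κ → ℝ) (hV : ∀ c, C.prof 0 X c ≤ V c) :
    nrm C.p (fun z : κ × Fin (2 * N + 1) => C.piece J N χ 0 a X z.1 z.2
        - (C.bar 0 X z.1 - C.bar a X z.1) * frame C.p J N (Real.log (V z.1 / 2)) z.2)
      ≤ 16 / J * (C.p * (C.cn * (1 + C.τ) * (4 * (C.skipped χ : ℝ) + 12) * C.rad a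
          + C.rad a * nrm C.p (fun c => V c ^ (1 / C.p)))) := by
  classical
  obtain ⟨h0, hL, hg⟩ := hv
  have hp := C.hp
  have hV0 : ∀ c, 0 ≤ V c := fun c => (C.prof_pos 0 X c).le.trans (hV c)
  set k : ℕ → ℕ := fun i => up χ C.L (i + 1) with hk
  set mf : ℕ → ℝ := fun i => ((k i - (i + 1) : ℕ) : ℝ) with hmf
  set E : κ → ℝ := fun c => 16 / J * (C.p *
    (∑ i ∈ Ico 0 a, (if χ i then (2 * mf i + 3) * |C.inc i (k i) X c| else 0)
      + C.rad a * V c ^ (1 / C.p))) with hE
  have htel : ∀ c, C.bar 0 X c - C.bar a X c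
      = ∑ i ∈ Ico 0 a, if χ i then C.inc i (k i) X c else 0 := by
    intro c
    rcases Nat.eq_zero_or_pos a with ha0 | ha0
    · subst ha0; simp
    have h := chain_telescope (χ := χ) (fun i => C.bar i X c) (Nat.zero_le a) haL (Or.inr ha)
    rw [up_self (by omega) h0] at h
    exact h.symm
  refine (nrm_prod_le hp _ E fun c => ?_).trans ?_
  · simp only [piece, htel c, sum_mul, ← sum_sub_distrib]
    refine (nrm_sum hp _ _).trans ?_
    have hbound : ∀ i ∈ Ico 0 a, nrm C.p (fun s =>
        (if χ i then C.psi J N i (k i) X c s else 0) - (if χ i then C.inc i (k i) X c else 0) *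
          frame C.p J N (Real.log (V c / 2)) s)
        ≤ 16 / J * (C.p * ((if χ i then (2 * mf i + 3) * |C.inc i (k i) X c| else 0)
          + C.rad i * V c ^ (1 / C.p))) := by
      intro i hi
      have hiL : i < C.L := lt_of_lt_of_le (mem_Ico.1 hi).2 haL
      by_cases h : χ i
      · obtain ⟨h1, h2, h3⟩ := C.next_spec hL hiL
        simp only [if_pos h]
        exact C.seg_far h1 h2 (hg i hiL.le h) (hg _ h2 h3) c (hV c) hJ N
      · simp only [if_neg h, zero_mul, sub_zero, nrm_zero hp, zero_add]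
        have := C.rad_pos i
        have := hV0 c
        positivity
    refine (sum_le_sum hbound).trans ?_
    rw [← mul_sum, ← mul_sum, sum_add_distrib, ← sum_mul, hE]
    beta_reduce
    gcongr
    · exact Real.rpow_nonneg (hV0 c) _
    · exact C.sum_rad_le 0 a
  · rw [hE, nrm_smul hp (by positivity)
      (fun c => C.p * (∑ i ∈ Ico 0 a, (if χ i then (2 * mf i + 3) * |C.inc i (k i) X c| else 0)
        + C.rad a * V c ^ (1 / C.p))), nrm_smul hp (by linarith)]
    refine mul_le_mul_of_nonneg_left (mul_le_mul_of_nonneg_left ?_ (by linarith)) (by positivity)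
    refine (nrm_add hp _ _).trans (add_le_add ?_ (le_of_eq (nrm_smul hp (C.rad_pos a).le _)))
    refine (nrm_sum hp _ _).trans ?_
    set cc := C.cn * (1 + C.τ) with hcc
    have hcc0 : 0 ≤ cc := by have := C.one_le_cn; have := C.hτ; positivity
    have hterm : ∀ i ∈ Ico 0 a, nrm C.p
        (fun c => if χ i then (2 * mf i + 3) * |C.inc i (k i) X c| else 0)
        ≤ (if χ i then mf i else 0) * (4 * cc * C.rad a)
          + 12 * cc * (if χ i then C.rad (k i) - C.rad i else 0) := by
      intro i hi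
      have hiL : i < C.L := lt_of_lt_of_le (mem_Ico.1 hi).2 haL
      by_cases h : χ i
      · obtain ⟨h1, h2, h3⟩ := C.next_spec hL hiL
        simp only [if_pos h]
        have hm0 : 0 ≤ mf i := Nat.cast_nonneg _
        rw [nrm_smul hp (by positivity)]
        have hn : nrm C.p (fun c => |C.inc i (k i) X c|) ≤ 2 * C.rad (k i) * cc :=
          (nrm_mono hp fun c => le_of_eq (abs_abs _)).trans
            (C.nrm_inc_le h1.le (hg i hiL.le h) (hg _ h2 h3))
        have hka : k i ≤ a := up_le_of_mem (mem_Ico.1 hi).2 (Or.inr ha)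
        have e1 := mul_le_mul_of_nonneg_left hn (show 0 ≤ 2 * mf i + 3 by positivity)
        have e2 := mul_le_mul_of_nonneg_left (C.rad_mono hka) (show 0 ≤ 4 * mf i * cc by positivity)
        have e3 := mul_le_mul_of_nonneg_left (C.rad_two_mul h1) (show 0 ≤ 6 * cc by positivity)
        linarith
      · simp [if_neg h, nrm_zero hp]
    refine (sum_le_sum hterm).trans ?_
    rw [sum_add_distrib, ← sum_mul, ← mul_sum]
    have hgap := C.sum_gaps_le (χ := χ) (Nat.zero_le a) haL (Or.inr ha)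
    have hr : ∑ i ∈ Ico 0 a, (if χ i then C.rad (k i) - C.rad i else 0) ≤ C.rad a := by
      have h := chain_telescope (χ := χ) (fun i => -C.rad i) (Nat.zero_le a) haL (Or.inr ha)
      simp only [neg_sub_neg] at h
      rw [h]
      have := C.rad_pos (up χ C.L 0)
      linarith
    have e1 := mul_le_mul_of_nonneg_right hgap
      (show 0 ≤ 4 * cc * C.rad a by have := C.rad_pos a; positivity)
    have e2 := mul_le_mul_of_nonneg_left hr (show 0 ≤ 12 * cc by positivity)
    linarith

/-- Constant of the levels above the scale of the pair. -/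
noncomputable def chh : ℝ := 3 * C.p * C.ch

lemma eight_le_ch : 8 ≤ C.ch := by
  have hp := C.hp
  have h1 : (1:ℝ) ≤ 2 ^ C.p := Real.one_le_rpow one_le_two (by linarith)
  have h2 : (1:ℝ) ≤ Real.exp C.ce ^ 2 := one_le_pow₀ (Real.one_le_exp C.ce_nonneg)
  have := one_le_mul_of_one_le_of_one_le (one_le_mul_of_one_le_of_one_le hp h1) h2
  unfold ch
  linarith

open Classical in
/-- The common levels above the scale of a pair, coordinatewise. -/
lemma high_coord (hJ : 0 < J) {χ : ℕ → Prop} {X Y : κ → ℝ} (hL : χ C.L) {K : ℕ}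
    (hgx : ∀ i, K ≤ i → i ≤ C.L → χ i → C.gr i X ≤ 2 * C.τ)
    (hgy : ∀ i, K ≤ i → i ≤ C.L → χ i → C.gr i Y ≤ 2 * C.τ) (hKL : K ≤ C.L) (hK : χ K) {t : ℝ} (ht : nrm C.p (fun c => X c - Y c) = t)
    (htK : t ≤ C.rad K) (c : κ) :
    nrm C.p (fun s => C.piece J N χ K C.L X c s - C.piece J N χ K C.L Y c s
        - ((C.bar K X c - C.bar K Y c) * frame C.p J N (C.ref K X Y c) s
          - (C.bar C.L X c - C.bar C.L Y c) * frame C.p J N (C.ref C.L X Y c) s))
      ≤ 16 / J * (C.chh * t * (C.vb K X Y c ^ (1 / C.p) + ∑ i ∈ Ico K C.L,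
          (if χ i then ((up χ C.L (i + 1) - (i + 1) : ℕ) : ℝ) *
            (C.osc2 i X Y c + C.osc2 (up χ C.L (i + 1)) X Y c) else 0))) := by
  have hp := C.hp
  have hp0 : 0 < C.p := by linarith
  have ht0 : 0 ≤ t := ht ▸ nrm_nonneg _
  set k : ℕ → ℕ := fun i => up χ C.L (i + 1) with hk
  set φ : ℕ → ℝ := fun i => C.bar i X c - C.bar i Y c with hφ
  set W : ℕ → Fin (2 * N + 1) → ℝ := fun i => frame C.p J N (C.ref i X Y c) with hW
  have hupK : up χ C.L K = K := by
    rcases hKL.eq_or_lt with h | h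
    · rw [h]; exact up_last
    · exact up_self h hK
  have htel := fun s => chain_telescope (χ := χ) (fun i => φ i * W i s) hKL le_rfl (Or.inl rfl)
  have e : (fun s => C.piece J N χ K C.L X c s - C.piece J N χ K C.L Y c s
      - (φ K * W K s - φ C.L * W C.L s))
      = fun s => ∑ i ∈ Ico K C.L,
          ((if χ i then C.psi J N i (k i) X c s - C.psi J N i (k i) Y c s
            - (C.inc i (k i) X c - C.inc i (k i) Y c) * W i s else 0)
          + (if χ i then φ (k i) * (W (k i) s - W i s) else 0)) := by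
    funext s
    have := htel s
    rw [hupK] at this
    rw [piece, piece, ← this, ← sum_sub_distrib, ← sum_sub_distrib]
    refine sum_congr rfl fun i _ => ?_
    by_cases h : χ i
    · simp only [if_pos h]
      show _ = C.psi J N i (k i) X c s - C.psi J N i (k i) Y c s
        - (C.bar i X c - C.bar (k i) X c - (C.bar i Y c - C.bar (k i) Y c)) * W i s
        + (C.bar (k i) X c - C.bar (k i) Y c) * (W (k i) s - W i s)
      simp only [hφ, hk]
      ring
    · simp [if_neg h]
  show nrm C.p (fun s => _ - (φ K * W K s - φ C.L * W C.L s)) ≤ _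
  rw [e]
  set Rt : ℕ → ℝ := fun i => C.vb i X Y c ^ (1 / C.p) with hRt
  have hbound : ∀ i ∈ Ico K C.L, nrm C.p (fun s =>
      (if χ i then C.psi J N i (k i) X c s - C.psi J N i (k i) Y c s
            - (C.inc i (k i) X c - C.inc i (k i) Y c) * W i s else 0)
          + (if χ i then φ (k i) * (W (k i) s - W i s) else 0))
      ≤ 16 / J * (C.ch * t * C.gain i X Y c + C.ch * t * (if χ i then
            ((k i - (i + 1) : ℕ) : ℝ) * (C.osc2 i X Y c + C.osc2 (k i) X Y c) else 0)
          + 8 * t * C.p * (if χ i then Rt i - Rt (k i) else 0)) := by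
    intro i hi
    obtain ⟨hKi, hiL⟩ := mem_Ico.1 hi
    have hgain : 0 ≤ C.gain i X Y c := sum_nonneg fun q _ => mul_nonneg
      (div_nonneg (C.rad_pos i).le (C.rad_pos q).le) (mul_nonneg
        (add_nonneg (C.elem_nonneg _ _ _) (C.elem_nonneg _ _ _))
        (Real.rpow_nonneg (C.vb_pos q X Y c).le _))
    by_cases h : χ i
    · obtain ⟨h1, h2, h3⟩ := C.next_spec hL hiL
      simp only [if_pos h]
      refine (nrm_add hp _ _).trans ?_
      have hti : t ≤ C.rad i := htK.trans (C.rad_mono hKi)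
      have a1 := C.seg_high h1 h2 ht hti (hgx i hKi hiL.le h)
        (hgx _ (hKi.trans h1.le) h2 h3) (hgy i hKi hiL.le h) (hgy _ (hKi.trans h1.le) h2 h3) c hJ N
      have a2 : nrm C.p (fun s => φ (k i) * (W (k i) s - W i s))
          ≤ 16 / J * (8 * t * C.p * (Rt i - Rt (k i))) := by
        refine (C.nrm_frame_diff hJ N _ _ _).trans (mul_le_mul_of_nonneg_left ?_ (by positivity))
        have hb := (C.bar_lip ht (hti.trans (C.rad_mono h1.le)) c).trans
          (mul_le_mul_of_nonneg_left (C.root_A_le le_rfl h2 (hgy _ (hKi.trans h1.le) h2 h3) c) (by positivity))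
        have hvk : C.prof (k i) Y c ≤ C.vb (k i) X Y c :=
          le_add_of_nonneg_left (C.prof_pos _ X c).le
        have hb2 : |φ (k i)| ≤ 8 * t * Rt (k i) := hb.trans (mul_le_mul_of_nonneg_left
          (Real.rpow_le_rpow (C.prof_pos _ Y c).le hvk (by positivity)) (by positivity))
        have hmono : C.vb (k i) X Y c ≤ C.vb i X Y c :=
          add_le_add (C.prof_anti h1.le X c) (C.prof_anti h1.le Y c)
        have hvpos := C.vb_pos (k i) X Y c
        have hlog : |C.ref (k i) X Y c - C.ref i X Y c|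
            = Real.log (C.vb i X Y c) - Real.log (C.vb (k i) X Y c) := by
          rw [ref, ref, Real.log_div hvpos.ne' two_ne_zero,
            Real.log_div (C.vb_pos i X Y c).ne' two_ne_zero, sub_sub_sub_cancel_right,
            abs_sub_comm, abs_of_nonneg (sub_nonneg.2 (Real.log_le_log hvpos hmono))]
        rw [hlog]
        have := mul_le_mul_of_nonneg_left (log_ratio_mul_le hp0 hvpos hmono)
          (show 0 ≤ 8 * t by positivity)
        have := mul_le_mul_of_nonneg_right hb2 (sub_nonneg.2 (Real.log_le_log hvpos hmono))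
        simp only [hRt] at *
        linarith
      refine (add_le_add a1 a2).trans_eq ?_
      ring
    · simp only [if_neg h, add_zero, mul_zero, nrm_zero hp]
      have := C.eight_le_ch
      positivity
  refine ((nrm_sum hp _ _).trans (sum_le_sum hbound)).trans ?_
  rw [← mul_sum]
  refine mul_le_mul_of_nonneg_left ?_ (by positivity)
  rw [sum_add_distrib, sum_add_distrib, ← mul_sum, ← mul_sum, ← mul_sum]
  have hRsum : ∑ i ∈ Ico K C.L, (if χ i then Rt i - Rt (k i) else 0) ≤ Rt K := by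
    have := chain_telescope (χ := χ) Rt hKL le_rfl (Or.inl rfl)
    rw [hupK] at this
    rw [this]
    have : 0 ≤ Rt C.L := Real.rpow_nonneg (C.vb_pos _ X Y c).le _
    linarith
  have hGsum : ∑ i ∈ Ico K C.L, C.gain i X Y c ≤ 2 * C.p * Rt K := by
    set Z : ℕ → ℝ := fun q => (C.elem q X c + C.elem q Y c) * C.vb q X Y c ^ (1 / C.p - 1) with hZ
    have hZ0 : ∀ q, 0 ≤ Z q := fun q => mul_nonneg
      (add_nonneg (C.elem_nonneg _ _ _) (C.elem_nonneg _ _ _))
      (Real.rpow_nonneg (C.vb_pos q X Y c).le _)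
    calc ∑ i ∈ Ico K C.L, C.gain i X Y c
        = ∑ q ∈ Icc K C.L, ∑ i ∈ (Ico K C.L).filter (fun i => i ≤ q), C.rad i / C.rad q * Z q := by
          unfold gain
          refine sum_comm' fun i q => ?_
          simp only [mem_Ico, mem_Icc, mem_filter]; omega
      _ ≤ ∑ q ∈ Icc K C.L, 2 * Z q := by
          refine sum_le_sum fun q _ => ?_
          rw [← sum_mul, ← sum_div]
          refine mul_le_mul_of_nonneg_right ?_ (hZ0 q)
          rw [div_le_iff₀ (C.rad_pos q), ← rad_succ]
          refine le_trans ?_ (C.sum_rad_le 0 (q + 1))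
          refine sum_le_sum_of_subset_of_nonneg (fun i hi => ?_) fun i _ _ => (C.rad_pos i).le
          rw [mem_Ico]
          exact ⟨Nat.zero_le i, by have := (mem_filter.1 hi).2; omega⟩
      _ ≤ ∑ q ∈ Icc K C.L, 2 * C.p * (Rt q - Rt (q + 1)) := by
          refine sum_le_sum fun q hq => ?_
          have e2 : C.elem q X c + C.elem q Y c = C.vb q X Y c - C.vb (q + 1) X Y c := by
            simp only [vb, C.prof_succ (mem_Icc.1 hq).2]; ring
          have := rpow_increment hp (C.vb_pos q X Y c) (C.vb_pos (q + 1) X Y c).le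
          simp only [hZ, hRt, e2]
          linarith
      _ = 2 * C.p * (Rt K - Rt (C.L + 1)) := by
          rw [← mul_sum]
          congr 1
          rw [show Icc K C.L = Ico K (C.L + 1) by ext q; simp only [mem_Icc, mem_Ico]; omega]
          have h := sum_Ico_sub (fun q => -Rt q) (show K ≤ C.L + 1 by omega)
          simp only [neg_sub_neg] at h
          exact h
      _ ≤ _ := by
          have : 0 ≤ 2 * C.p * Rt (C.L + 1) :=
            mul_nonneg (by positivity) (Real.rpow_nonneg (C.vb_pos _ X Y c).le _)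
          linarith
  have hch := C.eight_le_ch
  have hRK : 0 ≤ Rt K := Real.rpow_nonneg (C.vb_pos _ X Y c).le _
  set B := ∑ i ∈ Ico K C.L, (if χ i then ((k i - (i + 1) : ℕ) : ℝ) *
      (C.osc2 i X Y c + C.osc2 (k i) X Y c) else 0) with hB
  have hB0 : 0 ≤ B := sum_nonneg fun i _ => by
    split_ifs
    · exact mul_nonneg (Nat.cast_nonneg _)
        (add_nonneg (C.osc2_nonneg _ _ _ _) (C.osc2_nonneg _ _ _ _))
    · exact le_rfl
  have e1 := mul_le_mul_of_nonneg_left hGsum (show 0 ≤ C.ch * t by positivity)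
  have e2 := mul_le_mul_of_nonneg_left hRsum (show 0 ≤ 8 * t * C.p by positivity)
  have e3 := mul_le_mul_of_nonneg_right hch (show 0 ≤ t * C.p * Rt K by positivity)
  have e4 := mul_le_mul_of_nonneg_right (show 1 ≤ 3 * C.p by linarith)
    (show 0 ≤ C.ch * t * B by positivity)
  unfold chh
  linarith

/-- The common levels above the scale of a pair, against the reference of the pair. -/
lemma high_le (hJ : 0 < J) {χ : ℕ → Prop} {X Y : κ → ℝ} (hL : χ C.L) {K : ℕ}
    (hgx : ∀ i, K ≤ i → i ≤ C.L → χ i → C.gr i X ≤ 2 * C.τ)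
    (hgy : ∀ i, K ≤ i → i ≤ C.L → χ i → C.gr i Y ≤ 2 * C.τ) (hKL : K ≤ C.L) (hK : χ K) {t : ℝ} (ht : nrm C.p (fun c => X c - Y c) = t)
    (htK : t ≤ C.rad K) :
    nrm C.p (fun z : κ × Fin (2 * N + 1) => C.piece J N χ K C.L X z.1 z.2
        - C.piece J N χ K C.L Y z.1 z.2
        - ((C.bar K X z.1 - C.bar K Y z.1) - (C.bar C.L X z.1 - C.bar C.L Y z.1))
            * frame C.p J N (C.ref 0 X Y z.1) z.2)
      ≤ 16 / J * (C.chh * t * (4 * (C.skipped χ : ℝ) * (C.cn * (1 + C.τ))
          + 3 * nrm C.p (fun c => C.vb 0 X Y c ^ (1 / C.p)))) := by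
  classical
  have hp := C.hp
  have hp0 : 0 < C.p := by linarith
  have ht0 : 0 ≤ t := ht ▸ nrm_nonneg _
  set B : κ → ℝ := fun c => ∑ i ∈ Ico K C.L, (if χ i then ((up χ C.L (i + 1) - (i + 1) : ℕ) : ℝ) *
    (C.osc2 i X Y c + C.osc2 (up χ C.L (i + 1)) X Y c) else 0) with hB
  set E : κ → ℝ := fun c => 16 / J * (C.chh * t * (3 * C.vb 0 X Y c ^ (1 / C.p) + B c)) with hE
  have hchh : 8 * C.p ≤ C.chh := by
    have h8 := mul_le_mul_of_nonneg_left C.eight_le_ch (show 0 ≤ 3 * C.p by positivity)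
    unfold chh; linarith
  have hchh0 : 0 ≤ C.chh := by linarith
  refine (nrm_prod_le hp _ E fun c => ?_).trans ?_
  · show nrm C.p (fun s => C.piece J N χ K C.L X c s - C.piece J N χ K C.L Y c s
      - ((C.bar K X c - C.bar K Y c) - (C.bar C.L X c - C.bar C.L Y c))
        * frame C.p J N (C.ref 0 X Y c) s) ≤ E c
    have hend : ∀ j, j ≤ C.L → K ≤ j → χ j →
        nrm C.p (fun s => (C.bar j X c - C.bar j Y c) *
          (frame C.p J N (C.ref j X Y c) s - frame C.p J N (C.ref 0 X Y c) s))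
        ≤ 16 / J * (8 * t * C.p * C.vb 0 X Y c ^ (1 / C.p)) := by
      intro j hjL hKj hj
      refine (C.nrm_frame_diff hJ N _ _ _).trans (mul_le_mul_of_nonneg_left ?_ (by positivity))
      have hb := (C.bar_lip ht (htK.trans (C.rad_mono hKj)) c).trans
        (mul_le_mul_of_nonneg_left (C.root_A_le le_rfl hjL (hgy _ hKj hjL hj) c) (by positivity))
      have hvj : C.prof j Y c ≤ C.vb j X Y c := le_add_of_nonneg_left (C.prof_pos _ X c).le
      have hb2 := hb.trans (mul_le_mul_of_nonneg_left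
        (Real.rpow_le_rpow (C.prof_pos _ Y c).le hvj (by positivity : 0 ≤ 1 / C.p))
        (show 0 ≤ 8 * t by positivity))
      have hmono : C.vb j X Y c ≤ C.vb 0 X Y c :=
        add_le_add (C.prof_anti (Nat.zero_le j) X c) (C.prof_anti (Nat.zero_le j) Y c)
      have hvpos := C.vb_pos j X Y c
      rw [ref, ref, Real.log_div hvpos.ne' two_ne_zero,
        Real.log_div (C.vb_pos 0 X Y c).ne' two_ne_zero, sub_sub_sub_cancel_right, abs_sub_comm
          (Real.log _), abs_of_nonneg (sub_nonneg.2 (Real.log_le_log hvpos hmono))]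
      have := mul_le_mul_of_nonneg_left (log_ratio_mul_le hp0 hvpos hmono)
        (show 0 ≤ 8 * t by positivity)
      have := mul_le_mul_of_nonneg_right hb2 (sub_nonneg.2 (Real.log_le_log hvpos hmono))
      have : 0 ≤ C.p * (8 * t * C.vb j X Y c ^ (1 / C.p)) := by positivity
      linarith
    have e : (fun s => C.piece J N χ K C.L X c s - C.piece J N χ K C.L Y c s
        - ((C.bar K X c - C.bar K Y c) - (C.bar C.L X c - C.bar C.L Y c))
          * frame C.p J N (C.ref 0 X Y c) s)
        = fun s => ((C.piece J N χ K C.L X c s - C.piece J N χ K C.L Y c s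
          - ((C.bar K X c - C.bar K Y c) * frame C.p J N (C.ref K X Y c) s
            - (C.bar C.L X c - C.bar C.L Y c) * frame C.p J N (C.ref C.L X Y c) s))
          + (C.bar K X c - C.bar K Y c) *
            (frame C.p J N (C.ref K X Y c) s - frame C.p J N (C.ref 0 X Y c) s))
          + -((C.bar C.L X c - C.bar C.L Y c) *
            (frame C.p J N (C.ref C.L X Y c) s - frame C.p J N (C.ref 0 X Y c) s)) := by
      funext s; ring
    rw [e]
    refine (nrm_add hp _ _).trans ?_
    rw [nrm_neg]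
    refine (add_le_add ((nrm_add hp _ _).trans (add_le_add (C.high_coord N hJ hL hgx hgy hKL hK ht htK c)
      (hend K hKL le_rfl hK))) (hend C.L le_rfl hKL hL)).trans ?_
    rw [← mul_add, ← mul_add, hE]
    refine mul_le_mul_of_nonneg_left ?_ (by positivity)
    have hKmono : C.vb K X Y c ^ (1 / C.p) ≤ C.vb 0 X Y c ^ (1 / C.p) :=
      Real.rpow_le_rpow (C.vb_pos K X Y c).le
        (add_le_add (C.prof_anti (Nat.zero_le K) X c) (C.prof_anti (Nat.zero_le K) Y c))
        (by positivity)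
    have := mul_le_mul_of_nonneg_left hKmono (show 0 ≤ C.chh * t by positivity)
    have := mul_le_mul_of_nonneg_right hchh
      (show 0 ≤ t * C.vb 0 X Y c ^ (1 / C.p) by have := C.vb_pos 0 X Y c; positivity)
    simp only [hB]
    linarith
  · rw [hE, nrm_smul hp (by positivity)
      (fun c => C.chh * t * (3 * C.vb 0 X Y c ^ (1 / C.p) + B c)), nrm_smul hp (by positivity)]
    refine mul_le_mul_of_nonneg_left (mul_le_mul_of_nonneg_left ?_ (by positivity)) (by positivity)
    refine (nrm_add hp _ _).trans ?_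
    rw [nrm_smul hp (by norm_num), add_comm]
    refine add_le_add ((nrm_sum hp _ _).trans ?_) le_rfl
    set cc := C.cn * (1 + C.τ) with hcc
    have hterm : ∀ i ∈ Ico K C.L, nrm C.p (fun c => if χ i then
        ((up χ C.L (i + 1) - (i + 1) : ℕ) : ℝ) *
          (C.osc2 i X Y c + C.osc2 (up χ C.L (i + 1)) X Y c) else 0)
        ≤ (if χ i then ((up χ C.L (i + 1) - (i + 1) : ℕ) : ℝ) else 0) * (4 * cc) := by
      intro i hi
      have hiL := (mem_Ico.1 hi).2
      by_cases h : χ i
      · obtain ⟨h1, h2, h3⟩ := C.next_spec hL hiL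
        simp only [if_pos h]
        rw [nrm_smul hp (Nat.cast_nonneg _)]
        refine mul_le_mul_of_nonneg_left ?_ (Nat.cast_nonneg _)
        have hKi := (mem_Ico.1 hi).1
        have ho : ∀ j, K ≤ j → j ≤ C.L → χ j → nrm C.p (fun c => C.osc2 j X Y c) ≤ 2 * cc := fun j hKj hjL hj =>
          (nrm_add hp _ _).trans (by
            linarith [C.nrm_osc_le (hgx j hKj hjL hj), C.nrm_osc_le (hgy j hKj hjL hj)])
        exact (nrm_add hp _ _).trans (by linarith [ho i hKi hiL.le h, ho _ (hKi.trans h1.le) h2 h3])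
      · simp [if_neg h, nrm_zero hp]
    refine (sum_le_sum hterm).trans ?_
    rw [← sum_mul]
    have hcc0 : 0 ≤ 4 * cc := by have := C.one_le_cn; have := C.hτ; positivity
    exact (mul_le_mul_of_nonneg_right (C.sum_gaps_le hKL le_rfl (Or.inl rfl)) hcc0).trans_eq
      (by ring)

/-- The segment across the scale of the pair. -/
lemma junction_le (hJ : 0 < J) {i k : ℕ} (hik : i < k) (hkL : k ≤ C.L) (x y : Fin n) {t : ℝ}
    (ht : nrm C.p (fun c => C.v x c - C.v y c) = t) (hi : C.rad i ≤ t) (hk : t ≤ C.rad k)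
    (hix : C.gr i (C.v x) ≤ 2 * C.τ) (hkx : C.gr k (C.v x) ≤ 2 * C.τ)
    (hiy : C.gr i (C.v y) ≤ 2 * C.τ) (hky : C.gr k (C.v y) ≤ 2 * C.τ) :
    nrm C.p (fun z : κ × Fin (2 * N + 1) =>
        C.psi J N i k (C.v x) z.1 z.2 - C.psi J N i k (C.v y) z.1 z.2
        - (C.inc i k (C.v x) z.1 - C.inc i k (C.v y) z.1)
          * frame C.p J N (C.ref 0 (C.v x) (C.v y) z.1) z.2)
      ≤ 16 / J * (C.p * ((2 * ((k - (i + 1) : ℕ) : ℝ) + 4) * (11 * t * (C.cn * (1 + C.τ)))
          + 3 * t * C.size)) := by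
  have hp := C.hp
  set X := C.v x
  set Y := C.v y
  set m := ((k - (i + 1) : ℕ) : ℝ) with hm
  have hm0 : 0 ≤ m := Nat.cast_nonneg _
  refine (nrm_prod_le hp _ (fun c => 16 / J * (C.p * ((2 * m + 4) * |C.inc i k X c - C.inc i k Y c|
      + 3 * C.rad i * C.vb 0 X Y c ^ (1 / C.p)))) ?_).trans ?_
  · intro c
    exact C.seg_junction hik hkL hix hkx hiy hky c hJ N
  rw [nrm_smul hp (by positivity)
    (fun c => C.p * ((2 * m + 4) * |C.inc i k X c - C.inc i k Y c|
          + 3 * C.rad i * C.vb 0 X Y c ^ (1 / C.p))), nrm_smul hp (by linarith)]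
  refine mul_le_mul_of_nonneg_left (mul_le_mul_of_nonneg_left ?_ (by linarith)) (by positivity)
  refine (nrm_add hp _ _).trans (add_le_add ?_ ?_)
  · rw [nrm_smul hp (by positivity)]
    refine mul_le_mul_of_nonneg_left ?_ (by positivity)
    have h1 : nrm C.p (fun c => |C.inc i k X c - C.inc i k Y c|)
        ≤ nrm C.p (fun c => (C.bar i X c - C.bar i Y c) - (C.bar k X c - C.bar k Y c)) :=
      nrm_mono hp fun c => by rw [abs_abs, inc, inc]; exact le_of_eq (by congr 1; ring)
    refine (h1.trans (nrm_sub_le hp _ _)).trans ?_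
    have h2 : nrm C.p (fun c => C.bar i X c - C.bar i Y c) ≤ 3 * t * (C.cn * (1 + C.τ)) := by
      have a := nrm_triangle hp (C.bar i X) X (C.bar i Y)
      have b := nrm_triangle hp X Y (C.bar i Y)
      rw [nrm_sub_comm Y (C.bar i Y), ht] at b
      have hcc : 1 ≤ C.cn * (1 + C.τ) :=
        one_le_mul_of_one_le_of_one_le C.one_le_cn (by linarith [C.hτ])
      have := mul_le_mul_of_nonneg_right hi (by linarith : 0 ≤ C.cn * (1 + C.τ))
      have := mul_le_mul_of_nonneg_left hcc (show 0 ≤ t from ht ▸ nrm_nonneg _)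
      linarith [C.nrm_bar_le hix, C.nrm_bar_le hiy]
    linarith [C.nrm_bar_diff_le ht hk hky]
  · rw [nrm_smul hp (by have := C.rad_pos i; positivity)]
    exact mul_le_mul (by linarith) (C.nrm_vb_le x y) (nrm_nonneg _)
      (by have := C.rad_pos i; linarith)

end Cfg

end Vale.Agent.P249.Sharp
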