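import Mathlib
import Vale.Agent.P249.Sharp.ChainMap

/-!
The average of the chain maps over a range of thresholds: distortion of a pair, and the bound on
every single coordinate.
-/

namespace Vale.Agent.P249.Sharp

open Finset

/-- The natural numbers in a real interval. -/
lemma count_between (T : ℕ) {u w : ℝ} (h : u ≤ w) :
    (((range T).filter fun l : ℕ => u ≤ (l:ℝ) ∧ (l:ℝ) < w).card : ℝ) ≤ w - u + 1 := by
  have h1 : ((range T).filter fun l : ℕ => u ≤ (l:ℝ) ∧ (l:ℝ) < w).card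
      ≤ (Finset.Ico ⌈u⌉ ⌈w⌉).card := by
    refine card_le_card_of_injOn (fun l : ℕ => (l:ℤ)) ?_ ?_
    · intro l hl
      rw [mem_coe, mem_filter] at hl
      rw [mem_coe, mem_Ico]
      exact ⟨Int.ceil_le.2 (by push_cast; exact hl.2.1), Int.lt_ceil.2 (by push_cast; exact hl.2.2)⟩
    · intro a _ b _ hab
      exact Int.ofNat.inj hab
  rw [Int.card_Ico] at h1
  have h2 : (⌈u⌉:ℝ) ≤ ⌈w⌉ := by exact_mod_cast Int.ceil_mono h
  have h3 : ((⌈w⌉ - ⌈u⌉).toNat : ℝ) = (⌈w⌉:ℝ) - ⌈u⌉ := by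
    have : ((⌈w⌉ - ⌈u⌉).toNat : ℤ) = ⌈w⌉ - ⌈u⌉ := Int.toNat_of_nonneg (by
      have := Int.ceil_mono h; omega)
    exact_mod_cast this
  have h4 : (((range T).filter fun l : ℕ => u ≤ (l:ℝ) ∧ (l:ℝ) < w).card : ℝ)
      ≤ ((⌈w⌉ - ⌈u⌉).toNat : ℝ) := by exact_mod_cast h1
  rw [h3] at h4
  linarith [Int.le_ceil u, Int.ceil_lt_add_one w]

namespace Cfg

variable {n : ℕ} {κ : Type*} [Fintype κ] (C : Cfg n κ) (J : ℝ) (N T : ℕ)

/-- The chain of a threshold. -/
def chi (l : ℕ) (X : κ → ℝ) (i : ℕ) : Prop := C.gr i X ≤ C.τ * (1 + (l:ℝ) / T)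

/-- The threshold average of the chain maps. -/
noncomputable def avgMap (X : κ → ℝ) (z : κ × Fin (2 * N + 1)) : ℝ :=
  (T:ℝ)⁻¹ * ∑ l ∈ range T, C.piece J N (C.chi T l X) 0 C.L X z.1 z.2

/-- The two ends have small growth. -/
def Ends (X : κ → ℝ) : Prop := C.gr 0 X ≤ C.τ ∧ C.gr C.L X ≤ C.τ

/-- Levels of large growth. -/
noncomputable def bad (X : κ → ℝ) : Finset ℕ :=
  open Classical in (range (C.L + 1)).filter fun i => C.τ < C.gr i X

/-- Magnitude bound of a window. -/
noncomputable def top (s : Fin (2 * N + 1)) : ℝ := Real.exp ((((s:ℕ):ℝ) - N + 1) * J)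

/-- Dimensional constant of the pair estimate. -/
noncomputable def cp : ℝ := 100 * C.chh

variable [NeZero n]

lemma p_le_chh : C.p ≤ C.chh := by
  have hp := C.hp
  have h8 := mul_le_mul_of_nonneg_left C.eight_le_ch (show 0 ≤ 3 * C.p by positivity)
  unfold chh; linarith

lemma size_nonneg : 0 ≤ C.size := by
  have x : Fin n := ⟨0, Nat.pos_of_ne_zero (NeZero.ne n)⟩
  exact (nrm_nonneg (p := C.p) (fun c => C.vb 0 (C.v x) (C.v x) c ^ (1 / C.p))).trans
    (C.nrm_vb_le x x)

omit [NeZero n] in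
lemma chi_valid {l : ℕ} (hl : l < T) {X : κ → ℝ} (hX : C.Ends X) : C.Valid (C.chi T l X) X := by
  have hτ : 0 ≤ C.τ := le_trans zero_le_one C.hτ
  have h0 : 0 ≤ C.τ * ((l:ℝ) / T) := by positivity
  have h1 : (l:ℝ) / T ≤ 1 := by
    rw [div_le_one (by exact_mod_cast (show 0 < T by omega))]; exact_mod_cast hl.le
  have h2 := mul_le_mul_of_nonneg_left h1 hτ
  refine ⟨?_, ?_, fun i _ hi => ?_⟩
  · exact hX.1.trans (by rw [mul_add]; linarith)
  · exact hX.2.trans (by rw [mul_add]; linarith)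
  · exact le_trans hi (by rw [mul_add]; linarith)

omit [NeZero n] in
lemma not_chi_bad {l i : ℕ} {X : κ → ℝ} (hi : i ≤ C.L) (h : ¬ C.chi T l X i) : i ∈ C.bad X := by
  classical
  refine mem_filter.2 ⟨mem_range.2 (by omega), lt_of_le_of_lt ?_ (not_le.1 h)⟩
  have : 0 ≤ C.τ * ((l:ℝ) / T) := by have := C.hτ; positivity
  rw [mul_add]; linarith

omit [NeZero n] in
lemma skipped_le (l : ℕ) (X : κ → ℝ) : C.skipped (C.chi T l X) ≤ (C.bad X).card := by
  classical
  refine card_le_card fun i hi => ?_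
  obtain ⟨h1, h2⟩ := mem_filter.1 hi
  exact C.not_chi_bad T (by rw [mem_range] at h1; omega) h2

omit [NeZero n] in
lemma piece_split (χ : ℕ → Prop) {a b e : ℕ} (h1 : a ≤ b) (h2 : b ≤ e) (X : κ → ℝ) (c : κ)
    (s : Fin (2 * N + 1)) :
    C.piece J N χ a e X c s = C.piece J N χ a b X c s + C.piece J N χ b e X c s := by
  classical
  exact (sum_Ico_consecutive _ h1 h2).symm

omit [NeZero n] in
lemma piece_eq_zero (χ : ℕ → Prop) {a b : ℕ} (h : ∀ i, a ≤ i → i < b → ¬ χ i) (X : κ → ℝ) (c : κ)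
    (s : Fin (2 * N + 1)) : C.piece J N χ a b X c s = 0 := by
  classical
  exact sum_eq_zero fun i hi => if_neg (h i (mem_Ico.1 hi).1 (mem_Ico.1 hi).2)

omit [NeZero n] in
lemma piece_congr {χ χ' : ℕ → Prop} {a b : ℕ} (hb : b ≤ C.L)
    (h : ∀ i, a ≤ i → i < C.L → (χ i ↔ χ' i)) (X : κ → ℝ) (c : κ) (s : Fin (2 * N + 1)) :
    C.piece J N χ a b X c s = C.piece J N χ' a b X c s := by
  classical
  refine sum_congr rfl fun i hi => ?_
  obtain ⟨h1, h2⟩ := mem_Ico.1 hi
  have hu : up χ C.L (i + 1) = up χ' C.L (i + 1) :=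
    up_congr fun j hj hjL => h j (by omega) hjL
  by_cases hc : χ i
  · rw [if_pos hc, if_pos ((h i h1 (by omega)).1 hc), hu]
  · rw [if_neg hc, if_neg fun h' => hc ((h i h1 (by omega)).2 h')]

omit [NeZero n] in
lemma piece_single {χ : ℕ → Prop} {i : ℕ} (hi : χ i) (X : κ → ℝ) (c : κ)
    (s : Fin (2 * N + 1)) :
    C.piece J N χ i (i + 1) X c s = C.psi J N i (up χ C.L (i + 1)) X c s := by
  classical
  simp [piece, hi]

variable {J}

/-- A single threshold on a pair. -/
lemma chain_pair_le (hJ : 0 < J) (x y : Fin n) {χx χy : ℕ → Prop} (hx : C.Valid χx (C.v x))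
    (hy : C.Valid χy (C.v y)) {t : ℝ} (ht : nrm C.p (fun c => C.v x c - C.v y c) = t)
    (ht0 : C.rad 0 < t) (htL : t ≤ C.rad C.L) {M : ℕ} (hMx : C.skipped χx ≤ M)
    (hMy : C.skipped χy ≤ M) (D : Finset ℕ)
    (hD : ∀ j, j ≤ C.L → t ≤ C.rad (j + M + 1) → ¬ (χx j ↔ χy j) → j ∈ D) :
    nrm C.p (fun z : κ × Fin (2 * N + 1) =>
        C.piece J N χx 0 C.L (C.v x) z.1 z.2 - C.piece J N χy 0 C.L (C.v y) z.1 z.2
        - ((C.bar 0 (C.v x) z.1 - C.bar 0 (C.v y) z.1)
            - (C.bar C.L (C.v x) z.1 - C.bar C.L (C.v y) z.1))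
          * frame C.p J N (C.ref 0 (C.v x) (C.v y) z.1) z.2)
      ≤ 16 / J * (C.cp * (C.cn * (1 + C.τ) * ((M:ℝ) + 1) + C.size)
          * (t + 2 ^ (2 * M + 2) * ∑ j ∈ D, C.rad j)) := by
  classical
  have hp := C.hp
  set X := C.v x with hX
  set Y := C.v y with hY
  have hex : ∃ k, t ≤ C.rad k := ⟨C.L, htL⟩
  set K₀ := Nat.find hex with hK₀
  have hK₀t : t ≤ C.rad K₀ := Nat.find_spec hex
  have hK₀L : K₀ ≤ C.L := Nat.find_min' hex htL
  have hK₀pos : 0 < K₀ := by
    by_contra h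
    rw [show K₀ = 0 by omega] at hK₀t
    linarith
  have hbelow : ∀ k, k < K₀ → C.rad k ≤ t := fun k hk => (not_le.1 (Nat.find_min hex hk)).le
  have ht' : 0 ≤ t := ht ▸ nrm_nonneg _
  set cc := C.cn * (1 + C.τ) with hcc
  have hcc0 : 0 ≤ cc := by have := C.one_le_cn; have := C.hτ; positivity
  have hsize := C.size_nonneg
  set Z := cc * ((M:ℝ) + 1) + C.size with hZ
  have hZ0 : 0 ≤ Z := by positivity
  have hpc := C.p_le_chh
  have hchh : 0 ≤ C.chh := by linarith
  have hVx : ∀ c, C.prof 0 X c ≤ C.vb 0 X Y c := fun c =>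
    le_add_of_nonneg_right (C.prof_pos 0 Y c).le
  have hVy : ∀ c, C.prof 0 Y c ≤ C.vb 0 X Y c := fun c =>
    le_add_of_nonneg_left (C.prof_pos 0 X c).le
  have hlamb : nrm C.p (fun c => C.vb 0 X Y c ^ (1 / C.p)) ≤ C.size := C.nrm_vb_le x y
  have hlow : ∀ (χ : ℕ → Prop) (U : κ → ℝ), C.Valid χ U → C.skipped χ ≤ M →
      (∀ c, C.prof 0 U c ≤ C.vb 0 X Y c) → ∀ a, a ≤ C.L → χ a →
      nrm C.p (fun z : κ × Fin (2 * N + 1) => C.piece J N χ 0 a U z.1 z.2
        - (C.bar 0 U z.1 - C.bar a U z.1) * frame C.p J N (C.ref 0 X Y z.1) z.2)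
      ≤ 16 / J * (12 * C.chh * Z * C.rad a) := by
    intro χ U hU hM hV a haL ha
    refine (C.low_le N hJ hU haL ha (fun c => C.vb 0 X Y c) hV).trans ?_
    refine mul_le_mul_of_nonneg_left ?_ (by positivity)
    have hr := (C.rad_pos a).le
    have hM' : (C.skipped χ : ℝ) ≤ M := by exact_mod_cast hM
    have e1 := mul_le_mul_of_nonneg_left hM' (show 0 ≤ 4 * cc * C.rad a by positivity)
    have e2 := mul_le_mul_of_nonneg_left hlamb hr
    have e3 : cc * (4 * (C.skipped χ : ℝ) + 12) * C.rad a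
        + C.rad a * nrm C.p (fun c => C.vb 0 X Y c ^ (1 / C.p)) ≤ 12 * Z * C.rad a := by
      rw [hZ]
      have : 0 ≤ cc * (M:ℝ) * C.rad a := by positivity
      have : 0 ≤ C.rad a * C.size := by positivity
      linarith
    calc C.p * _ ≤ C.chh * (12 * Z * C.rad a) :=
          mul_le_mul hpc e3 (by
            have : 0 ≤ nrm C.p (fun c => C.vb 0 X Y c ^ (1 / C.p)) := nrm_nonneg _
            positivity) hchh
      _ = _ := by ring
  have hhigh : ∀ K, K ≤ C.L → χx K → (∀ j, K ≤ j → j ≤ C.L → (χx j ↔ χy j)) → t ≤ C.rad K →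
      nrm C.p (fun z : κ × Fin (2 * N + 1) => C.piece J N χx K C.L X z.1 z.2
        - C.piece J N χy K C.L Y z.1 z.2
        - ((C.bar K X z.1 - C.bar K Y z.1) - (C.bar C.L X z.1 - C.bar C.L Y z.1))
            * frame C.p J N (C.ref 0 X Y z.1) z.2)
      ≤ 16 / J * (4 * C.chh * Z * t) := by
    intro K hKL hK hagree htK
    have hpy : ∀ c s, C.piece J N χy K C.L Y c s = C.piece J N χx K C.L Y c s := fun c s =>
      C.piece_congr J N le_rfl (fun i hi hiL => (hagree i hi hiL.le).symm) Y c s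
    simp only [hpy]
    refine (C.high_le N hJ hx.2.1 (fun i _ hi h => hx.2.2 i hi h)
      (fun i h1 hi h => hy.2.2 i hi ((hagree i h1 hi).1 h)) hKL hK ht htK).trans
      (mul_le_mul_of_nonneg_left ?_ (by positivity))
    have hM' : (C.skipped χx : ℝ) ≤ M := by exact_mod_cast hMx
    have e := mul_le_mul_of_nonneg_left hlamb (show 0 ≤ 3 * C.chh * t by positivity)
    have e' := mul_le_mul_of_nonneg_left hM' (show 0 ≤ 4 * C.chh * t * cc by positivity)
    rw [hZ]
    have : 0 ≤ C.chh * t * cc := by positivity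
    have : 0 ≤ C.chh * t * C.size := by positivity
    linarith
  set S := ∑ j ∈ D, C.rad j with hS
  have hS0 : 0 ≤ S := sum_nonneg fun j _ => (C.rad_pos j).le
  have h2M : (1:ℝ) ≤ 2 ^ (2 * M + 2) := one_le_pow₀ one_le_two
  set a₀ := K₀ - (M + 1) with ha₀
  by_cases hag : ∀ j, a₀ ≤ j → j ≤ C.L → (χx j ↔ χy j)
  · -- the chains agree around and above the scale of the pair
    have hne : ((range K₀).filter fun j => χx j).Nonempty :=
      ⟨0, mem_filter.2 ⟨mem_range.2 hK₀pos, hx.1⟩⟩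
    obtain ⟨a, ha_mem, ha_max⟩ := exists_max_image _ (fun j => j) hne
    obtain ⟨haK, ha⟩ := mem_filter.1 ha_mem
    rw [mem_range] at haK
    have haa : a₀ ≤ a := by
      by_contra hlt
      have hsub : Ico a₀ K₀ ⊆ (range (C.L + 1)).filter fun j => ¬ χx j := by
        intro j hj
        rw [mem_Ico] at hj
        refine mem_filter.2 ⟨mem_range.2 (by omega), fun hj' => ?_⟩
        have := ha_max j (mem_filter.2 ⟨mem_range.2 hj.2, hj'⟩)
        omega
      have := (card_le_card hsub).trans hMx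
      rw [Nat.card_Ico] at this
      omega
    have haL : a < C.L := lt_of_lt_of_le haK hK₀L
    obtain ⟨hak, hkL, hk⟩ := C.next_spec hx.2.1 haL
    set k := up χx C.L (a + 1) with hkdef
    have hkK₀ : K₀ ≤ k := by
      by_contra hlt
      have := ha_max k (mem_filter.2 ⟨mem_range.2 (not_le.1 hlt), hk⟩)
      omega
    have hay : χy a := (hag a haa haL.le).1 ha
    have hky : χy k := (hag k (by omega) hkL).1 hk
    have hkeq : up χy C.L (a + 1) = k := (up_congr fun j hj hjL => hag j (by omega) hjL.le).symm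
    have hrad : C.rad a ≤ t := hbelow a haK
    have hgap : ((k - (a + 1) : ℕ) : ℝ) ≤ M := by
      have : k - (a + 1) ≤ C.skipped χx := gap_le
      exact_mod_cast this.trans hMx
    have hmid : ∀ (χ : ℕ → Prop) (U : κ → ℝ) c s, χ a → up χ C.L (a + 1) = k →
        C.piece J N χ 0 C.L U c s = C.piece J N χ 0 a U c s + C.psi J N a k U c s
          + C.piece J N χ k C.L U c s := by
      intro χ U c s hχa hu
      rw [C.piece_split J N χ (Nat.zero_le a) haL.le U c s,
        C.piece_split J N χ (show a ≤ a + 1 by omega) haL U c s, C.piece_single J N hχa,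
        C.piece_split J N χ (show a + 1 ≤ k by omega) hkL U c s,
        C.piece_eq_zero J N χ (a := a + 1) (b := k)
          (fun i h1 h2 => not_mem_of_lt_up h1 (by rw [hu]; exact h2)), hu]
      ring
    have e : (fun z : κ × Fin (2 * N + 1) =>
        C.piece J N χx 0 C.L X z.1 z.2 - C.piece J N χy 0 C.L Y z.1 z.2
        - ((C.bar 0 X z.1 - C.bar 0 Y z.1) - (C.bar C.L X z.1 - C.bar C.L Y z.1))
          * frame C.p J N (C.ref 0 X Y z.1) z.2)
        = fun z => (((C.piece J N χx 0 a X z.1 z.2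
            - (C.bar 0 X z.1 - C.bar a X z.1) * frame C.p J N (C.ref 0 X Y z.1) z.2)
          + -(C.piece J N χy 0 a Y z.1 z.2
            - (C.bar 0 Y z.1 - C.bar a Y z.1) * frame C.p J N (C.ref 0 X Y z.1) z.2))
          + (C.psi J N a k X z.1 z.2 - C.psi J N a k Y z.1 z.2
            - (C.inc a k X z.1 - C.inc a k Y z.1) * frame C.p J N (C.ref 0 X Y z.1) z.2))
          + (C.piece J N χx k C.L X z.1 z.2 - C.piece J N χy k C.L Y z.1 z.2
            - ((C.bar k X z.1 - C.bar k Y z.1) - (C.bar C.L X z.1 - C.bar C.L Y z.1))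
              * frame C.p J N (C.ref 0 X Y z.1) z.2) := by
      funext z
      rw [hmid χx X z.1 z.2 ha rfl, hmid χy Y z.1 z.2 hay hkeq]
      simp only [inc]
      ring
    rw [e]
    have b1 := hlow χx X hx hMx hVx a haL.le ha
    have b2 := hlow χy Y hy hMy hVy a haL.le hay
    have b3 := C.junction_le N hJ hak hkL x y ht hrad (hK₀t.trans (C.rad_mono hkK₀))
      (hx.2.2 a haL.le ha) (hx.2.2 k hkL hk) (hy.2.2 a haL.le hay) (hy.2.2 k hkL hky)
    have b4 := hhigh k hkL hk (fun j h1 h2 => hag j (by omega) h2) (hK₀t.trans (C.rad_mono hkK₀))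
    refine (nrm_add hp _ _).trans ((add_le_add ((nrm_add hp _ _).trans (add_le_add
      ((nrm_add hp _ _).trans (add_le_add b1 ((nrm_neg _).le.trans b2))) b3)) b4).trans ?_)
    rw [← mul_add, ← mul_add, ← mul_add]
    refine mul_le_mul_of_nonneg_left ?_ (by positivity)
    have e1 := mul_le_mul_of_nonneg_left hrad (show 0 ≤ 24 * C.chh * Z by positivity)
    have e2 : C.p * ((2 * ((k - (a + 1) : ℕ) : ℝ) + 4) * (11 * t * cc) + 3 * t * C.size)
        ≤ C.chh * (44 * Z * t) := by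
      refine mul_le_mul hpc ?_ (by positivity) hchh
      have := mul_le_mul_of_nonneg_left hgap (show 0 ≤ 22 * t * cc by positivity)
      rw [hZ]
      have : 0 ≤ (M:ℝ) * t * cc := by positivity
      have : 0 ≤ t * C.size := by positivity
      linarith
    have hpos : 0 ≤ C.chh * Z * t := by positivity
    have : 0 ≤ C.chh * Z * (2 ^ (2 * M + 2) * S) := by positivity
    unfold cp
    linarith
  · -- a disagreement near or above the scale of the pair
    push Not at hag
    obtain ⟨j₀, hj₀1, hj₀2, hj₀3⟩ := hag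
    have hne : ((Icc a₀ C.L).filter fun j => ¬ (χx j ↔ χy j)).Nonempty :=
      ⟨j₀, mem_filter.2 ⟨mem_Icc.2 ⟨hj₀1, hj₀2⟩, by tauto⟩⟩
    obtain ⟨j, hj_mem, hj_max⟩ := exists_max_image _ (fun j => j) hne
    obtain ⟨hjI, hj⟩ := mem_filter.1 hj_mem
    rw [mem_Icc] at hjI
    have hjL : j < C.L := by
      rcases hjI.2.lt_or_eq with h | h
      · exact h
      · subst h; exact absurd (iff_of_true hx.2.1 hy.2.1) hj
    set b := max (j + 1) K₀ with hb
    have hbL : b ≤ C.L := max_le hjL hK₀L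
    have hagree : ∀ i, b ≤ i → i ≤ C.L → (χx i ↔ χy i) := by
      intro i h1 h2
      by_contra hi
      have h3 : a₀ ≤ i := by omega
      have := hj_max i (mem_filter.2 ⟨mem_Icc.2 ⟨h3, h2⟩, hi⟩)
      omega
    set k := up χx C.L b with hkdef
    have hbk : b ≤ k := le_up hbL
    have hkL : k ≤ C.L := up_le
    have hk : χx k := by
      rcases hkL.lt_or_eq with h | h
      · exact up_mem h
      · rw [h]; exact hx.2.1
    have hky : χy k := (hagree k hbk hkL).1 hk
    have hkgap : k - b ≤ M := (gap_le (χ := χx)).trans hMx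
    have hkr : C.rad k ≤ 2 ^ (2 * M + 2) * C.rad j := by
      rw [C.rad_eq (show j ≤ k by omega)]
      exact mul_le_mul_of_nonneg_right (pow_le_pow_right₀ one_le_two (by omega)) (C.rad_pos j).le
    have hsplit : ∀ (χ : ℕ → Prop) (U : κ → ℝ) c s,
        C.piece J N χ 0 C.L U c s = C.piece J N χ 0 k U c s + C.piece J N χ k C.L U c s :=
      fun χ U c s => C.piece_split J N χ (Nat.zero_le k) hkL U c s
    have e : (fun z : κ × Fin (2 * N + 1) =>
        C.piece J N χx 0 C.L X z.1 z.2 - C.piece J N χy 0 C.L Y z.1 z.2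
        - ((C.bar 0 X z.1 - C.bar 0 Y z.1) - (C.bar C.L X z.1 - C.bar C.L Y z.1))
          * frame C.p J N (C.ref 0 X Y z.1) z.2)
        = fun z => ((C.piece J N χx 0 k X z.1 z.2
            - (C.bar 0 X z.1 - C.bar k X z.1) * frame C.p J N (C.ref 0 X Y z.1) z.2)
          + -(C.piece J N χy 0 k Y z.1 z.2
            - (C.bar 0 Y z.1 - C.bar k Y z.1) * frame C.p J N (C.ref 0 X Y z.1) z.2))
          + (C.piece J N χx k C.L X z.1 z.2 - C.piece J N χy k C.L Y z.1 z.2
            - ((C.bar k X z.1 - C.bar k Y z.1) - (C.bar C.L X z.1 - C.bar C.L Y z.1))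
              * frame C.p J N (C.ref 0 X Y z.1) z.2) := by
      funext z
      rw [hsplit χx X, hsplit χy Y]
      ring
    rw [e]
    have b1 := hlow χx X hx hMx hVx k hkL hk
    have b2 := hlow χy Y hy hMy hVy k hkL hky
    have b4 := hhigh k hkL hk (fun i h1 h2 => hagree i (hbk.trans h1) h2)
      (hK₀t.trans (C.rad_mono (le_trans (le_max_right _ _) hbk)))
    refine (nrm_add hp _ _).trans ((add_le_add ((nrm_add hp _ _).trans
      (add_le_add b1 ((nrm_neg _).le.trans b2))) b4).trans ?_)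
    rw [← mul_add, ← mul_add]
    refine mul_le_mul_of_nonneg_left ?_ (by positivity)
    have hjD : C.rad j ≤ S := single_le_sum (fun i _ => (C.rad_pos i).le)
      (hD j hjI.2 (hK₀t.trans (C.rad_mono (by omega))) hj)
    have e1 := mul_le_mul_of_nonneg_left
      (hkr.trans (mul_le_mul_of_nonneg_left hjD (by positivity : (0:ℝ) ≤ 2 ^ (2 * M + 2))))
      (show 0 ≤ 24 * C.chh * Z by positivity)
    have : 0 ≤ C.chh * Z * t := by positivity
    have : 0 ≤ C.chh * Z * (2 ^ (2 * M + 2) * S) := by positivity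
    unfold cp
    linarith

end Cfg

end Vale.Agent.P249.Sharp
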