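import Mathlib
import Vale.Agent.P249.Sharp.PairBound

/-!
Averaging over thresholds: the distortion of a pair, the support and the size of a single
coordinate.
-/

namespace Vale.Agent.P249.Sharp

open Finset

namespace Cfg

variable {n : ℕ} {κ : Type*} [Fintype κ] (C : Cfg n κ) {J : ℝ} (N T : ℕ) [NeZero n]

open Classical in
/-- The chains of two points disagree at a level for few thresholds. -/
lemma sum_disagree_le (x y : Fin n) {t : ℝ} (ht : nrm C.p (fun c => C.v x c - C.v y c) = t)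
    (hT : 0 < T) :
    ∑ l ∈ range T, ∑ j ∈ (C.bad (C.v x) ∪ C.bad (C.v y)).filter
        (fun j => ¬ (C.chi T l (C.v x) j ↔ C.chi T l (C.v y) j)), C.rad j
      ≤ ((C.bad (C.v x) ∪ C.bad (C.v y)).card : ℝ) * (2 * t / C.τ * T + C.rad C.L) := by
  have hτ : 0 < C.τ := lt_of_lt_of_le one_pos C.hτ
  have hTR : (0:ℝ) < T := by exact_mod_cast hT
  simp only [sum_filter]
  rw [sum_comm]
  refine (sum_le_sum (g := fun _ => 2 * t / C.τ * (T:ℝ) + C.rad C.L) fun j hj => ?_).trans_eq
    (by rw [sum_const, nsmul_eq_mul])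
  have hjL : j ≤ C.L := by
    rcases mem_union.1 hj with h | h <;>
    · have := mem_range.1 (mem_filter.1 h).1
      omega
  set gx := C.gr j (C.v x)
  set gy := C.gr j (C.v y)
  have hchi : ∀ (l : ℕ) (g : ℝ), g ≤ C.τ * (1 + (l:ℝ) / T) ↔ (g / C.τ - 1) * T ≤ l := by
    intro l g
    rw [← le_div_iff₀ hTR, sub_le_iff_le_add', div_le_iff₀ hτ, mul_comm]
  have hmm : (min gx gy / C.τ - 1) * T ≤ (max gx gy / C.τ - 1) * T := by
    gcongr; exact min_le_max
  have hdiff : |gx - gy| ≤ 2 * (t / C.rad j) := by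
    refine (growth_lip (v := C.v) C.hp (C.lam_pos j).le (C.v x) (C.v y)).trans_eq ?_
    rw [ht, lam_eq, one_div_mul_eq_div]
  calc ∑ l ∈ range T, (if ¬ (C.chi T l (C.v x) j ↔ C.chi T l (C.v y) j) then C.rad j else 0)
      ≤ ∑ l ∈ range T, (if (min gx gy / C.τ - 1) * T ≤ (l:ℝ) ∧ (l:ℝ) < (max gx gy / C.τ - 1) * T
          then C.rad j else 0) := by
        refine sum_le_sum fun l _ => ?_
        by_cases h : (C.chi T l (C.v x) j ↔ C.chi T l (C.v y) j)
        · rw [if_neg (not_not.2 h)]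
          split_ifs <;> [exact (C.rad_pos j).le; exact le_rfl]
        · rw [if_pos h, if_pos]
          simp only [chi, hchi] at h
          rcases le_total gx gy with hg | hg
          · rw [min_eq_left hg, max_eq_right hg]
            have hm : (gx / C.τ - 1) * T ≤ (gy / C.τ - 1) * T := by gcongr
            constructor
            · by_contra h1; exact h (iff_of_false h1 (fun h2 => h1 (hm.trans h2)))
            · by_contra h1; exact h (iff_of_true (hm.trans (not_lt.1 h1)) (not_lt.1 h1))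
          · rw [min_eq_right hg, max_eq_left hg]
            have hm : (gy / C.τ - 1) * T ≤ (gx / C.τ - 1) * T := by gcongr
            constructor
            · by_contra h1; exact h (iff_of_false (fun h2 => h1 (hm.trans h2)) h1)
            · by_contra h1; exact h (iff_of_true (not_lt.1 h1) (hm.trans (not_lt.1 h1)))
    _ ≤ (|gx - gy| / C.τ * T + 1) * C.rad j := by
        rw [← sum_filter, sum_const, nsmul_eq_mul]
        refine mul_le_mul_of_nonneg_right ((count_between T hmm).trans_eq ?_) (C.rad_pos j).le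
        rw [← max_sub_min_eq_abs' gx gy]; ring
    _ ≤ (2 * (t / C.rad j) / C.τ * T + 1) * C.rad j := by
        have := C.rad_pos j
        gcongr
    _ = 2 * t / C.τ * T + C.rad j := by
        have := C.rad_pos j
        field_simp
    _ ≤ _ := by linarith [C.rad_mono hjL]

open Classical in
/-- The average map on a pair. -/
lemma avg_pair_le (hJ : 0 < J) (hT : 0 < T) (x y : Fin n) (hx : C.Ends (C.v x))
    (hy : C.Ends (C.v y)) {t : ℝ} (ht : nrm C.p (fun c => C.v x c - C.v y c) = t)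
    (ht0 : C.rad 0 < t) (htL : t ≤ C.rad C.L) {M : ℕ}
    (hM : (C.bad (C.v x)).card + (C.bad (C.v y)).card ≤ M) :
    nrm C.p (fun z : κ × Fin (2 * N + 1) =>
        C.avgMap J N T (C.v x) z - C.avgMap J N T (C.v y) z
        - ((C.bar 0 (C.v x) z.1 - C.bar 0 (C.v y) z.1)
            - (C.bar C.L (C.v x) z.1 - C.bar C.L (C.v y) z.1))
          * frame C.p J N (C.ref 0 (C.v x) (C.v y) z.1) z.2)
      ≤ 16 / J * (C.cp * (C.cn * (1 + C.τ) * ((M:ℝ) + 1) + C.size)
          * (t + 2 ^ (2 * M + 2) * (M * (2 * t / C.τ + C.rad C.L / T)))) := by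
  have hp := C.hp
  have hTR : (0:ℝ) < T := by exact_mod_cast hT
  set U := C.bad (C.v x) ∪ C.bad (C.v y) with hU
  set D : ℕ → Finset ℕ := fun l => U.filter
    (fun j => ¬ (C.chi T l (C.v x) j ↔ C.chi T l (C.v y) j)) with hDdef
  set R : κ × Fin (2 * N + 1) → ℝ := fun z => ((C.bar 0 (C.v x) z.1 - C.bar 0 (C.v y) z.1)
      - (C.bar C.L (C.v x) z.1 - C.bar C.L (C.v y) z.1))
    * frame C.p J N (C.ref 0 (C.v x) (C.v y) z.1) z.2 with hR
  have e : (fun z : κ × Fin (2 * N + 1) =>
      C.avgMap J N T (C.v x) z - C.avgMap J N T (C.v y) z - R z)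
      = fun z => (T:ℝ)⁻¹ * ∑ l ∈ range T, (C.piece J N (C.chi T l (C.v x)) 0 C.L (C.v x) z.1 z.2
          - C.piece J N (C.chi T l (C.v y)) 0 C.L (C.v y) z.1 z.2 - R z) := by
    funext z
    simp only [avgMap, sum_sub_distrib, sum_const, card_range, nsmul_eq_mul]
    field_simp
  show nrm C.p (fun z => _ - R z) ≤ _
  rw [e, nrm_smul hp (by positivity)
    (fun z => ∑ l ∈ range T, (C.piece J N (C.chi T l (C.v x)) 0 C.L (C.v x) z.1 z.2
          - C.piece J N (C.chi T l (C.v y)) 0 C.L (C.v y) z.1 z.2 - R z)),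
    inv_mul_le_iff₀ hTR]
  refine (nrm_sum hp _ _).trans ?_
  set Z := C.cp * (C.cn * (1 + C.τ) * ((M:ℝ) + 1) + C.size) with hZdef
  refine (sum_le_sum (g := fun l => 16 / J * (Z * (t + 2 ^ (2 * M + 2) * ∑ j ∈ D l, C.rad j)))
    fun l hl => ?_).trans ?_
  · rw [mem_range] at hl
    refine C.chain_pair_le N hJ x y (C.chi_valid T hl hx) (C.chi_valid T hl hy) ht ht0 htL
      ((C.skipped_le T l _).trans (by omega)) ((C.skipped_le T l _).trans (by omega)) (D l) ?_
    intro j hjL _ hj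
    refine mem_filter.2 ⟨?_, hj⟩
    by_cases h : C.chi T l (C.v x) j
    · exact mem_union_right _ (C.not_chi_bad T hjL fun h' => hj (iff_of_true h h'))
    · exact mem_union_left _ (C.not_chi_bad T hjL h)
  · rw [← mul_sum, ← mul_sum, sum_add_distrib, sum_const, card_range, nsmul_eq_mul, ← mul_sum]
    have hcc : 0 ≤ C.cn * (1 + C.τ) * ((M:ℝ) + 1) + C.size := by
      have := C.one_le_cn; have := C.hτ; have := C.size_nonneg; positivity
    have hcp : 0 ≤ C.cp := by
      have := C.p_le_chh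
      unfold cp; linarith
    have hUM : (U.card : ℝ) ≤ M := by
      exact_mod_cast (card_union_le _ _).trans hM
    have hs := C.sum_disagree_le T x y ht hT
    rw [← hU] at hs
    have ht' : 0 ≤ t := ht ▸ nrm_nonneg _
    have hs2 : ∑ l ∈ range T, ∑ j ∈ D l, C.rad j ≤ M * (2 * t / C.τ * T + C.rad C.L) :=
      hs.trans (mul_le_mul_of_nonneg_right hUM
        (by have := C.rad_pos C.L; have := C.hτ; positivity))
    calc 16 / J * (Z * ((T:ℝ) * t + 2 ^ (2 * M + 2) * ∑ l ∈ range T, ∑ j ∈ D l, C.rad j))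
        ≤ 16 / J * (Z * ((T:ℝ) * t
            + 2 ^ (2 * M + 2) * (M * (2 * t / C.τ * T + C.rad C.L)))) := by gcongr
      _ = _ := by field_simp

variable {N}

/-- A nonzero coordinate of a segment determines the magnitude up to its window. -/
lemma psi_range (hJ : 0 < J) {i k : ℕ} {U : κ → ℝ} {c : κ} {s : Fin (2 * N + 1)}
    (h : C.psi J N i k U c s ≠ 0) (hN : |C.wfun i k U c| ≤ J * N) :
    C.prof i U c + C.mag i k U c ^ C.p ≤ top J N s ∧
      top J N s ≤ Real.exp (2 * J) * (C.prof i U c + C.mag i k U c ^ C.p) := by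
  have hs := frame_ne_zero _ _ (right_ne_zero_of_mul h)
  have hpos : pos J N (C.wfun i k U c) = C.wfun i k U c / J := by
    rw [abs_le] at hN
    unfold pos
    rw [min_eq_right, max_eq_right]
    · rw [le_div_iff₀ hJ]; linarith
    · rw [div_le_iff₀ hJ]; linarith
  rw [hpos, abs_lt] at hs
  have hw : Real.exp (C.wfun i k U c) = C.prof i U c + C.mag i k U c ^ C.p :=
    Real.exp_log (add_pos_of_pos_of_nonneg (C.prof_pos i U c)
      (Real.rpow_nonneg (C.mag_nonneg i k U c) _))
  rw [← hw, top, ← Real.exp_add, Real.exp_le_exp, Real.exp_le_exp]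
  have e : C.wfun i k U c / J * J = C.wfun i k U c := div_mul_cancel₀ _ hJ.ne'
  have h1 := mul_le_mul_of_nonneg_right hs.2.le hJ.le
  have h2 := mul_le_mul_of_nonneg_right hs.1.le hJ.le
  constructor <;> linarith

/-- A coordinate of a segment is at most its radius times the root of its window. -/
lemma psi_abs_le (hJ : 0 < J) {i k : ℕ} {U : κ → ℝ} {c : κ} (s : Fin (2 * N + 1))
    (hN : |C.wfun i k U c| ≤ J * N) :
    |C.psi J N i k U c s| ≤ C.rad i * top J N s ^ (1 / C.p) := by
  have hp0 : 0 < C.p := lt_of_lt_of_le one_pos C.hp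
  by_cases h : C.psi J N i k U c s = 0
  · rw [h, abs_zero]; have := C.rad_pos i; unfold top; positivity
  have h1 := (C.psi_range hJ h hN).1
  have h2 : C.mag i k U c ^ C.p ≤ top J N s := by linarith [C.prof_pos i U c]
  have h3 : C.mag i k U c ≤ top J N s ^ (1 / C.p) := by
    rw [one_div]
    exact (Real.le_rpow_inv_iff_of_pos (C.mag_nonneg i k U c) (Real.exp_pos _).le hp0).2 h2
  rw [psi, abs_mul, C.abs_inc_eq]
  exact (mul_le_of_le_one_right (mul_nonneg (C.rad_pos i).le (C.mag_nonneg _ _ _ _))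
    (abs_frame_le C.hp _ _)).trans (mul_le_mul_of_nonneg_left h3 (C.rad_pos i).le)

/-- The low levels in one coordinate. -/
lemma piece_abs_le (hJ : 0 < J) (χ : ℕ → Prop) (b : ℕ) (hb : b ≤ C.L) {U : κ → ℝ} {c : κ}
    (s : Fin (2 * N + 1)) (hN : ∀ i k, i ≤ C.L → k ≤ C.L → |C.wfun i k U c| ≤ J * N) :
    |C.piece J N χ 0 b U c s| ≤ C.rad b * top J N s ^ (1 / C.p) := by
  classical
  refine (abs_sum_le_sum_abs _ _).trans ?_
  refine (sum_le_sum (g := fun i => C.rad i * top J N s ^ (1 / C.p)) fun i hi => ?_).trans ?_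
  · split_ifs
    · exact C.psi_abs_le hJ s (hN i _ (by have := (mem_Ico.1 hi).2; omega) up_le)
    · rw [abs_zero]; have := C.rad_pos i; unfold top; positivity
  · rw [← sum_mul]
    exact mul_le_mul_of_nonneg_right (C.sum_rad_le 0 b) (by unfold top; positivity)

/-- Constant of the common levels in one coordinate. -/
noncomputable def chc : ℝ := 192 * C.chh * Real.exp C.ce

/-- The common levels in one coordinate. -/
lemma high_abs_le (hJ : 1 ≤ J) {χ : ℕ → Prop} {X Y : κ → ℝ} (hx : χ C.L) {K : ℕ}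
    (hgx : ∀ i, K ≤ i → i ≤ C.L → χ i → C.gr i X ≤ 2 * C.τ)
    (hgy : ∀ i, K ≤ i → i ≤ C.L → χ i → C.gr i Y ≤ 2 * C.τ)
    {t : ℝ} (ht : nrm C.p (fun c => X c - Y c) = t) (htK : t ≤ C.rad K) (hKL : K ≤ C.L)
    (c : κ) (s : Fin (2 * N + 1))
    (hNX : ∀ i k, i ≤ C.L → k ≤ C.L → |C.wfun i k X c| ≤ J * N)
    (hNY : ∀ i k, i ≤ C.L → k ≤ C.L → |C.wfun i k Y c| ≤ J * N) {M : ℕ}
    (hM : C.skipped χ ≤ M) :
    |C.piece J N χ K C.L X c s - C.piece J N χ K C.L Y c s|
      ≤ C.chc * ((M:ℝ) + 1) * t * top J N s ^ (1 / C.p) := by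
  classical
  have hp := C.hp
  have hp0 : 0 < C.p := by linarith
  have hJ0 : 0 < J := by linarith
  have ht0 : 0 ≤ t := ht ▸ nrm_nonneg _
  set e := Real.exp C.ce
  have he : 1 ≤ e := Real.one_le_exp C.ce_nonneg
  have htop : 0 < top J N s := Real.exp_pos _
  have hchh : 0 ≤ C.chh := hp0.le.trans C.p_le_chh
  have hzero : ∀ i, K ≤ i → i < C.L → χ i → 2 * e * top J N s < C.vb i X Y c →
      C.psi J N i (up χ C.L (i + 1)) X c s = 0 ∧ C.psi J N i (up χ C.L (i + 1)) Y c s = 0 := by
    intro i hKi hiL hi hbig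
    have hti := htK.trans (C.rad_mono hKi)
    have h1 := C.prof_le_exp ht hti c
    have h2 := C.prof_le_exp (X := Y) (Y := X) (by rw [nrm_sub_comm]; exact ht) hti c
    have hvb : C.vb i X Y c = C.prof i X c + C.prof i Y c := rfl
    constructor
    · by_contra hne
      have := (C.psi_range hJ0 hne (hNX i _ hiL.le up_le)).1
      have := mul_le_mul_of_nonneg_right he (C.prof_pos i X c).le
      have := Real.rpow_nonneg (C.mag_nonneg i (up χ C.L (i + 1)) X c) C.p
      have : C.prof i X c ≤ top J N s := by linarith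
      have := mul_le_mul_of_nonneg_left this (show 0 ≤ 2 * e by positivity)
      linarith
    · by_contra hne
      have := (C.psi_range hJ0 hne (hNY i _ hiL.le up_le)).1
      have := mul_le_mul_of_nonneg_right he (C.prof_pos i Y c).le
      have := Real.rpow_nonneg (C.mag_nonneg i (up χ C.L (i + 1)) Y c) C.p
      have : C.prof i Y c ≤ top J N s := by linarith
      have := mul_le_mul_of_nonneg_left this (show 0 ≤ 2 * e by positivity)
      linarith
  have hRpos : 0 ≤ C.chc * ((M:ℝ) + 1) * t * top J N s ^ (1 / C.p) := by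
    have : 0 ≤ C.chc := by unfold chc; positivity
    positivity
  set S := (Icc K C.L).filter fun i => χ i ∧ C.vb i X Y c ≤ 2 * e * top J N s with hS
  rcases S.eq_empty_or_nonempty with hem | hne
  · have h0 : C.piece J N χ K C.L X c s - C.piece J N χ K C.L Y c s = 0 := by
      rw [piece, piece, ← sum_sub_distrib]
      refine sum_eq_zero fun i hi => ?_
      obtain ⟨h1, h2⟩ := mem_Ico.1 hi
      by_cases h : χ i
      · have : ¬ (C.vb i X Y c ≤ 2 * e * top J N s) := fun hc =>
          notMem_empty i (hem ▸ mem_filter.2 ⟨mem_Icc.2 ⟨h1, h2.le⟩, h, hc⟩)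
        obtain ⟨a, b⟩ := hzero i h1 h2 h (not_le.1 this)
        simp [h, a, b]
      · simp [h]
    rw [h0, abs_zero]; exact hRpos
  obtain ⟨a, ha_mem, ha_min⟩ := exists_min_image S (fun i => i) hne
  obtain ⟨haI, ha, havb⟩ := mem_filter.1 ha_mem
  rw [mem_Icc] at haI
  have hlowzero : C.piece J N χ K a X c s - C.piece J N χ K a Y c s = 0 := by
    rw [piece, piece, ← sum_sub_distrib]
    refine sum_eq_zero fun i hi => ?_
    obtain ⟨h1, h2⟩ := mem_Ico.1 hi
    by_cases h : χ i
    · have : ¬ (C.vb i X Y c ≤ 2 * e * top J N s) := fun hc => by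
        have := ha_min i (mem_filter.2 ⟨mem_Icc.2 ⟨h1, by omega⟩, h, hc⟩)
        omega
      obtain ⟨a', b'⟩ := hzero i h1 (by omega) h (not_le.1 this)
      simp [h, a', b']
    · simp [h]
  rw [C.piece_split J N χ haI.1 haI.2 X c s, C.piece_split J N χ haI.1 haI.2 Y c s,
    show C.piece J N χ K a X c s + C.piece J N χ a C.L X c s
      - (C.piece J N χ K a Y c s + C.piece J N χ a C.L Y c s)
      = C.piece J N χ a C.L X c s - C.piece J N χ a C.L Y c s
        + (C.piece J N χ K a X c s - C.piece J N χ K a Y c s) by ring, hlowzero, add_zero]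
  have hta := htK.trans (C.rad_mono haI.1)
  set V := C.vb a X Y c ^ (1 / C.p) with hV
  have hV0 : 0 ≤ V := Real.rpow_nonneg (C.vb_pos a X Y c).le _
  have hVtop : V ≤ 2 * e * top J N s ^ (1 / C.p) := by
    refine (Real.rpow_le_rpow (C.vb_pos a X Y c).le havb (by positivity)).trans ?_
    rw [Real.mul_rpow (by positivity) htop.le]
    refine mul_le_mul_of_nonneg_right ?_ (by positivity)
    calc (2 * e) ^ (1 / C.p) ≤ (2 * e) ^ (1:ℝ) :=
          Real.rpow_le_rpow_of_exponent_le (by linarith) ((div_le_one hp0).2 hp)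
      _ = _ := Real.rpow_one _
  have hbar : ∀ j, a ≤ j → j ≤ C.L → χ j → |C.bar j X c - C.bar j Y c| ≤ 8 * t * V := by
    intro j haj hjL hj
    refine (C.bar_lip ht (hta.trans (C.rad_mono haj)) c).trans ?_
    refine mul_le_mul_of_nonneg_left ((C.root_A_le haj hjL
      (hgy j (haI.1.trans haj) hjL hj) c).trans ?_) (by positivity)
    exact Real.rpow_le_rpow (C.prof_pos a Y c).le
      (le_add_of_nonneg_left (C.prof_pos a X c).le) (by positivity)
  have hosc : ∀ j, a ≤ j → j ≤ C.L → χ j → C.osc2 j X Y c ≤ 2 * V := by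
    intro j haj hjL hj
    have h1 := C.root_A_le haj hjL (hgx j (haI.1.trans haj) hjL hj) c
    have h2 := C.root_A_le haj hjL (hgy j (haI.1.trans haj) hjL hj) c
    have h3 : C.prof a X c ^ (1 / C.p) ≤ V := Real.rpow_le_rpow (C.prof_pos a X c).le
      (le_add_of_nonneg_right (C.prof_pos a Y c).le) (by positivity)
    have h4 : C.prof a Y c ^ (1 / C.p) ≤ V := Real.rpow_le_rpow (C.prof_pos a Y c).le
      (le_add_of_nonneg_left (C.prof_pos a X c).le) (by positivity)
    unfold osc2; linarith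
  have hcore := C.high_coord N hJ0 hx (fun i hi => hgx i (haI.1.trans hi))
    (fun i hi => hgy i (haI.1.trans hi)) haI.2 ha ht hta c
  have hgaps : ∑ i ∈ Ico a C.L, (if χ i then ((up χ C.L (i + 1) - (i + 1) : ℕ) : ℝ) *
      (C.osc2 i X Y c + C.osc2 (up χ C.L (i + 1)) X Y c) else 0) ≤ (M:ℝ) * (4 * V) := by
    refine (sum_le_sum (g := fun i => (if χ i then ((up χ C.L (i + 1) - (i + 1) : ℕ) : ℝ) else 0)
      * (4 * V)) fun i hi => ?_).trans ?_
    · obtain ⟨h1, h2⟩ := mem_Ico.1 hi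
      by_cases h : χ i
      · obtain ⟨k1, k2, k3⟩ := C.next_spec hx h2
        simp only [if_pos h]
        exact mul_le_mul_of_nonneg_left
          (by linarith [hosc i h1 h2.le h, hosc _ (h1.trans k1.le) k2 k3]) (Nat.cast_nonneg _)
      · simp [h]
    · rw [← sum_mul]
      exact mul_le_mul_of_nonneg_right ((C.sum_gaps_le haI.2 le_rfl (Or.inl rfl)).trans
        (by exact_mod_cast hM)) (by positivity)
  have hcomp : ∀ (F : Fin (2 * N + 1) → ℝ), |F s| ≤ nrm C.p F := by
    intro F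
    refine (Real.rpow_le_rpow_iff (abs_nonneg _) (nrm_nonneg _) hp0).1 ?_
    rw [nrm_rpow hp]
    exact single_le_sum (fun b _ => Real.rpow_nonneg (abs_nonneg (F b)) C.p) (mem_univ s)
  have hmain := (hcomp _).trans hcore
  have h16 : 16 / J ≤ 16 := div_le_self (by norm_num) hJ
  have hB0 : 0 ≤ C.chh * t * (V + (M:ℝ) * (4 * V)) := by positivity
  have hmain2 := hmain.trans ((mul_le_mul_of_nonneg_left (mul_le_mul_of_nonneg_left
    (add_le_add le_rfl hgaps) (by positivity)) (by positivity : (0:ℝ) ≤ 16 / J)).trans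
      (mul_le_mul_of_nonneg_right h16 hB0))
  have hf : ∀ j, a ≤ j → j ≤ C.L → χ j →
      |(C.bar j X c - C.bar j Y c) * frame C.p J N (C.ref j X Y c) s| ≤ 8 * t * V := by
    intro j haj hjL hj
    rw [abs_mul]
    exact (mul_le_of_le_one_right (abs_nonneg _) (abs_frame_le hp _ _)).trans (hbar j haj hjL hj)
  have hA := abs_sub_abs_le_abs_sub (C.piece J N χ a C.L X c s - C.piece J N χ a C.L Y c s)
    ((C.bar a X c - C.bar a Y c) * frame C.p J N (C.ref a X Y c) s
      - (C.bar C.L X c - C.bar C.L Y c) * frame C.p J N (C.ref C.L X Y c) s)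
  have hB := abs_sub ((C.bar a X c - C.bar a Y c) * frame C.p J N (C.ref a X Y c) s)
    ((C.bar C.L X c - C.bar C.L Y c) * frame C.p J N (C.ref C.L X Y c) s)
  have h8 : 8 ≤ C.chh := by
    have a8 := C.eight_le_ch
    have := mul_le_mul_of_nonneg_right (show 1 ≤ 3 * C.p by linarith) (show 0 ≤ C.ch by linarith)
    unfold chh; linarith
  have hfinal : |C.piece J N χ a C.L X c s - C.piece J N χ a C.L Y c s|
      ≤ 96 * C.chh * ((M:ℝ) + 1) * t * V := by
    have := mul_le_mul_of_nonneg_right h8 (show 0 ≤ t * V by positivity)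
    have : 0 ≤ C.chh * t * V := by positivity
    have : 0 ≤ C.chh * t * ((M:ℝ) * V) := by positivity
    linarith [hf a le_rfl haI.2 ha, hf C.L haI.2 le_rfl hx]
  refine hfinal.trans ((mul_le_mul_of_nonneg_left hVtop (by positivity)).trans_eq ?_)
  unfold chc
  ring

open Classical in
/-- One coordinate of the average map. -/
lemma avg_coord_le (hJ : 1 ≤ J) (hT : 0 < T) (x y : Fin n) (hx : C.Ends (C.v x))
    (hy : C.Ends (C.v y)) {t : ℝ} (ht : nrm C.p (fun c => C.v x c - C.v y c) = t)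
    (ht0 : C.rad 0 < t) (htL : t ≤ C.rad C.L) {M : ℕ}
    (hM : (C.bad (C.v x)).card + (C.bad (C.v y)).card ≤ M) (z : κ × Fin (2 * N + 1))
    (hN : ∀ u i k, i ≤ C.L → k ≤ C.L → |C.wfun i k (C.v u) z.1| ≤ J * N) :
    |C.avgMap J N T (C.v x) z - C.avgMap J N T (C.v y) z|
      ≤ ((4 + C.chc * ((M:ℝ) + 1)) * t + 4 * (M * (2 * t / C.τ + C.rad C.L / T)))
          * top J N z.2 ^ (1 / C.p) := by
  obtain ⟨c, s⟩ := z
  simp only at hN ⊢
  have hp := C.hp
  have hJ0 : 0 < J := by linarith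
  have hTR : (0:ℝ) < T := by exact_mod_cast hT
  set X := C.v x
  set Y := C.v y
  set TT := top J N s ^ (1 / C.p) with hTT
  have hTT0 : 0 ≤ TT := Real.rpow_nonneg (Real.exp_pos _).le _
  have ht' : 0 ≤ t := ht ▸ nrm_nonneg _
  have hex : ∃ k, t ≤ C.rad k := ⟨C.L, htL⟩
  set K₀ := Nat.find hex
  have hK₀t : t ≤ C.rad K₀ := Nat.find_spec hex
  have hK₀L : K₀ ≤ C.L := Nat.find_min' hex htL
  have hK₀pos : 0 < K₀ := by
    by_contra h
    rw [show K₀ = 0 by omega] at hK₀t
    linarith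
  have hK₀2 : C.rad K₀ ≤ 2 * t := by
    have := not_le.1 (Nat.find_min hex (show K₀ - 1 < K₀ by omega))
    rw [show K₀ = K₀ - 1 + 1 by omega, rad_succ]
    linarith
  set U := C.bad X ∪ C.bad Y with hU
  set D : ℕ → Finset ℕ := fun l => U.filter (fun j => ¬ (C.chi T l X j ↔ C.chi T l Y j)) with hD
  set A := C.chc * ((M:ℝ) + 1) with hA
  have hone : ∀ l ∈ range T,
      |C.piece J N (C.chi T l X) 0 C.L X c s - C.piece J N (C.chi T l Y) 0 C.L Y c s|
        ≤ ((4 + A) * t + 4 * ∑ j ∈ D l, C.rad j) * TT := by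
    intro l hl
    rw [mem_range] at hl
    obtain ⟨-, hxL, hxg⟩ := C.chi_valid T hl hx
    obtain ⟨-, hyL, hyg⟩ := C.chi_valid T hl hy
    -- first level above which the chains agree
    obtain ⟨b, hb1, hb2, hb3, hb4⟩ : ∃ b, K₀ ≤ b ∧ b ≤ C.L ∧
        (∀ i, b ≤ i → i ≤ C.L → (C.chi T l X i ↔ C.chi T l Y i)) ∧
        C.rad b ≤ 2 * t + 2 * ∑ j ∈ D l, C.rad j := by
      have hS0 : 0 ≤ ∑ j ∈ D l, C.rad j := sum_nonneg fun j _ => (C.rad_pos j).le
      rcases ((Icc K₀ C.L).filter fun j => ¬ (C.chi T l X j ↔ C.chi T l Y j)).eq_empty_or_nonempty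
        with hem | hne
      · refine ⟨K₀, le_rfl, hK₀L, fun i h1 h2 => ?_, by linarith⟩
        by_contra h
        exact notMem_empty i (hem ▸ mem_filter.2 ⟨mem_Icc.2 ⟨h1, h2⟩, h⟩)
      · obtain ⟨j, hjm, hjmax⟩ := exists_max_image _ (fun j => j) hne
        obtain ⟨hjI, hj⟩ := mem_filter.1 hjm
        rw [mem_Icc] at hjI
        have hjL : j < C.L := by
          rcases hjI.2.lt_or_eq with h | h
          · exact h
          · subst h; exact absurd (iff_of_true hxL hyL) hj
        refine ⟨j + 1, by omega, hjL, fun i h1 h2 => ?_, ?_⟩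
        · by_contra h
          have := hjmax i (mem_filter.2 ⟨mem_Icc.2 ⟨by omega, h2⟩, h⟩)
          omega
        · have hjD : j ∈ D l := by
            refine mem_filter.2 ⟨?_, hj⟩
            by_cases h : C.chi T l X j
            · exact mem_union_right _ (C.not_chi_bad T hjI.2 fun h' => hj (iff_of_true h h'))
            · exact mem_union_left _ (C.not_chi_bad T hjI.2 h)
          rw [rad_succ]
          linarith [single_le_sum (f := C.rad) (fun i _ => (C.rad_pos i).le) hjD]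
    have hpc : C.piece J N (C.chi T l Y) b C.L Y c s = C.piece J N (C.chi T l X) b C.L Y c s :=
      C.piece_congr J N le_rfl (fun i h1 h2 => (hb3 i h1 h2.le).symm) Y c s
    rw [C.piece_split J N (C.chi T l X) (Nat.zero_le b) hb2 X c s,
      C.piece_split J N (C.chi T l Y) (Nat.zero_le b) hb2 Y c s, hpc]
    have h1 := C.piece_abs_le hJ0 (C.chi T l X) b hb2 s (hN x)
    have h2 := C.piece_abs_le hJ0 (C.chi T l Y) b hb2 s (hN y)
    have h3 := C.high_abs_le hJ hxL (fun i _ hi h => hxg i hi h)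
      (fun i h1 hi h => hyg i hi ((hb3 i h1 hi).1 h)) ht (hK₀t.trans (C.rad_mono hb1)) hb2 c s
      (hN x) (hN y) (M := M) ((C.skipped_le T l X).trans (by omega))
    have h4 := mul_le_mul_of_nonneg_right hb4 hTT0
    rw [← hTT] at h1 h2 h3
    rw [← hA] at h3
    calc |C.piece J N (C.chi T l X) 0 b X c s + C.piece J N (C.chi T l X) b C.L X c s
          - (C.piece J N (C.chi T l Y) 0 b Y c s + C.piece J N (C.chi T l X) b C.L Y c s)|
        ≤ (|C.piece J N (C.chi T l X) 0 b X c s| + |C.piece J N (C.chi T l Y) 0 b Y c s|)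
          + |C.piece J N (C.chi T l X) b C.L X c s - C.piece J N (C.chi T l X) b C.L Y c s| := by
          rw [add_sub_add_comm]
          exact (abs_add_le _ _).trans (add_le_add (abs_sub _ _) le_rfl)
      _ ≤ _ := by linarith
  simp only [avgMap, ← mul_sub, ← sum_sub_distrib, abs_mul, abs_inv, abs_of_pos hTR]
  rw [inv_mul_le_iff₀ hTR]
  refine ((abs_sum_le_sum_abs _ _).trans (sum_le_sum hone)).trans ?_
  rw [← sum_mul, sum_add_distrib, sum_const, card_range, nsmul_eq_mul, ← mul_sum]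
  have hUM : (U.card : ℝ) ≤ M := by exact_mod_cast (card_union_le _ _).trans hM
  have hs := (C.sum_disagree_le T x y ht hT).trans (mul_le_mul_of_nonneg_right hUM
    (by have := C.rad_pos C.L; have := C.hτ; positivity))
  calc ((T:ℝ) * ((4 + A) * t) + 4 * ∑ l ∈ range T, ∑ j ∈ D l, C.rad j) * TT
      ≤ ((T:ℝ) * ((4 + A) * t) + 4 * (M * (2 * t / C.τ * T + C.rad C.L))) * TT := by
        gcongr
    _ = _ := by field_simp

/-- The windows that are active at a point carry little mass. -/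
lemma avg_active (hJ : 0 < J) (x : Fin n) (hx : C.Ends (C.v x)) {M : ℕ}
    (hM : (C.bad (C.v x)).card ≤ M) (z : κ × Fin (2 * N + 1))
    (hN : ∀ i k, i ≤ C.L → k ≤ C.L → |C.wfun i k (C.v x) z.1| ≤ J * N)
    (h : C.avgMap J N T (C.v x) z ≠ 0) :
    top J N z.2
      ≤ Real.exp (2 * J) * (2 * (2:ℝ) ^ (2 * C.p * M + C.p) * C.prof 0 (C.v x) z.1) := by
  classical
  obtain ⟨l, hl, h1⟩ := exists_ne_zero_of_sum_ne_zero (right_ne_zero_of_mul h)
  rw [mem_range] at hl
  obtain ⟨i, hi, h2⟩ := exists_ne_zero_of_sum_ne_zero h1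
  obtain ⟨-, hL, hg⟩ := C.chi_valid T hl hx
  by_cases hc : C.chi T l (C.v x) i
  swap
  · simp [hc] at h2
  rw [if_pos hc] at h2
  have hiL := (mem_Ico.1 hi).2
  obtain ⟨k1, k2, k3⟩ := C.next_spec hL hiL
  refine (C.psi_range hJ h2 (hN i _ hiL.le k2)).2.trans
    (mul_le_mul_of_nonneg_left ?_ (Real.exp_pos _).le)
  have hm := C.mag_le_elem k1 k2 (hg i hiL.le hc) (hg _ k2 k3) z.1
  have he := C.elem_le_prof (Nat.zero_le i) hiL.le (C.v x) z.1
  have hP := C.prof_anti (Nat.zero_le i) (C.v x) z.1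
  have hgap : ((up (C.chi T l (C.v x)) C.L (i + 1) - (i + 1) : ℕ) : ℝ) ≤ M := by
    exact_mod_cast (gap_le.trans (C.skipped_le T l _)).trans hM
  have hp := C.hp
  have h2m : (2:ℝ) ^ (2 * C.p * ((up (C.chi T l (C.v x)) C.L (i + 1) - (i + 1) : ℕ) : ℝ) + C.p)
      ≤ 2 ^ (2 * C.p * M + C.p) := by
    refine Real.rpow_le_rpow_of_exponent_le one_le_two ?_
    gcongr
  have h1' : (1:ℝ) ≤ 2 ^ (2 * C.p * M + C.p) := Real.one_le_rpow one_le_two (by positivity)
  have := mul_le_mul h2m he (C.elem_nonneg i _ _) (by positivity)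
  have := mul_le_mul_of_nonneg_right h1' (C.prof_pos 0 (C.v x) z.1).le
  linarith

end Cfg

end Vale.Agent.P249.Sharp
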