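import Mathlib
import Vale.Agent.P249.Sharp.Average

/-!
Sums over windows and thresholds, tensor norms, and the choice of the extreme scales.
-/

namespace Vale.Agent.P249.Sharp

open Finset

/-- A geometrically decreasing sum below a cap. -/
lemma sum_dyadic_below (K : ℕ) {a g : ℝ} (ha : 0 ≤ a) (hg : 0 ≤ g) :
    ∑ j ∈ range K, (if a / 2 ^ j < g then a / 2 ^ j else 0) ≤ 2 * g := by
  rw [← sum_filter]
  rcases ((range K).filter fun j => a / 2 ^ j < g).eq_empty_or_nonempty with h | h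
  · rw [h, sum_empty]; linarith
  obtain ⟨m, hm, hmin⟩ := exists_min_image _ (fun j => j) h
  obtain ⟨hmK, hmg⟩ := mem_filter.1 hm
  calc ∑ j ∈ (range K).filter (fun j => a / 2 ^ j < g), a / 2 ^ j
      ≤ ∑ j ∈ Ico m K, a / 2 ^ j := sum_le_sum_of_subset_of_nonneg
        (fun j hj => mem_Ico.2 ⟨hmin j hj, mem_range.1 (mem_filter.1 hj).1⟩)
        (fun j _ _ => by positivity)
    _ = a / 2 ^ m * ∑ i ∈ range (K - m), (1 / 2 : ℝ) ^ i := by
        rw [sum_Ico_eq_sum_range, mul_sum]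
        refine sum_congr rfl fun i _ => ?_
        rw [pow_add, one_div, inv_pow]; field_simp
    _ ≤ a / 2 ^ m * 2 := mul_le_mul_of_nonneg_left (sum_geometric_two_le _) (by positivity)
    _ ≤ _ := by linarith

/-- The windows below a cap carry at most twice the cap. -/
lemma sum_top_le {J : ℝ} (hJ : 1 ≤ J) (N : ℕ) {X : ℝ} (hX : 0 ≤ X) :
    ∑ s, (if Cfg.top J N s ≤ X then Cfg.top J N s else 0) ≤ 2 * X := by
  rw [← sum_filter]
  rcases ((univ : Finset (Fin (2 * N + 1))).filter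
    fun s => Cfg.top J N s ≤ X).eq_empty_or_nonempty with h | h
  · rw [h, sum_empty]; linarith
  obtain ⟨m, hm, hmax⟩ := exists_max_image _ (fun s : Fin (2 * N + 1) => (s:ℕ)) h
  have hmX := (mem_filter.1 hm).2
  have hterm : ∀ s ∈ (univ : Finset (Fin (2 * N + 1))).filter (fun s => Cfg.top J N s ≤ X),
      Cfg.top J N s ≤ (1 / 2 : ℝ) ^ ((m:ℕ) - (s:ℕ)) * Cfg.top J N m := by
    intro s hs
    have hsm : (s:ℕ) ≤ m := hmax s hs
    have h2 : Real.exp (-1) ≤ 1 / 2 := by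
      rw [Real.exp_neg, one_div]
      exact inv_anti₀ two_pos (by linarith [Real.add_one_le_exp 1])
    refine le_trans ?_ (mul_le_mul_of_nonneg_right
      (pow_le_pow_left₀ (Real.exp_pos _).le h2 _) (Real.exp_pos _).le)
    rw [← Real.exp_nat_mul, Cfg.top, Cfg.top, ← Real.exp_add, Real.exp_le_exp, Nat.cast_sub hsm]
    have h4 : (0:ℝ) ≤ ((m:ℕ):ℝ) - (s:ℕ) := sub_nonneg.2 (by exact_mod_cast hsm)
    have := mul_le_mul_of_nonneg_left hJ h4
    linarith
  refine (sum_le_sum hterm).trans ?_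
  rw [← sum_mul]
  refine mul_le_mul ?_ hmX (Real.exp_pos _).le zero_le_two
  calc ∑ s ∈ (univ : Finset (Fin (2 * N + 1))).filter (fun s => Cfg.top J N s ≤ X),
        (1 / 2 : ℝ) ^ ((m:ℕ) - (s:ℕ))
      = ∑ i ∈ ((univ : Finset (Fin (2 * N + 1))).filter (fun s => Cfg.top J N s ≤ X)).image
          (fun s : Fin (2 * N + 1) => (m:ℕ) - (s:ℕ)), (1 / 2 : ℝ) ^ i := by
        rw [sum_image]
        intro a ha b hb hab
        have h1 : (a:ℕ) ≤ m := hmax a ha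
        have h2 : (b:ℕ) ≤ m := hmax b hb
        exact Fin.ext (by simp only at hab; omega)
    _ ≤ ∑ i ∈ range ((m:ℕ) + 1), (1 / 2 : ℝ) ^ i := by
        refine sum_le_sum_of_subset_of_nonneg (fun i hi => ?_) fun i _ _ => by positivity
        obtain ⟨s, -, rfl⟩ := mem_image.1 hi
        exact mem_range.2 (by omega)
    _ ≤ 2 := sum_geometric_two_le _

/-- The norm of a tensor with a unit frame. -/
lemma nrm_tensor {α : Type*} [Fintype α] {p J : ℝ} (hp : 1 ≤ p) (N : ℕ) (u ξ : α → ℝ) :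
    nrm p (fun z : α × Fin (2 * N + 1) => u z.1 * frame p J N (ξ z.1) z.2) = nrm p u := by
  unfold nrm
  congr 1
  rw [Fintype.sum_prod_type]
  refine sum_congr rfl fun c _ => ?_
  simp only [abs_mul, Real.mul_rpow (abs_nonneg _) (abs_nonneg _), ← mul_sum]
  rw [← nrm_rpow hp (frame p J N (ξ c)), nrm_frame hp, Real.one_rpow, mul_one]

/-- Norm of a vector with `K` equally weighted groups. -/
lemma nrm_groups {β : Type*} [Fintype β] {p : ℝ} (hp : 1 ≤ p) {K : ℕ} (hK : 0 < K)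
    (F : Fin K → β → ℝ) :
    nrm p (fun z : Fin K × β => ((K:ℝ) ^ (1 / p))⁻¹ * F z.1 z.2) ^ p
      = (K:ℝ)⁻¹ * ∑ j, nrm p (F j) ^ p := by
  have hK' : (0:ℝ) < K := by exact_mod_cast hK
  rw [nrm_smul hp (by positivity) (fun z : Fin K × β => F z.1 z.2),
    Real.mul_rpow (by positivity) (nrm_nonneg _), Real.inv_rpow (by positivity),
    ← Real.rpow_mul hK'.le, one_div_mul_cancel (by linarith), Real.rpow_one, nrm_rpow hp,
    Fintype.sum_prod_type]
  simp only [nrm_rpow hp]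

variable {n : ℕ} [NeZero n] {κ : Type*} [Fintype κ]

/-- The growth at a very fine scale is small. -/
lemma growth_fine {p : ℝ} (hp : 1 ≤ p) (v : Fin n → κ → ℝ) (x : Fin n) {lam δ : ℝ}
    (hlam : 0 < lam) (hδ : 0 < δ)
    (hsep : ∀ z, dz p v (v x) z = 0 ∨ δ ≤ dz p v (v x) z) :
    growth p v lam (v x) ≤ n * (2 / (lam * δ)) := by
  unfold growth
  have hb := one_le_part (v := v) hp lam x
  have hge := part_anti (p := p) (v := v) (show lam / 2 ≤ lam by linarith) (v x)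
  rw [← Real.log_div (part_pos _ _).ne' (part_pos _ _).ne']
  refine (Real.log_le_sub_one_of_pos (div_pos (part_pos _ _) (part_pos _ _))).trans ?_
  rw [div_sub_one (part_pos _ _).ne']
  refine (div_le_self (by linarith) hb).trans ?_
  unfold part
  rw [← sum_sub_distrib]
  refine (sum_le_sum (g := fun _ => 2 / (lam * δ)) fun z _ => ?_).trans_eq (by
    rw [sum_const, card_univ, Fintype.card_fin, nsmul_eq_mul])
  rcases hsep z with h | h
  · rw [h]; simp only [mul_zero, sub_self]; positivity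
  · have h1 := Real.add_one_le_exp (lam / 2 * dz p v (v x) z)
    have hx : lam * δ / 2 ≤ lam / 2 * dz p v (v x) z := by
      have := mul_le_mul_of_nonneg_left h (show 0 ≤ lam / 2 by linarith)
      linarith
    have hpos : 0 < lam * δ / 2 := by positivity
    have h2 : Real.exp (-(lam / 2 * dz p v (v x) z)) ≤ 2 / (lam * δ) := by
      rw [Real.exp_neg]
      refine (inv_anti₀ hpos (by linarith)).trans_eq ?_
      rw [inv_div]
    linarith [Real.exp_pos (-(lam * dz p v (v x) z))]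

/-- The growth at a very coarse scale is small. -/
lemma growth_coarse {p : ℝ} (hp : 1 ≤ p) (v : Fin n → κ → ℝ) (x : Fin n) {lam D : ℝ}
    (hlam : 0 ≤ lam) (hD : ∀ z, dz p v (v x) z ≤ D) :
    growth p v lam (v x) ≤ lam * D := by
  have hn : (0:ℝ) < n := by exact_mod_cast Nat.pos_of_ne_zero (NeZero.ne n)
  have h1 : Real.log (part p v (lam / 2) (v x)) ≤ Real.log n :=
    Real.log_le_log (part_pos _ _) (part_le fun z => mul_nonneg (by linarith) (dz_nonneg _ _))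
  have h2 : Real.log n - lam * D ≤ Real.log (part p v lam (v x)) := by
    rw [sub_eq_add_neg, ← Real.log_exp (-(lam * D)), ← Real.log_mul hn.ne' (Real.exp_pos _).ne']
    refine Real.log_le_log (by positivity) ?_
    unfold part
    refine le_of_eq_of_le ?_ (sum_le_sum (f := fun _ => Real.exp (-(lam * D))) fun z _ =>
      Real.exp_le_exp.2 (neg_le_neg (mul_le_mul_of_nonneg_left (hD z) hlam)))
    rw [sum_const, card_univ, Fintype.card_fin, nsmul_eq_mul]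
  have := hp
  unfold growth; linarith

omit [NeZero n] in
/-- Positive distances are bounded below, and all distances are bounded above. -/
lemma exists_extreme_dist (p : ℝ) (v : Fin n → κ → ℝ) :
    ∃ δ D : ℝ, 0 < δ ∧ 0 ≤ D ∧
      (∀ i j, dz p v (v i) j = 0 ∨ δ ≤ dz p v (v i) j) ∧ ∀ i j, dz p v (v i) j ≤ D := by
  classical
  obtain ⟨δ, hδ, hsep⟩ : ∃ δ : ℝ, 0 < δ ∧ ∀ i j, dz p v (v i) j = 0 ∨ δ ≤ dz p v (v i) j := by
    rcases ((univ : Finset (Fin n × Fin n)).filter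
      fun z => dz p v (v z.1) z.2 ≠ 0).eq_empty_or_nonempty with h | h
    · refine ⟨1, one_pos, fun i j => Or.inl ?_⟩
      by_contra hne
      exact (filter_eq_empty_iff.1 h) (mem_univ (i, j)) hne
    · obtain ⟨z, hz, hmin⟩ := exists_min_image _ (fun z => dz p v (v z.1) z.2) h
      refine ⟨dz p v (v z.1) z.2, lt_of_le_of_ne (dz_nonneg (v z.1) z.2) (Ne.symm (mem_filter.1 hz).2),
        fun i j => ?_⟩
      by_cases hne : dz p v (v i) j = 0
      · exact Or.inl hne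
      · exact Or.inr (hmin (i, j) (mem_filter.2 ⟨mem_univ _, hne⟩))
  refine ⟨δ, ∑ i, ∑ j, dz p v (v i) j, hδ, sum_nonneg fun i _ => sum_nonneg fun j _ => dz_nonneg (v i) j,
    hsep, fun i j => ?_⟩
  have h1 : dz p v (v i) j ≤ ∑ j', dz p v (v i) j' :=
    single_le_sum (f := fun j' => dz p v (v i) j') (fun z _ => dz_nonneg (v i) z) (mem_univ j)
  have h2 : ∑ j', dz p v (v i) j' ≤ ∑ i', ∑ j', dz p v (v i') j' :=
    single_le_sum (f := fun i' => ∑ j', dz p v (v i') j')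
      (fun i' _ => sum_nonneg fun z _ => dz_nonneg (v i') z) (mem_univ i)
  exact h1.trans h2

namespace Cfg

variable (C : Cfg n κ)

lemma gr_zero_le {δ : ℝ} (hδ : 0 < δ) (u : Fin n)
    (hsep : ∀ z, dz C.p C.v (C.v u) z = 0 ∨ δ ≤ dz C.p C.v (C.v u) z)
    (h : 2 * (n:ℝ) * C.r0 ≤ δ) : C.gr 0 (C.v u) ≤ 1 := by
  refine (growth_fine C.hp C.v u (C.lam_pos 0) hδ hsep).trans ?_
  rw [C.lam_eq, rad, pow_zero, mul_one, one_div_mul_eq_div, div_div_eq_mul_div, ← mul_div_assoc,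
    div_le_one hδ]
  linarith

lemma gr_last_le {D G : ℝ} (u : Fin n) (hD : ∀ z, dz C.p C.v (C.v u) z ≤ D)
    (h : D ≤ C.rad C.L * G) : C.gr C.L (C.v u) ≤ G := by
  refine (growth_coarse C.hp C.v u (C.lam_pos _).le hD).trans ?_
  rw [C.lam_eq, one_div_mul_eq_div, div_le_iff₀ (C.rad_pos _)]
  linarith

lemma bar_last {X Y : κ → ℝ} {t θ G : ℝ} (ht : nrm C.p (fun c => X c - Y c) = t)
    (htL : t ≤ C.rad C.L) (hθ : 0 ≤ θ) (hg : C.gr C.L Y ≤ G) (hG1 : G ≤ 1)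
    (hG : 2 ^ C.p * (mom C.p * (G * 2 ^ (C.p - 1))) ≤ (θ / 8) ^ C.p) :
    nrm C.p (fun c => C.bar C.L X c - C.bar C.L Y c) ≤ θ * t := by
  have hp := C.hp
  have hp0 : 0 < C.p := by linarith
  have ht0 : 0 ≤ t := ht ▸ nrm_nonneg _
  refine le_trans (nrm_mono hp fun c => (C.bar_lip ht htL c).trans (le_abs_self _)) ?_
  rw [nrm_smul hp (by positivity)]
  have hgL := C.gr_nonneg C.L Y
  have hk : kap C.p (C.gr C.L Y) ≤ G * 2 ^ (C.p - 1) :=
    mul_le_mul hg (Real.rpow_le_rpow (by linarith) (by linarith) (by linarith))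
      (Real.rpow_nonneg (by linarith) _) (hgL.trans hg)
  have hsum : ∑ c, C.A C.L Y c ≤ (θ / 8) ^ C.p := by
    refine (C.A_sum_le C.L Y).trans (le_trans ?_ hG)
    have := mom_nonneg (p := C.p) hp
    exact mul_le_mul_of_nonneg_left (mul_le_mul_of_nonneg_left hk this) (by positivity)
  have hn2 : nrm C.p (fun c => C.A C.L Y c ^ (1 / C.p)) ≤ θ / 8 := by
    refine (Real.rpow_le_rpow_iff (nrm_nonneg _) (by positivity) hp0).1 ?_
    rw [nrm_rpow hp]
    refine le_trans (le_of_eq (sum_congr rfl fun c _ => ?_)) hsum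
    rw [abs_of_nonneg (Real.rpow_nonneg (C.A_nonneg _ _ _) _),
      ← Real.rpow_mul (C.A_nonneg _ _ _), one_div_mul_cancel hp0.ne', Real.rpow_one]
  refine (mul_le_mul_of_nonneg_left hn2 (show 0 ≤ 8 * t by positivity)).trans_eq ?_
  ring

lemma bar_zero {θ δ τm : ℝ} (hθ : 0 ≤ θ) (hδ : 0 ≤ δ) (hτ : C.τ ≤ τm) (u : Fin n)
    (hg : C.gr 0 (C.v u) ≤ 1) (hr : C.r0 * (C.cn * (1 + τm)) ≤ θ * δ) :
    nrm C.p (fun c => C.bar 0 (C.v u) c - C.v u c) ≤ θ * δ := by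
  have hτ1 := C.hτ
  refine (C.nrm_bar_le (hg.trans (by linarith))).trans (le_trans ?_ hr)
  have := C.one_le_cn
  have := C.hr0
  rw [rad, pow_zero, mul_one]
  gcongr

lemma ends_err {θ δ : ℝ} (hθ : 0 ≤ θ) (x y : Fin n) {t : ℝ} (hδt : δ ≤ t) (ht : 0 ≤ t)
    (h0 : ∀ u, nrm C.p (fun c => C.bar 0 (C.v u) c - C.v u c) ≤ θ * δ)
    (hLb : nrm C.p (fun c => C.bar C.L (C.v x) c - C.bar C.L (C.v y) c) ≤ θ * t) :
    nrm C.p (fun c => ((C.bar 0 (C.v x) c - C.bar 0 (C.v y) c)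
        - (C.bar C.L (C.v x) c - C.bar C.L (C.v y) c)) - (C.v x c - C.v y c)) ≤ 4 * θ * t := by
  have e : (fun c => ((C.bar 0 (C.v x) c - C.bar 0 (C.v y) c)
        - (C.bar C.L (C.v x) c - C.bar C.L (C.v y) c)) - (C.v x c - C.v y c))
      = fun c => ((C.bar 0 (C.v x) c - C.v x c) + -(C.bar 0 (C.v y) c - C.v y c))
        + -(C.bar C.L (C.v x) c - C.bar C.L (C.v y) c) := by
    funext c; ring
  rw [e]
  refine (nrm_add C.hp _ _).trans ((add_le_add (nrm_add C.hp _ _) le_rfl).trans ?_)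
  rw [nrm_neg, nrm_neg]
  have h10 := mul_le_mul_of_nonneg_left hδt hθ
  have := h0 x
  have := h0 y
  have : 0 ≤ θ * t := by positivity
  linarith

/-- Suitable scales satisfy all the end conditions. -/
lemma scales_spec {θ τm δ D G : ℝ} {T : ℕ} (hθ : 0 < θ) (hτ : C.τ ≤ τm) (hδ : 0 < δ)
    (hsep : ∀ i j, dz C.p C.v (C.v i) j = 0 ∨ δ ≤ dz C.p C.v (C.v i) j)
    (hD : ∀ i j, dz C.p C.v (C.v i) j ≤ D)
    (hn0 : 2 * (n:ℝ) * C.r0 ≤ δ) (hr : C.r0 * (C.cn * (1 + τm)) ≤ θ * δ) (hr1 : C.r0 < δ)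
    (hL : D ≤ C.rad C.L * G) (hL1 : D ≤ C.rad C.L) (hG1 : G ≤ 1)
    (hG : 2 ^ C.p * (mom C.p * (G * 2 ^ (C.p - 1))) ≤ (θ / 8) ^ C.p)
    (hT0 : 0 < T) (hT : 2 ^ C.L * τm ≤ T) :
    (∀ u, C.gr 0 (C.v u) ≤ 1 ∧ C.gr C.L (C.v u) ≤ 1) ∧
      ∀ x y, 0 < nrm C.p (fun c => C.v x c - C.v y c) →
        C.rad 0 < nrm C.p (fun c => C.v x c - C.v y c) ∧
        nrm C.p (fun c => C.v x c - C.v y c) ≤ C.rad C.L ∧
        C.rad C.L / T ≤ nrm C.p (fun c => C.v x c - C.v y c) / C.τ ∧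
        nrm C.p (fun c => ((C.bar 0 (C.v x) c - C.bar 0 (C.v y) c)
            - (C.bar C.L (C.v x) c - C.bar C.L (C.v y) c)) - (C.v x c - C.v y c))
          ≤ 4 * θ * nrm C.p (fun c => C.v x c - C.v y c) := by
  have hg0 : ∀ u, C.gr 0 (C.v u) ≤ 1 := fun u => C.gr_zero_le hδ u (hsep u) hn0
  have hgL : ∀ u, C.gr C.L (C.v u) ≤ G := fun u => C.gr_last_le u (hD u) hL
  refine ⟨fun u => ⟨hg0 u, (hgL u).trans hG1⟩, fun x y hpos => ?_⟩
  have hδt : δ ≤ nrm C.p (fun c => C.v x c - C.v y c) := (hsep x y).resolve_left hpos.ne'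
  have htL : nrm C.p (fun c => C.v x c - C.v y c) ≤ C.rad C.L := (hD x y).trans hL1
  have hrad0 : C.rad 0 = C.r0 := by rw [rad, pow_zero, mul_one]
  refine ⟨by linarith, htL, ?_, C.ends_err hθ.le x y hδt hpos.le
    (fun u => C.bar_zero hθ.le hδ.le hτ u (hg0 u) hr) (C.bar_last rfl htL hθ.le (hgL y) hG1 hG)⟩
  have hτ1 := C.hτ
  have h1 : (2:ℝ) ^ C.L * C.τ ≤ T := le_trans (mul_le_mul_of_nonneg_left hτ (by positivity)) hT
  have h2 := mul_le_mul_of_nonneg_left h1 C.hr0.le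
  have h3 := mul_le_mul_of_nonneg_right (hr1.le.trans hδt) (Nat.cast_nonneg (α := ℝ) T)
  rw [div_le_div_iff₀ (by exact_mod_cast hT0) (by linarith), rad]
  linarith

end Cfg

/-- The finest and coarsest scales, and the number of thresholds. -/
lemma exists_scales {p : ℝ} (hp : 1 < p) (hn : 2 ≤ n) (v : Fin n → κ → ℝ) {θ τm : ℝ}
    (hθ : 0 < θ) (hθ1 : θ ≤ 1) (hτm : 1 ≤ τm) :
    ∃ (r₀ : ℝ) (L T : ℕ), 0 < r₀ ∧ 0 < T ∧
      ∀ C : Cfg n κ, C.v = v → C.p = p → C.r0 = r₀ → C.L = L → C.τ ≤ τm →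
        (∀ u, C.gr 0 (v u) ≤ 1 ∧ C.gr L (v u) ≤ 1) ∧
        ∀ x y, 0 < nrm p (fun c => v x c - v y c) →
          C.rad 0 < nrm p (fun c => v x c - v y c) ∧
          nrm p (fun c => v x c - v y c) ≤ C.rad L ∧
          C.rad L / T ≤ nrm p (fun c => v x c - v y c) / C.τ ∧
          nrm p (fun c => ((C.bar 0 (v x) c - C.bar 0 (v y) c) - (C.bar L (v x) c - C.bar L (v y) c))
            - (v x c - v y c)) ≤ 4 * θ * nrm p (fun c => v x c - v y c) := by
  obtain ⟨δ, D, hδ, hD0, hsep, hD⟩ := exists_extreme_dist p v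
  have hp0 : 0 < p := by linarith
  obtain ⟨cn, hcn1, hcn⟩ : ∃ cn : ℝ, 1 ≤ cn ∧
      ∀ C : Cfg n κ, C.p = p → C.cn = cn :=
    ⟨_, (⟨v, p, 1, 1, 1, 0, hp.le, one_pos, le_rfl, one_pos⟩ : Cfg n κ).one_le_cn,
      fun C hC => by unfold Cfg.cn; rw [hC]⟩
  have hmom : 0 < mom p := by unfold mom; positivity
  have hnR : (2:ℝ) ≤ n := by exact_mod_cast hn
  obtain ⟨r₀, hr0, hrn, hrc, hr1⟩ : ∃ r : ℝ, 0 < r ∧ 2 * (n:ℝ) * r ≤ δ ∧
      r * (cn * (1 + τm)) ≤ θ * δ ∧ r < δ := by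
    have hM1 : 1 ≤ cn * (1 + τm) := one_le_mul_of_one_le_of_one_le hcn1 (by linarith)
    obtain ⟨M, hM⟩ : ∃ M : ℝ, M = cn * (1 + τm) := ⟨_, rfl⟩
    rw [← hM] at hM1 ⊢
    refine ⟨θ * δ / (4 * n * M), by positivity, ?_, ?_, ?_⟩
    · rw [← mul_div_assoc, div_le_iff₀ (by positivity)]
      have h1 := mul_le_mul (mul_le_mul_of_nonneg_right hθ1 hδ.le) hM1 zero_le_one
        (by positivity : (0:ℝ) ≤ 1 * δ)
      have h2 := mul_le_mul_of_nonneg_left hM1 (show 0 ≤ (n:ℝ) * δ by positivity)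
      have h3 := mul_le_mul_of_nonneg_right hθ1 (show 0 ≤ (n:ℝ) * δ by positivity)
      linarith [show (0:ℝ) ≤ (n:ℝ) * δ * M by positivity]
    · rw [div_mul_eq_mul_div, div_le_iff₀ (by positivity)]
      have h1 := mul_le_mul_of_nonneg_left (show (1:ℝ) ≤ 4 * n by linarith)
        (show 0 ≤ θ * δ * M by positivity)
      linarith
    · rw [div_lt_iff₀ (by positivity)]
      have h1 := mul_le_mul_of_nonneg_left hM1 (show 0 ≤ (n:ℝ) * δ by positivity)
      have h2 := mul_le_mul_of_nonneg_left hnR hδ.le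
      have h3 := mul_le_mul_of_nonneg_right hθ1 hδ.le
      linarith
  obtain ⟨G, hG0, hG1, hG⟩ : ∃ G : ℝ, 0 < G ∧ G ≤ 1 ∧
      2 ^ p * (mom p * (G * 2 ^ (p - 1))) ≤ (θ / 8) ^ p := by
    refine ⟨min 1 ((θ / 8) ^ p / (2 ^ p * mom p * 2 ^ (p - 1))),
      lt_min one_pos (by positivity), min_le_left _ _, ?_⟩
    have h5 := min_le_right 1 ((θ / 8) ^ p / (2 ^ p * mom p * 2 ^ (p - 1)))
    rw [le_div_iff₀ (by positivity)] at h5
    linarith
  obtain ⟨L, hL⟩ := pow_unbounded_of_one_lt (D / (r₀ * G)) (one_lt_two (α := ℝ))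
  obtain ⟨T, hT⟩ := exists_nat_gt ((2:ℝ) ^ L * τm)
  have hT0 : 0 < T := by
    have : (0:ℝ) < T := lt_of_le_of_lt (by positivity) hT
    exact_mod_cast this
  rw [div_lt_iff₀ (by positivity)] at hL
  refine ⟨r₀, L, T, hr0, hT0, ?_⟩
  intro C hv hpC hrC hLC hτC
  subst hv hpC hrC hLC
  have hLG : D ≤ C.rad C.L * G := by unfold Cfg.rad; linarith
  refine C.scales_spec hθ hτC hδ hsep hD hrn ?_ hr1 hLG
    (hLG.trans (mul_le_of_le_one_right (C.rad_pos _).le hG1)) hG1 hG hT0 hT.le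
  rw [hcn C rfl]; exact hrc

end Vale.Agent.P249.Sharp
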