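import Mathlib
import Vale.Agent.P249.Sharp.Tools

/-!
A bundle of threshold averages over geometrically decreasing thresholds.
-/

namespace Vale.Agent.P249.Sharp

open Finset

variable {n : ℕ} {κ : Type*} [Fintype κ]

/-- The bundle of average maps with equal weights. -/
noncomputable def bundle (p : ℝ) {K : ℕ} (Cj : Fin K → Cfg n κ) (J : ℝ) (N T : ℕ) (X : κ → ℝ)
    (a : Fin K × (κ × Fin (2 * N + 1))) : ℝ :=
  ((K:ℝ) ^ (1 / p))⁻¹ * (Cj a.1).avgMap J N T X a.2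

variable [NeZero n]

namespace Cfg

variable (C : Cfg n κ)

omit [NeZero n] in
/-- A sufficiently large frame. -/
lemma wfun_range_exists {J : ℝ} (hJ : 0 < J) :
    ∃ N₀ : ℕ, ∀ N : ℕ, N₀ ≤ N → ∀ u i k c, i ≤ C.L → k ≤ C.L →
      |C.wfun i k (C.v u) c| ≤ J * N := by
  set W : Fin n → ℕ → ℕ → κ → ℝ := fun u i k c => |C.wfun i k (C.v u) c| with hW
  have h0 : ∀ u i k c, 0 ≤ W u i k c := fun u i k c => abs_nonneg _
  obtain ⟨N₀, hN₀⟩ := exists_nat_ge
    ((∑ u, ∑ i ∈ range (C.L + 1), ∑ k ∈ range (C.L + 1), ∑ c, W u i k c) / J)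
  refine ⟨N₀, fun N hN u i k c hi hk => ?_⟩
  rw [div_le_iff₀ hJ] at hN₀
  have h1 : (N₀:ℝ) ≤ N := by exact_mod_cast hN
  have h2 := mul_le_mul_of_nonneg_right h1 hJ.le
  refine le_trans ?_ (show _ ≤ J * (N:ℝ) by linarith)
  refine le_trans ?_ (single_le_sum (fun u _ => sum_nonneg fun i _ => sum_nonneg fun k _ =>
    sum_nonneg fun c _ => h0 u i k c) (mem_univ u))
  refine le_trans ?_ (single_le_sum (fun i _ => sum_nonneg fun k _ =>
    sum_nonneg fun c _ => h0 u i k c) (mem_range.2 (Nat.lt_succ_of_le hi)))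
  refine le_trans ?_ (single_le_sum (fun k _ => sum_nonneg fun c _ => h0 u i k c)
    (mem_range.2 (Nat.lt_succ_of_le hk)))
  exact single_le_sum (f := fun c => W u i k c) (fun c _ => h0 u i k c) (mem_univ c)

/-- The total weight of the levels of large growth. -/
lemma bad_card_le (x : Fin n) :
    C.τ * ((C.bad (C.v x)).card : ℝ) ≤ Real.log n := by
  calc C.τ * ((C.bad (C.v x)).card : ℝ) = ∑ _k ∈ C.bad (C.v x), C.τ := by
        rw [sum_const, nsmul_eq_mul, mul_comm]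
    _ ≤ ∑ k ∈ C.bad (C.v x), C.gr k (C.v x) := by
        refine sum_le_sum fun k hk => ?_
        unfold bad at hk
        exact (mem_filter.1 hk).2.le
    _ ≤ ∑ k ∈ range (C.L + 1), C.gr k (C.v x) := by
        refine sum_le_sum_of_subset_of_nonneg (fun k hk => ?_) fun k _ _ => C.gr_nonneg k _
        unfold bad at hk
        exact (mem_filter.1 hk).1
    _ ≤ _ := C.sum_gr_le x _

omit [Fintype κ] [NeZero n] in
lemma cv_nonneg : 0 ≤ C.cv := by
  have h1 := mom_nonneg (p := C.p) C.hp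
  have h2 : (0:ℝ) ≤ C.p := le_trans zero_le_one C.hp
  unfold cv; positivity

lemma prof_total_le (hη : (Fintype.card κ : ℝ) * C.η ≤ 1) {ℓ : ℝ} (hℓ : ℓ = Real.log n)
    (hℓ1 : 1 ≤ ℓ) (hτ : 1 + C.τ ≤ ℓ) (x : Fin n) :
    ∑ c, C.prof 0 (C.v x) c ≤ (1 + C.cv) * ℓ ^ C.p := by
  refine (C.prof_sum_le x 0).trans ?_
  rw [← hℓ]
  have hp := C.hp
  have hτ1 := C.hτ
  have hpow : (1 + C.τ) ^ (C.p - 1) * ℓ ≤ ℓ ^ C.p := by
    refine (mul_le_mul_of_nonneg_right (Real.rpow_le_rpow (by linarith) hτ (by linarith))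
      (by linarith)).trans_eq ?_
    rw [← Real.rpow_add_one' (by linarith) (by linarith), sub_add_cancel]
  have h1 := mul_le_mul_of_nonneg_left hpow C.cv_nonneg
  have h2 := Real.one_le_rpow hℓ1 (show 0 ≤ C.p by linarith)
  linarith

lemma size_le (hη : (Fintype.card κ : ℝ) * C.η ≤ 1) {ℓ δ : ℝ} (hℓ : ℓ = Real.log n) (hℓ1 : 1 ≤ ℓ)
    (hδ : 0 ≤ δ) (hτ : 1 + C.τ ≤ 2 * δ * ℓ) :
    C.size ≤ 2 * (1 + C.cv) * (2 * δ) ^ ((C.p - 1) / C.p) * ℓ := by
  unfold size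
  rw [← hℓ]
  have hp := C.hp
  have hp0 : 0 < C.p := by linarith
  have hτ1 := C.hτ
  have hcv := C.cv_nonneg
  have hη0 := C.hη
  have hpow : (1 + C.τ) ^ (C.p - 1) ≤ (2 * δ * ℓ) ^ (C.p - 1) :=
    Real.rpow_le_rpow (by linarith) hτ (by linarith)
  have hone : 1 ≤ (2 * δ * ℓ) ^ (C.p - 1) * ℓ :=
    one_le_mul_of_one_le_of_one_le (Real.one_le_rpow (by linarith) (by linarith)) hℓ1
  have hle : 2 * ((Fintype.card κ : ℝ) * C.η + C.cv * ((1 + C.τ) ^ (C.p - 1) * ℓ))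
      ≤ 2 * (1 + C.cv) * ((2 * δ) ^ (C.p - 1) * ℓ ^ C.p) := by
    have e : (2 * δ) ^ (C.p - 1) * ℓ ^ C.p = (2 * δ * ℓ) ^ (C.p - 1) * ℓ := by
      rw [Real.mul_rpow (x := 2 * δ) (y := ℓ) (by positivity) (by linarith), mul_assoc]
      congr 1
      rw [← Real.rpow_add_one' (by linarith) (by linarith), sub_add_cancel]
    rw [e]
    have h7 := mul_le_mul_of_nonneg_left
      (mul_le_mul_of_nonneg_right hpow (show 0 ≤ ℓ by linarith)) hcv
    linarith
  refine (Real.rpow_le_rpow (by positivity) hle (by positivity)).trans ?_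
  rw [Real.mul_rpow (x := 2 * (1 + C.cv)) (by positivity) (by positivity),
    Real.mul_rpow (x := (2 * δ) ^ (C.p - 1)) (by positivity) (by positivity),
    ← Real.rpow_mul (by positivity),
    ← Real.rpow_mul (by linarith), mul_one_div_cancel hp0.ne', Real.rpow_one,
    show (C.p - 1) * (1 / C.p) = (C.p - 1) / C.p by ring, ← mul_assoc]
  refine mul_le_mul_of_nonneg_right (mul_le_mul_of_nonneg_right ?_ (by positivity)) (by linarith)
  calc (2 * (1 + C.cv)) ^ (1 / C.p) ≤ (2 * (1 + C.cv)) ^ (1:ℝ) :=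
        Real.rpow_le_rpow_of_exponent_le (by linarith) ((div_le_one hp0).2 hp)
    _ = _ := Real.rpow_one _

/-- The error of one threshold on a pair, when few levels are skipped. -/
lemma err_le {J : ℝ} (hJ : 0 < J) (N T : ℕ) (hT : 0 < T) (x y : Fin n) (hx : C.Ends (C.v x))
    (hy : C.Ends (C.v y)) {t : ℝ} (ht : nrm C.p (fun c => C.v x c - C.v y c) = t)
    (ht0 : C.rad 0 < t) (htL : t ≤ C.rad C.L) (hrT : C.rad C.L / T ≤ t / C.τ) {M : ℕ}
    (hM : (C.bad (C.v x)).card + (C.bad (C.v y)).card ≤ M)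
    (hsmall : (2:ℝ) ^ (2 * M + 2) * ((M : ℝ) * (3 / C.τ)) ≤ 1) {Z : ℝ}
    (hZ : 2 * C.cn * C.τ * ((M : ℝ) + 1) + C.size ≤ Z) :
    nrm C.p (fun z : κ × Fin (2 * N + 1) =>
        C.avgMap J N T (C.v x) z - C.avgMap J N T (C.v y) z
        - ((C.bar 0 (C.v x) z.1 - C.bar 0 (C.v y) z.1)
            - (C.bar C.L (C.v x) z.1 - C.bar C.L (C.v y) z.1))
          * frame C.p J N (C.ref 0 (C.v x) (C.v y) z.1) z.2)
      ≤ 32 * C.cp / J * Z * t := by
  refine (C.avg_pair_le N T hJ hT x y hx hy ht ht0 htL hM).trans ?_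
  have hτ := C.hτ
  have hcn := C.one_le_cn
  have hsz := C.size_nonneg
  have hcp : 0 ≤ C.cp := by
    have := C.p_le_chh; have := C.hp
    unfold cp; linarith
  have ht' : 0 ≤ t := ht ▸ nrm_nonneg _
  have hbr : t + 2 ^ (2 * M + 2) * ((M : ℝ) * (2 * t / C.τ + C.rad C.L / T)) ≤ 2 * t := by
    have h1 := mul_le_mul_of_nonneg_right hsmall ht'
    have h2 := mul_le_mul_of_nonneg_left hrT
      (show 0 ≤ (2:ℝ) ^ (2 * M + 2) * (M : ℝ) by positivity)
    have e : (2:ℝ) ^ (2 * M + 2) * ((M : ℝ) * (3 / C.τ)) * t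
        = 2 ^ (2 * M + 2) * ((M : ℝ) * (2 * t / C.τ))
          + 2 ^ (2 * M + 2) * (M : ℝ) * (t / C.τ) := by ring
    linarith
  have hZle : C.cn * (1 + C.τ) * ((M : ℝ) + 1) + C.size ≤ Z := by
    have h4 := mul_le_mul_of_nonneg_left (show 1 + C.τ ≤ 2 * C.τ by linarith)
      (show 0 ≤ C.cn * ((M : ℝ) + 1) by positivity)
    linarith
  have hZ0 : 0 ≤ Z := le_trans (by positivity) hZle
  calc _ ≤ 16 / J * (C.cp * Z * (2 * t)) := by
        refine mul_le_mul_of_nonneg_left (mul_le_mul (mul_le_mul_of_nonneg_left hZle hcp)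
          hbr ?_ (by positivity)) (by positivity)
        have := C.rad_pos C.L
        positivity
    _ = _ := by ring

/-- The slope of one coordinate. -/
lemma slope_le {J : ℝ} (hJ : 1 ≤ J) (N T : ℕ) (hT : 0 < T) (x y : Fin n) (hx : C.Ends (C.v x))
    (hy : C.Ends (C.v y)) {t : ℝ} (ht : nrm C.p (fun c => C.v x c - C.v y c) = t)
    (ht0 : C.rad 0 < t) (htL : t ≤ C.rad C.L) (hrT : C.rad C.L / T ≤ t / C.τ) {M : ℕ}
    (hM : (C.bad (C.v x)).card + (C.bad (C.v y)).card ≤ M) (z : κ × Fin (2 * N + 1))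
    (hN : ∀ u i k, i ≤ C.L → k ≤ C.L → |C.wfun i k (C.v u) z.1| ≤ J * N) :
    |C.avgMap J N T (C.v x) z - C.avgMap J N T (C.v y) z|
      ≤ (4 + C.chc * ((M:ℝ) + 1) + 12 * M) * t * top J N z.2 ^ (1 / C.p) := by
  refine (C.avg_coord_le (N := N) T hJ hT x y hx hy ht ht0 htL hM z hN).trans ?_
  refine mul_le_mul_of_nonneg_right ?_ (Real.rpow_nonneg (Real.exp_pos _).le _)
  have hτ := C.hτ
  have ht' : 0 ≤ t := ht ▸ nrm_nonneg _
  have h2 : t / C.τ ≤ t := div_le_self ht' hτ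
  have h3 : 2 * t / C.τ = 2 * (t / C.τ) := by ring
  have h4 := mul_le_mul_of_nonneg_left
    (show 2 * t / C.τ + C.rad C.L / T ≤ 3 * t by linarith) (show (0:ℝ) ≤ M by positivity)
  linarith

/-- The active windows of one point in one coordinate. -/
lemma active_sum_le {J : ℝ} (hJ : 1 ≤ J) (N T : ℕ) (x : Fin n) (hx : C.Ends (C.v x)) {M : ℕ}
    (hM : (C.bad (C.v x)).card ≤ M) (c : κ)
    (hN : ∀ i k, i ≤ C.L → k ≤ C.L → |C.wfun i k (C.v x) c| ≤ J * N) :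
    ∑ s, (if C.avgMap J N T (C.v x) (c, s) = 0 then 0 else top J N s)
      ≤ 2 * (Real.exp (2 * J) * (2 * (2:ℝ) ^ (2 * C.p * M + C.p) * C.prof 0 (C.v x) c)) := by
  have hX0 : 0 ≤ Real.exp (2 * J) * (2 * (2:ℝ) ^ (2 * C.p * M + C.p) * C.prof 0 (C.v x) c) := by
    have := (C.prof_pos 0 (C.v x) c).le
    positivity
  refine le_trans (sum_le_sum fun s _ => ?_) (sum_top_le hJ N hX0)
  by_cases hz : C.avgMap J N T (C.v x) (c, s) = 0
  · rw [if_pos hz]
    split_ifs <;> [exact (Real.exp_pos _).le; exact le_rfl]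
  · have h := C.avg_active (N := N) T (show 0 < J by linarith) x hx hM (c, s) hN hz
    rw [if_neg hz, if_pos h]

end Cfg

/-- The weighted error of a bundle. -/
lemma nrm_bundle_err {β : Type*} [Fintype β] {p : ℝ} (hp : 1 ≤ p) {K : ℕ} (hK : 0 < K)
    (err : Fin K → β → ℝ) (Z : Fin K → ℝ) {A U ω t : ℝ} (hA : 0 ≤ A) (hU : 0 ≤ U) (ht : 0 ≤ t)
    (hω : 0 ≤ ω)
    (hZ0 : ∀ j, 0 ≤ Z j) (hZU : ∀ j, A * Z j ≤ U) (hZs : ∑ j, Z j ≤ K * ω)
    (he : ∀ j, nrm p (err j) ≤ A * Z j * t) :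
    nrm p (fun a : Fin K × β => ((K:ℝ) ^ (1 / p))⁻¹ * err a.1 a.2)
      ≤ (U ^ (p - 1) * A * ω) ^ (1 / p) * t := by
  have hp0 : 0 < p := by linarith
  have hKR : (0:ℝ) < K := by exact_mod_cast hK
  refine (Real.rpow_le_rpow_iff (nrm_nonneg _) (by positivity) hp0).1 ?_
  rw [nrm_groups hp hK err, Real.mul_rpow (by positivity) ht,
    ← Real.rpow_mul (by positivity), one_div_mul_cancel hp0.ne', Real.rpow_one,
    inv_mul_le_iff₀ hKR]
  have hj : ∀ j, nrm p (err j) ^ p ≤ U ^ (p - 1) * A * Z j * t ^ p := by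
    intro j
    have hX0 : 0 ≤ A * Z j := mul_nonneg hA (hZ0 j)
    refine (Real.rpow_le_rpow (nrm_nonneg _) (he j) hp0.le).trans ?_
    rw [Real.mul_rpow hX0 ht]
    refine mul_le_mul_of_nonneg_right ?_ (by positivity)
    calc (A * Z j) ^ p = (A * Z j) ^ (p - 1) * (A * Z j) := by
          rw [← Real.rpow_add_one' hX0 (by linarith), sub_add_cancel]
      _ ≤ U ^ (p - 1) * (A * Z j) :=
          mul_le_mul_of_nonneg_right (Real.rpow_le_rpow hX0 (hZU j) (by linarith)) hX0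
      _ = _ := by ring
  refine (sum_le_sum fun j _ => hj j).trans ?_
  rw [← sum_mul, ← mul_sum]
  calc U ^ (p - 1) * A * (∑ j, Z j) * t ^ p ≤ U ^ (p - 1) * A * ((K:ℝ) * ω) * t ^ p := by gcongr
    _ = _ := by ring

end Vale.Agent.P249.Sharp
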