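import Mathlib
import Vale.Agent.P249.Sharp.Bundle

/-!
For `p > 1`, a finite subset of `ℓ_p^κ` maps almost isometrically into windows of small total
sensitivity.
-/

namespace Vale.Agent.P249.Sharp

open Finset

variable {n : ℕ} {κ : Type*} [Fintype κ]

namespace Cfg

/-- The same configuration with another threshold. -/
noncomputable def withTau (C : Cfg n κ) (τ : ℝ) (h : 1 ≤ τ) : Cfg n κ :=
  ⟨C.v, C.p, C.r0, τ, C.η, C.L, C.hp, C.hr0, h, C.hη⟩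

end Cfg

/-- The bundle over dyadic thresholds below `a`. -/
noncomputable def dyadicBundle (C : Cfg n κ) {K : ℕ} (a : ℝ)
    (ha : ∀ j : Fin K, 1 ≤ a / 2 ^ (j:ℕ)) (J : ℝ) (N T : ℕ) (X : κ → ℝ) :
    Fin K × (κ × Fin (2 * N + 1)) → ℝ :=
  bundle C.p (fun j => C.withTau (a / 2 ^ (j:ℕ)) (ha j)) J N T X

/-- Choice of the number of thresholds and of the largest one. -/
lemma exists_params {p ε A cn cv : ℝ} (hp : 1 < p) (hε : 0 < ε) (hA : 0 < A) (hcn : 1 ≤ cn)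
    (hcv : 0 ≤ cv) :
    ∃ (K : ℕ) (δ ω : ℝ), 0 < K ∧ 0 < δ ∧ δ ≤ 1 / 2 ∧ 0 < ω ∧
      ((A * (12 * cn + 2 * (1 + cv))) ^ (p - 1) * A * ω) ^ (1 / p) ≤ ε ∧
      24 * cn ≤ ω * K ∧ (2 * δ) ^ ((p - 1) / p) ≤ 1 ∧
      4 * (1 + cv) * (2 * δ) ^ ((p - 1) / p) ≤ ω := by
  have hp0 : 0 < p := by linarith
  have hp10 : 0 < p - 1 := by linarith
  obtain ⟨U, hU⟩ : ∃ U : ℝ, U = A * (12 * cn + 2 * (1 + cv)) := ⟨_, rfl⟩
  have hU0 : 0 < U := by rw [hU]; positivity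
  rw [← hU]
  obtain ⟨ω, hω⟩ : ∃ ω : ℝ, ω = ε ^ p / (U ^ (p - 1) * A) := ⟨_, rfl⟩
  have hω0 : 0 < ω := by rw [hω]; positivity
  obtain ⟨K, hK⟩ := exists_nat_gt (24 * cn / ω)
  have hK0 : 0 < K := by
    have : (0:ℝ) < K := lt_trans (by positivity) hK
    exact_mod_cast this
  obtain ⟨b, hb⟩ : ∃ b : ℝ, b = min 1 (ω / (4 * (1 + cv))) := ⟨_, rfl⟩
  have hb0 : 0 < b := by rw [hb]; exact lt_min one_pos (by positivity)
  have hb1 : b ≤ 1 := by rw [hb]; exact min_le_left _ _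
  have hbω : 4 * (1 + cv) * b ≤ ω := by
    have : b ≤ ω / (4 * (1 + cv)) := by rw [hb]; exact min_le_right _ _
    rw [le_div_iff₀ (by positivity)] at this
    linarith
  have hδb : (2 * (b ^ (p / (p - 1)) / 2)) ^ ((p - 1) / p) = b := by
    rw [mul_div_cancel₀ _ two_ne_zero, ← Real.rpow_mul hb0.le,
      show p / (p - 1) * ((p - 1) / p) = 1 by field_simp, Real.rpow_one]
  refine ⟨K, b ^ (p / (p - 1)) / 2, ω, hK0, by positivity, ?_, hω0, le_of_eq ?_, ?_,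
    hδb.trans_le hb1, by rw [hδb]; exact hbω⟩
  · have : b ^ (p / (p - 1)) ≤ 1 := Real.rpow_le_one hb0.le hb1 (by positivity)
    linarith
  · rw [hω, mul_div_cancel₀ _ (by positivity), one_div, Real.rpow_rpow_inv hε.le hp0.ne']
  · rw [div_lt_iff₀ hω0] at hK
    linarith

/-- The thresholds sum to at most twice the largest. -/
lemma sum_tau_le (K : ℕ) {a : ℝ} (ha : 0 ≤ a) : ∑ j : Fin K, a / 2 ^ (j:ℕ) ≤ 2 * a := by
  rw [Fin.sum_univ_eq_sum_range (fun j => a / 2 ^ j) K]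
  have h7 : ∀ j : ℕ, a / 2 ^ j = a * (1 / 2 : ℝ) ^ j := fun j => by
    rw [one_div, inv_pow, div_eq_mul_inv]
  simp only [h7, ← mul_sum]
  exact (mul_le_mul_of_nonneg_left (sum_geometric_two_le _) ha).trans_eq (by ring)

/-- The weights of the thresholds are small on average. -/
lemma z_bounds {K : ℕ} {cn cv b ω ℓ : ℝ} (τ m : Fin K → ℝ) (hcn : 0 ≤ cn) (hcv : 0 ≤ cv)
    (hb : 0 ≤ b) (hb1 : b ≤ 1) (hℓ : 1 ≤ ℓ) (hτ : ∀ j, 0 ≤ τ j) (hm : ∀ j, 0 ≤ m j)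
    (hτsum : ∑ j, τ j ≤ ℓ) (hmsum : ∑ j, τ j * m j ≤ 4 * ℓ)
    (hK : 24 * cn ≤ ω * K) (hbω : 4 * (1 + cv) * b ≤ ω) (hω : 0 ≤ ω) :
    (∀ j, (2 * cn * τ j * (m j + 1) + 2 * (1 + cv) * b * ℓ) / ℓ ≤ 12 * cn + 2 * (1 + cv)) ∧
      ∑ j, (2 * cn * τ j * (m j + 1) + 2 * (1 + cv) * b * ℓ) / ℓ ≤ K * ω := by
  constructor
  · intro j
    rw [div_le_iff₀ (by linarith)]
    have h1 : τ j * m j ≤ 4 * ℓ := (single_le_sum (f := fun j => τ j * m j)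
      (fun i _ => mul_nonneg (hτ i) (hm i)) (mem_univ j)).trans hmsum
    have h2 : τ j ≤ ℓ := (single_le_sum (f := τ) (fun i _ => hτ i) (mem_univ j)).trans hτsum
    have h3 := mul_le_mul_of_nonneg_left (add_le_add h1 h2) (show 0 ≤ 2 * cn by linarith)
    have h4 := mul_le_mul_of_nonneg_left hb1 (show 0 ≤ 2 * (1 + cv) * ℓ by positivity)
    have : 0 ≤ cn * ℓ := by positivity
    linarith
  · rw [← sum_div, div_le_iff₀ (by linarith)]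
    have e : ∑ j, (2 * cn * τ j * (m j + 1) + 2 * (1 + cv) * b * ℓ)
        = 2 * cn * (∑ j, τ j * m j + ∑ j, τ j) + K * (2 * (1 + cv) * b * ℓ) := by
      rw [sum_add_distrib, sum_const, card_univ, Fintype.card_fin, nsmul_eq_mul, ← sum_add_distrib,
        mul_sum]
      exact congrArg (· + _) (sum_congr rfl fun j _ => by ring)
    rw [e]
    have h1 := mul_le_mul_of_nonneg_left (add_le_add hmsum hτsum) (show 0 ≤ 2 * cn by linarith)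
    have h2 := mul_le_mul_of_nonneg_left hbω (show 0 ≤ (K:ℝ) * ℓ by positivity)
    have h3 := mul_le_mul_of_nonneg_left hK (show 0 ≤ ℓ by linarith)
    have : 0 ≤ cn * ℓ := by positivity
    have : 0 ≤ (K:ℝ) * ℓ * ω := by positivity
    linarith

/-- Few thresholds are exceeded at one point. -/
lemma card_le_of_tau {τ ℓ δ : ℝ} {K B m : ℕ} (hℓ : 0 < ℓ) (hδ : 0 < δ)
    (hτ : δ * ℓ / 2 ^ K ≤ τ) (hm : τ * m ≤ ℓ) (hB : (2:ℝ) ^ K / δ ≤ B) : m ≤ B := by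
  have h1 := (mul_le_mul_of_nonneg_right hτ (Nat.cast_nonneg m)).trans hm
  rw [div_mul_eq_mul_div, div_le_iff₀ (by positivity)] at h1
  rw [div_le_iff₀ hδ] at hB
  have h4 := mul_le_mul_of_nonneg_left hB hℓ.le
  have : δ * ℓ * (m:ℝ) ≤ δ * ℓ * (B:ℝ) := by linarith
  exact_mod_cast le_of_mul_le_mul_left this (by positivity)

/-- Skipping few levels costs little at high thresholds. -/
lemma hsmall_of {τ δ ℓ : ℝ} {m M K : ℕ} (hδ : 0 < δ) (hℓ : 0 < ℓ) (hm : m ≤ M)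
    (hτ : δ * ℓ / 2 ^ K ≤ τ) (hM : 3 * (M:ℝ) * 2 ^ (2 * M + 2) * 2 ^ K ≤ δ * ℓ) :
    (2:ℝ) ^ (2 * m + 2) * ((m : ℝ) * (3 / τ)) ≤ 1 := by
  have hτ0 : 0 < τ := lt_of_lt_of_le (by positivity) hτ
  have h1 : (2:ℝ) ^ (2 * m + 2) * ((m : ℝ) * (3 / τ))
      ≤ 2 ^ (2 * M + 2) * ((M:ℝ) * (3 / (δ * ℓ / 2 ^ K))) :=
    mul_le_mul (pow_le_pow_right₀ one_le_two (by omega))
      (mul_le_mul (Nat.cast_le.2 hm) (div_le_div_of_nonneg_left (by norm_num) (by positivity) hτ)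
        (by positivity) (Nat.cast_nonneg M)) (by positivity) (by positivity)
  refine h1.trans ?_
  rw [div_div_eq_mul_div, mul_div_assoc', mul_div_assoc', div_le_one (by positivity)]
  linarith

/-- Frames for the main part do not change the norm. -/
lemma nrm_main {p J : ℝ} (hp : 1 ≤ p) {K : ℕ} (hK : 0 < K) (N : ℕ) (φ : κ → ℝ)
    (ξ : Fin K → κ → ℝ) :
    nrm p (fun a : Fin K × (κ × Fin (2 * N + 1)) =>
      ((K:ℝ) ^ (1 / p))⁻¹ * (φ a.2.1 * frame p J N (ξ a.1 a.2.1) a.2.2)) = nrm p φ := by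
  have hp0 : 0 < p := by linarith
  have hKR : (0:ℝ) < K := by exact_mod_cast hK
  refine (Real.rpow_left_inj (nrm_nonneg _) (nrm_nonneg _) hp0.ne').1 ?_
  rw [nrm_groups hp hK (fun j (z : κ × Fin (2 * N + 1)) => φ z.1 * frame p J N (ξ j z.1) z.2)]
  simp only [nrm_tensor hp]
  rw [sum_const, card_univ, Fintype.card_fin, nsmul_eq_mul, ← mul_assoc,
    inv_mul_cancel₀ hKR.ne', one_mul]

/-- A vector near one of nearly the right norm. -/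
lemma approx_norm {β : Type*} [Fintype β] {p t a b : ℝ} (hp : 1 ≤ p) (G M : β → ℝ) (u w : κ → ℝ)
    (hM : nrm p M = nrm p u) (hw : nrm p w = t)
    (huw : nrm p (fun c => u c - w c) ≤ a) (he : nrm p (fun z => G z - M z) ≤ b) :
    nrm p G ≤ t + (a + b) ∧ t - (a + b) ≤ nrm p G := by
  have h1 := nrm_add hp M (fun z => G z - M z)
  have h2 := nrm_add hp G (fun z => M z - G z)
  rw [nrm_sub_comm M G] at h2
  have h3 := nrm_add hp w (fun c => u c - w c)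
  have h4 := nrm_add hp u (fun c => w c - u c)
  rw [nrm_sub_comm w u] at h4
  simp only [add_sub_cancel] at h1 h2 h3 h4
  constructor <;> linarith

/-- From a coordinate slope to a sensitivity. -/
lemma sens_of_slope {p Cb t top dd S c : ℝ} {K : ℕ} (hp : 1 ≤ p) (hK : 0 < K) (hCb : 0 ≤ Cb)
    (ht : 0 ≤ t) (htop : 0 ≤ top) (hc : 0 < c)
    (hd : |dd| ≤ Cb * t * top ^ (1 / p)) (hS : (c * t) ^ p ≤ S) :
    |((K:ℝ) ^ (1 / p))⁻¹ * dd| ^ p ≤ Cb ^ p / c ^ p * top / K * S := by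
  have hp0 : 0 < p := by linarith
  have hKR : (0:ℝ) < K := by exact_mod_cast hK
  rw [abs_mul, abs_of_nonneg (by positivity), Real.mul_rpow (by positivity) (abs_nonneg _),
    Real.inv_rpow (by positivity), ← Real.rpow_mul hKR.le, one_div_mul_cancel hp0.ne',
    Real.rpow_one]
  have h1 : |dd| ^ p ≤ Cb ^ p * t ^ p * top := by
    refine (Real.rpow_le_rpow (abs_nonneg _) hd hp0.le).trans_eq ?_
    rw [Real.mul_rpow (by positivity) (by positivity), Real.mul_rpow hCb ht,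
      ← Real.rpow_mul htop, one_div_mul_cancel hp0.ne', Real.rpow_one]
  refine le_trans (mul_le_mul_of_nonneg_left h1 (by positivity)) ?_
  refine le_trans (le_of_eq ?_) (mul_le_mul_of_nonneg_left hS (by positivity))
  rw [Real.mul_rpow hc.le ht]
  field_simp

variable [NeZero n] (C : Cfg n κ)

/-- Weighted count of the levels of large growth over all thresholds. -/
lemma sum_bad_tau {K : ℕ} {a : ℝ} (ha : ∀ j : Fin K, 1 ≤ a / 2 ^ (j:ℕ)) (ha0 : 0 ≤ a)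
    (x : Fin n) :
    ∑ j : Fin K, a / 2 ^ (j:ℕ) * (((C.withTau _ (ha j)).bad (C.v x)).card : ℝ)
      ≤ 2 * Real.log n := by
  have e : ∀ j : Fin K, a / 2 ^ (j:ℕ) * (((C.withTau _ (ha j)).bad (C.v x)).card : ℝ)
      = ∑ k ∈ range (C.L + 1),
        (if a / 2 ^ (j:ℕ) < C.gr k (C.v x) then a / 2 ^ (j:ℕ) else 0) := by
    intro j
    rw [← sum_filter, sum_const, nsmul_eq_mul, mul_comm]
    congr 3
  rw [sum_congr rfl fun j _ => e j, sum_comm]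
  refine (sum_le_sum fun k _ => ?_).trans
    ((mul_sum _ _ _).symm.trans_le
      (mul_le_mul_of_nonneg_left (C.sum_gr_le x (C.L + 1)) zero_le_two))
  rw [Fin.sum_univ_eq_sum_range (fun j => if a / 2 ^ j < C.gr k (C.v x) then a / 2 ^ j else 0) K]
  exact sum_dyadic_below K ha0 (C.gr_nonneg k _)

/-- The parameters of the thresholds. -/
def GoodParams (C : Cfg n κ) (K B : ℕ) (δ ω ℓ : ℝ) : Prop :=
  0 < K ∧ ℓ = Real.log n ∧ 1 ≤ ℓ ∧ 0 < δ ∧ δ ≤ 1 / 2 ∧ 0 ≤ ω ∧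
    (2:ℝ) ^ K / δ ≤ B ∧ (2:ℝ) ^ K ≤ δ * ℓ ∧
    3 * ((2 * B : ℕ) : ℝ) * 2 ^ (2 * (2 * B) + 2) * 2 ^ K ≤ δ * ℓ ∧
    24 * C.cn ≤ ω * K ∧ (2 * δ) ^ ((C.p - 1) / C.p) ≤ 1 ∧
    4 * (1 + C.cv) * (2 * δ) ^ ((C.p - 1) / C.p) ≤ ω ∧
    (Fintype.card κ : ℝ) * C.η ≤ 1

omit [Fintype κ] [NeZero n] in
lemma tau_facts {K : ℕ} {δ ℓ : ℝ} (hδ : 0 ≤ δ) (hℓ : 0 ≤ ℓ) (hlarge : (2:ℝ) ^ K ≤ δ * ℓ)
    (j : Fin K) :
    1 ≤ δ * ℓ / 2 ^ (j:ℕ) ∧ δ * ℓ / 2 ^ K ≤ δ * ℓ / 2 ^ (j:ℕ) ∧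
      δ * ℓ / 2 ^ (j:ℕ) ≤ δ * ℓ := by
  have hp2 : (2:ℝ) ^ (j:ℕ) ≤ 2 ^ K := pow_le_pow_right₀ one_le_two j.isLt.le
  refine ⟨?_, div_le_div_of_nonneg_left (by positivity) (by positivity) hp2,
    div_le_self (by positivity) (one_le_pow₀ one_le_two)⟩
  rw [le_div_iff₀ (by positivity)]
  linarith

variable {C}

lemma GoodParams.bad_le {K B : ℕ} {δ ω ℓ : ℝ} (h : GoodParams C K B δ ω ℓ)
    (ha : ∀ j : Fin K, 1 ≤ δ * ℓ / 2 ^ (j:ℕ)) (x : Fin n) (j : Fin K) :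
    ((C.withTau _ (ha j)).bad (C.v x)).card ≤ B := by
  obtain ⟨-, hℓ, hℓ1, hδ, -, -, hB, hlarge, -⟩ := h
  exact card_le_of_tau (by linarith) hδ (tau_facts hδ.le (by linarith) hlarge j).2.1
    (hℓ ▸ (C.withTau _ (ha j)).bad_card_le x) hB

lemma GoodParams.size_bound {K B : ℕ} {δ ω ℓ : ℝ} (h : GoodParams C K B δ ω ℓ)
    (ha : ∀ j : Fin K, 1 ≤ δ * ℓ / 2 ^ (j:ℕ)) (j : Fin K) :
    (C.withTau _ (ha j)).size ≤ 2 * (1 + C.cv) * (2 * δ) ^ ((C.p - 1) / C.p) * ℓ := by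
  obtain ⟨-, hℓ, hℓ1, hδ, -, -, -, hlarge, -, -, -, -, hη⟩ := h
  obtain ⟨h1, -, h3⟩ := tau_facts hδ.le (by linarith) hlarge j
  refine (C.withTau _ (ha j)).size_le hη hℓ hℓ1 hδ.le ?_
  show 1 + δ * ℓ / 2 ^ (j:ℕ) ≤ 2 * δ * ℓ
  linarith

lemma GoodParams.prof_bound {K B : ℕ} {δ ω ℓ : ℝ} (h : GoodParams C K B δ ω ℓ)
    (ha : ∀ j : Fin K, 1 ≤ δ * ℓ / 2 ^ (j:ℕ)) (hlog : 2 ≤ ℓ) (x : Fin n) (j : Fin K) :
    ∑ c, (C.withTau _ (ha j)).prof 0 (C.v x) c ≤ (1 + C.cv) * ℓ ^ C.p := by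
  obtain ⟨-, hℓ, hℓ1, hδ, hδh, -, -, hlarge, -, -, -, -, hη⟩ := h
  obtain ⟨h1, -, h3⟩ := tau_facts hδ.le (by linarith) hlarge j
  refine (C.withTau _ (ha j)).prof_total_le hη hℓ hℓ1 ?_ x
  show 1 + δ * ℓ / 2 ^ (j:ℕ) ≤ ℓ
  have := mul_le_mul_of_nonneg_right hδh (show 0 ≤ ℓ by linarith)
  linarith

/-- The error of the bundle on one pair. -/
lemma GoodParams.bundle_err {K B : ℕ} {δ ω ℓ : ℝ} (h : GoodParams C K B δ ω ℓ)
    (ha : ∀ j : Fin K, 1 ≤ δ * ℓ / 2 ^ (j:ℕ)) {γ : ℝ} (hγ : 0 < γ) (N T : ℕ) (hT : 0 < T)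
    (hgr : ∀ u, C.gr 0 (C.v u) ≤ 1 ∧ C.gr C.L (C.v u) ≤ 1)
    (x y : Fin n) {t : ℝ} (ht : nrm C.p (fun c => C.v x c - C.v y c) = t)
    (ht0 : C.rad 0 < t) (htL : t ≤ C.rad C.L) (hrT : C.rad C.L / T ≤ t / (δ * ℓ)) :
    nrm C.p (fun a : Fin K × (κ × Fin (2 * N + 1)) =>
        (dyadicBundle C (δ * ℓ) ha (γ * ℓ) N T (C.v x) a
          - dyadicBundle C (δ * ℓ) ha (γ * ℓ) N T (C.v y) a)
        - ((K:ℝ) ^ (1 / C.p))⁻¹ * (((C.bar 0 (C.v x) a.2.1 - C.bar 0 (C.v y) a.2.1)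
            - (C.bar C.L (C.v x) a.2.1 - C.bar C.L (C.v y) a.2.1))
          * frame C.p (γ * ℓ) N ((C.withTau _ (ha a.1)).ref 0 (C.v x) (C.v y) a.2.1) a.2.2))
      ≤ ((32 * C.cp / γ * (12 * C.cn + 2 * (1 + C.cv))) ^ (C.p - 1) * (32 * C.cp / γ) * ω)
          ^ (1 / C.p) * t := by
  have hh := h
  obtain ⟨hK, hℓ, hℓ1, hδ, hδh, hω, -, hlarge, hM, hKω, hb1, hbω, -⟩ := h
  have hcn : 0 ≤ C.cn := le_trans zero_le_one C.one_le_cn
  have hcv := C.cv_nonneg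
  have hchh : 1 ≤ C.chh := C.hp.trans C.p_le_chh
  have hcp : 0 ≤ C.cp := by unfold Cfg.cp; linarith
  have ht' : 0 ≤ t := ht ▸ nrm_nonneg _
  have hb : 0 ≤ (2 * δ) ^ ((C.p - 1) / C.p) := by positivity
  obtain ⟨τ, hτ⟩ : ∃ τ : Fin K → ℝ, ∀ j, τ j = δ * ℓ / 2 ^ (j:ℕ) := ⟨_, fun j => rfl⟩
  obtain ⟨m, hm⟩ : ∃ m : Fin K → ℕ, ∀ j, m j
      = ((C.withTau _ (ha j)).bad (C.v x)).card + ((C.withTau _ (ha j)).bad (C.v y)).card :=
    ⟨_, fun j => rfl⟩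
  have hmsum : ∑ j, τ j * (m j : ℝ) ≤ 4 * ℓ := by
    have hx := sum_bad_tau C ha (by positivity) x
    have hy := sum_bad_tau C ha (by positivity) y
    simp only [hτ, hm, Nat.cast_add, mul_add, sum_add_distrib]
    linarith
  have hτsum : ∑ j, τ j ≤ ℓ := by
    simp only [hτ]
    have := mul_le_mul_of_nonneg_right hδh (show 0 ≤ ℓ by linarith)
    linarith [sum_tau_le K (show 0 ≤ δ * ℓ by positivity)]
  have hτ0 : ∀ j, 0 ≤ τ j := fun j => by rw [hτ]; positivity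
  obtain ⟨hZU, hZs⟩ := z_bounds τ (fun j => (m j : ℝ)) hcn hcv hb hb1 hℓ1 hτ0
    (fun j => Nat.cast_nonneg _) hτsum hmsum hKω hbω hω
  refine le_trans (le_of_eq (congrArg _ (funext fun a => ?_)))
    (nrm_bundle_err C.hp hK
      (fun j z => (C.withTau _ (ha j)).avgMap (γ * ℓ) N T (C.v x) z
        - (C.withTau _ (ha j)).avgMap (γ * ℓ) N T (C.v y) z
        - ((C.bar 0 (C.v x) z.1 - C.bar 0 (C.v y) z.1)
            - (C.bar C.L (C.v x) z.1 - C.bar C.L (C.v y) z.1))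
          * frame C.p (γ * ℓ) N ((C.withTau _ (ha j)).ref 0 (C.v x) (C.v y) z.1) z.2)
      (fun j => (2 * C.cn * τ j * ((m j : ℝ) + 1)
          + 2 * (1 + C.cv) * (2 * δ) ^ ((C.p - 1) / C.p) * ℓ) / ℓ)
      (by positivity) (by positivity) ht' hω
      (fun j => by have := hτ0 j; positivity)
      (fun j => mul_le_mul_of_nonneg_left (hZU j) (by positivity)) hZs fun j => ?_)
  · unfold dyadicBundle bundle; ring
  · obtain ⟨h1, h2, h3⟩ := tau_facts hδ.le (by linarith) hlarge j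
    have hmB : m j ≤ 2 * B := by
      rw [hm]; have := hh.bad_le ha x j; have := hh.bad_le ha y j; omega
    have hrj : C.rad C.L / T ≤ t / (δ * ℓ / 2 ^ (j:ℕ)) :=
      hrT.trans (div_le_div_of_nonneg_left ht' (by linarith) h3)
    refine le_trans ((C.withTau _ (ha j)).err_le (by positivity) N T hT x y
      ⟨(hgr x).1.trans h1, (hgr x).2.trans h1⟩ ⟨(hgr y).1.trans h1, (hgr y).2.trans h1⟩
      ht ht0 htL hrj (hm j).ge (hsmall_of hδ (by linarith) hmB h2 hM)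
      (Z := 2 * C.cn * τ j * ((m j : ℝ) + 1)
          + 2 * (1 + C.cv) * (2 * δ) ^ ((C.p - 1) / C.p) * ℓ) ?_) ?_
    · rw [hτ]
      exact add_le_add le_rfl (hh.size_bound ha j)
    · show 32 * C.cp / (γ * ℓ) * _ * t ≤ _
      exact le_of_eq (by field_simp)

/-- The norm of the bundle on one pair. -/
lemma GoodParams.bundle_norm {K B : ℕ} {δ ω ℓ : ℝ} (h : GoodParams C K B δ ω ℓ)
    (ha : ∀ j : Fin K, 1 ≤ δ * ℓ / 2 ^ (j:ℕ)) {γ : ℝ} (hγ : 0 < γ) (N T : ℕ)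
    (hT : 0 < T) (hgr : ∀ u, C.gr 0 (C.v u) ≤ 1 ∧ C.gr C.L (C.v u) ≤ 1)
    (x y : Fin n) {t θ ε : ℝ} (ht : nrm C.p (fun c => C.v x c - C.v y c) = t)
    (ht0 : C.rad 0 < t) (htL : t ≤ C.rad C.L) (hrT : C.rad C.L / T ≤ t / (δ * ℓ))
    (hend : nrm C.p (fun c => ((C.bar 0 (C.v x) c - C.bar 0 (C.v y) c)
        - (C.bar C.L (C.v x) c - C.bar C.L (C.v y) c)) - (C.v x c - C.v y c)) ≤ θ * t)
    (hθ : θ + ((32 * C.cp / γ * (12 * C.cn + 2 * (1 + C.cv))) ^ (C.p - 1) * (32 * C.cp / γ) * ω)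
      ^ (1 / C.p) ≤ ε) :
    nrm C.p (fun a => dyadicBundle C (δ * ℓ) ha (γ * ℓ) N T (C.v x) a
          - dyadicBundle C (δ * ℓ) ha (γ * ℓ) N T (C.v y) a) ≤ (1 + ε) * t ∧
      (1 - ε) * t ≤ nrm C.p (fun a => dyadicBundle C (δ * ℓ) ha (γ * ℓ) N T (C.v x) a
          - dyadicBundle C (δ * ℓ) ha (γ * ℓ) N T (C.v y) a) := by
  have ht' : 0 ≤ t := ht ▸ nrm_nonneg _
  have h3 := mul_le_mul_of_nonneg_right hθ ht'
  have he := h.bundle_err ha hγ N T hT hgr x y ht ht0 htL hrT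
  have hm := nrm_main (J := γ * ℓ) C.hp h.1 N
    (fun c => (C.bar 0 (C.v x) c - C.bar 0 (C.v y) c)
      - (C.bar C.L (C.v x) c - C.bar C.L (C.v y) c))
    (fun j c => (C.withTau _ (ha j)).ref 0 (C.v x) (C.v y) c)
  beta_reduce at hm
  obtain ⟨h1, h2⟩ := approx_norm C.hp
    (fun a : Fin K × (κ × Fin (2 * N + 1)) => dyadicBundle C (δ * ℓ) ha (γ * ℓ) N T (C.v x) a
          - dyadicBundle C (δ * ℓ) ha (γ * ℓ) N T (C.v y) a)
    (fun a : Fin K × (κ × Fin (2 * N + 1)) =>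
      ((K:ℝ) ^ (1 / C.p))⁻¹ * (((C.bar 0 (C.v x) a.2.1 - C.bar 0 (C.v y) a.2.1)
            - (C.bar C.L (C.v x) a.2.1 - C.bar C.L (C.v y) a.2.1))
          * frame C.p (γ * ℓ) N ((C.withTau _ (ha a.1)).ref 0 (C.v x) (C.v y) a.2.1) a.2.2))
    (fun c => (C.bar 0 (C.v x) c - C.bar 0 (C.v y) c)
      - (C.bar C.L (C.v x) c - C.bar C.L (C.v y) c))
    (fun c => C.v x c - C.v y c) hm ht hend he
  constructor <;> linarith

/-- The map of the bundle on one pair: coordinate slopes. -/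
lemma GoodParams.bundle_slope {K B : ℕ} {δ ω ℓ : ℝ} (h : GoodParams C K B δ ω ℓ)
    (ha : ∀ j : Fin K, 1 ≤ δ * ℓ / 2 ^ (j:ℕ)) {γ : ℝ} (hJ : 1 ≤ γ * ℓ) (N T : ℕ)
    (hT : 0 < T) (hgr : ∀ u, C.gr 0 (C.v u) ≤ 1 ∧ C.gr C.L (C.v u) ≤ 1)
    (hN : ∀ (j : Fin K) u i k c, i ≤ C.L → k ≤ C.L →
      |(C.withTau _ (ha j)).wfun i k (C.v u) c| ≤ γ * ℓ * N)
    (x y : Fin n) {t : ℝ} (ht : nrm C.p (fun c => C.v x c - C.v y c) = t)
    (ht0 : C.rad 0 < t) (htL : t ≤ C.rad C.L) (hrT : C.rad C.L / T ≤ t / (δ * ℓ)) :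
    ∀ (j : Fin K) (z : κ × Fin (2 * N + 1)),
      |(C.withTau _ (ha j)).avgMap (γ * ℓ) N T (C.v x) z
          - (C.withTau _ (ha j)).avgMap (γ * ℓ) N T (C.v y) z|
        ≤ (4 + C.chc * (((2 * B : ℕ) : ℝ) + 1) + 12 * ((2 * B : ℕ) : ℝ)) * t
          * Cfg.top (γ * ℓ) N z.2 ^ (1 / C.p) := by
  have ht' : 0 ≤ t := ht ▸ nrm_nonneg _
  intro j z
  obtain ⟨-, -, hℓ1, hδ, -, -, -, hlarge, -⟩ := id h
  obtain ⟨h1, -, h3⟩ := tau_facts hδ.le (by linarith) hlarge j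
  have hrj : C.rad C.L / T ≤ t / (δ * ℓ / 2 ^ (j:ℕ)) :=
    hrT.trans (div_le_div_of_nonneg_left ht' (by linarith) h3)
  have hbad : ((C.withTau _ (ha j)).bad (C.v x)).card + ((C.withTau _ (ha j)).bad (C.v y)).card
      ≤ 2 * B := by
    have := h.bad_le ha x j; have := h.bad_le ha y j; omega
  exact (C.withTau _ (ha j)).slope_le hJ N T hT x y
      ⟨(hgr x).1.trans h1, (hgr x).2.trans h1⟩ ⟨(hgr y).1.trans h1, (hgr y).2.trans h1⟩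
      ht ht0 htL hrj hbad z
      (fun u i k hi hk => hN j u i k z.1 hi hk)

/-- The active weight of one point in the bundle. -/
lemma GoodParams.bundle_active {K B : ℕ} {δ ω ℓ : ℝ} (h : GoodParams C K B δ ω ℓ)
    (ha : ∀ j : Fin K, 1 ≤ δ * ℓ / 2 ^ (j:ℕ)) (hlog : 2 ≤ ℓ) {γ : ℝ} (hJ : 1 ≤ γ * ℓ) (N T : ℕ)
    (hgr : ∀ u, C.gr 0 (C.v u) ≤ 1 ∧ C.gr C.L (C.v u) ≤ 1)
    (hN : ∀ (j : Fin K) u i k c, i ≤ C.L → k ≤ C.L →
      |(C.withTau _ (ha j)).wfun i k (C.v u) c| ≤ γ * ℓ * N)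
    {w : ℝ} (hw : 0 ≤ w) (x : Fin n) :
    ∑ a : Fin K × (κ × Fin (2 * N + 1)),
        (if dyadicBundle C (δ * ℓ) ha (γ * ℓ) N T (C.v x) a = 0 then 0
          else w * Cfg.top (γ * ℓ) N a.2.2 / K)
      ≤ w * (4 * (2:ℝ) ^ (2 * C.p * B + C.p) * (1 + C.cv)) * ((n:ℝ) ^ (2 * γ) * ℓ ^ C.p) := by
  obtain ⟨hK, hℓ, hℓ1, hδ, -, -, -, hlarge, -⟩ := id h
  have hKR : (0:ℝ) < K := by exact_mod_cast hK
  have hn : (0:ℝ) < n := by exact_mod_cast Nat.pos_of_ne_zero (NeZero.ne n)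
  have hexp : (n:ℝ) ^ (2 * γ) = Real.exp (2 * (γ * ℓ)) := by
    rw [Real.rpow_def_of_pos hn, ← hℓ]; ring_nf
  have hinner : ∀ (j : Fin K) c, ∑ s, (if dyadicBundle C (δ * ℓ) ha (γ * ℓ) N T (C.v x) (j, (c, s))
        = 0 then 0 else w * Cfg.top (γ * ℓ) N s / K)
      ≤ w / K * (2 * (Real.exp (2 * (γ * ℓ)) * (2 * (2:ℝ) ^ (2 * C.p * B + C.p)
          * (C.withTau _ (ha j)).prof 0 (C.v x) c))) := by
    intro j c
    obtain ⟨h1, -, -⟩ := tau_facts hδ.le (by linarith) hlarge j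
    refine le_trans (le_of_eq ?_) (mul_le_mul_of_nonneg_left
      ((C.withTau _ (ha j)).active_sum_le hJ N T x ⟨(hgr x).1.trans h1, (hgr x).2.trans h1⟩
        (h.bad_le ha x j) c (fun i k hi hk => hN j x i k c hi hk)) (by positivity))
    rw [mul_sum]
    refine sum_congr rfl fun s _ => ?_
    have hσ : ((K:ℝ) ^ (1 / C.p))⁻¹ ≠ 0 := by positivity
    have hzero : dyadicBundle C (δ * ℓ) ha (γ * ℓ) N T (C.v x) (j, (c, s)) = 0
        ↔ (C.withTau _ (ha j)).avgMap (γ * ℓ) N T (C.v x) (c, s) = 0 := by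
      unfold dyadicBundle bundle
      simp only [mul_eq_zero, hσ, false_or]
    show _ = w / K * (if (C.withTau _ (ha j)).avgMap (γ * ℓ) N T (C.v x) (c, s) = 0 then 0
      else Cfg.top (γ * ℓ) N s)
    by_cases hz : (C.withTau _ (ha j)).avgMap (γ * ℓ) N T (C.v x) (c, s) = 0
    · rw [if_pos (hzero.2 hz), if_pos hz, mul_zero]
    · rw [if_neg (mt hzero.1 hz), if_neg hz]; ring
  rw [hexp, Fintype.sum_prod_type]
  have hstep : ∀ j : Fin K, ∑ z : κ × Fin (2 * N + 1),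
      (if dyadicBundle C (δ * ℓ) ha (γ * ℓ) N T (C.v x) (j, z) = 0 then 0
        else w * Cfg.top (γ * ℓ) N z.2 / K)
      ≤ w / K * (2 * (Real.exp (2 * (γ * ℓ)) * (2 * (2:ℝ) ^ (2 * C.p * B + C.p)
          * ((1 + C.cv) * ℓ ^ C.p)))) := by
    intro j
    rw [Fintype.sum_prod_type]
    refine (sum_le_sum fun c _ => hinner j c).trans ?_
    simp only [← mul_sum]
    have := h.prof_bound ha hlog x j
    gcongr
  refine (sum_le_sum fun j _ => hstep j).trans_eq ?_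
  rw [sum_const, card_univ, Fintype.card_fin, nsmul_eq_mul]
  field_simp
  ring

/-- The weights, the map and its properties for one configuration. -/
lemma GoodParams.bundle_window {K B : ℕ} {δ ω ℓ : ℝ} (h : GoodParams C K B δ ω ℓ)
    (ha : ∀ j : Fin K, 1 ≤ δ * ℓ / 2 ^ (j:ℕ)) (hlog : 2 ≤ ℓ) {γ : ℝ} (hγ : 0 < γ)
    (hJ : 1 ≤ γ * ℓ) (N T : ℕ) (hT : 0 < T)
    (hgr : ∀ u, C.gr 0 (C.v u) ≤ 1 ∧ C.gr C.L (C.v u) ≤ 1)
    (hN : ∀ (j : Fin K) u i k c, i ≤ C.L → k ≤ C.L →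
      |(C.withTau _ (ha j)).wfun i k (C.v u) c| ≤ γ * ℓ * N)
    {θ ε : ℝ} (hε1 : ε < 1) (hε0 : 0 ≤ ε)
    (hscale : ∀ x y, 0 < nrm C.p (fun c => C.v x c - C.v y c) →
      C.rad 0 < nrm C.p (fun c => C.v x c - C.v y c) ∧
      nrm C.p (fun c => C.v x c - C.v y c) ≤ C.rad C.L ∧
      C.rad C.L / T ≤ nrm C.p (fun c => C.v x c - C.v y c) / (δ * ℓ) ∧
      nrm C.p (fun c => ((C.bar 0 (C.v x) c - C.bar 0 (C.v y) c)
          - (C.bar C.L (C.v x) c - C.bar C.L (C.v y) c)) - (C.v x c - C.v y c))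
        ≤ θ * nrm C.p (fun c => C.v x c - C.v y c))
    (hθ : θ + ((32 * C.cp / γ * (12 * C.cn + 2 * (1 + C.cv))) ^ (C.p - 1) * (32 * C.cp / γ) * ω)
      ^ (1 / C.p) ≤ ε)
    {w : ℝ} (hw : w = (4 + C.chc * (((2 * B : ℕ) : ℝ) + 1) + 12 * ((2 * B : ℕ) : ℝ)) ^ C.p
      / (1 - ε) ^ C.p) :
    ∃ (G : Fin n → Fin K × (κ × Fin (2 * N + 1)) → ℝ)
      (π : Fin K × (κ × Fin (2 * N + 1)) → ℝ),
      (∀ a, 0 ≤ π a) ∧
      (∀ i j a, |G i a - G j a| ^ C.p ≤ π a * ∑ e, |G i e - G j e| ^ C.p) ∧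
      (∀ i, ∑ a, (if G i a = 0 then 0 else π a)
        ≤ w * (4 * (2:ℝ) ^ (2 * C.p * B + C.p) * (1 + C.cv)) * ((n:ℝ) ^ (2 * γ) * ℓ ^ C.p)) ∧
      ∀ i j, (1 - ε) ^ C.p * ∑ c, |C.v i c - C.v j c| ^ C.p
            ≤ ∑ a, |G i a - G j a| ^ C.p ∧
          ∑ a, |G i a - G j a| ^ C.p ≤ (1 + ε) ^ C.p * ∑ c, |C.v i c - C.v j c| ^ C.p := by
  have hp := C.hp
  have hp0 : 0 < C.p := by linarith
  have h1ε : 0 < 1 - ε := by linarith
  have hchh : 1 ≤ C.chh := hp.trans C.p_le_chh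
  have hchc : 0 ≤ C.chc := by unfold Cfg.chc; positivity
  have hw0 : 0 ≤ w := by rw [hw]; positivity
  have heq : ∀ i j, nrm C.p (fun c => C.v i c - C.v j c) = 0 → C.v i = C.v j := fun i j e =>
    funext fun c => sub_eq_zero.1 (nrm_eq_zero hp e c)
  refine ⟨fun u => dyadicBundle C (δ * ℓ) ha (γ * ℓ) N T (C.v u),
    fun a => w * Cfg.top (γ * ℓ) N a.2.2 / K,
    fun a => by have : 0 < Cfg.top (γ * ℓ) N a.2.2 := Real.exp_pos _
                positivity,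
    fun x y a => ?_, h.bundle_active ha hlog hJ N T hgr hN hw0, fun x y => ?_⟩
  · rcases (show 0 ≤ nrm C.p (fun c => C.v x c - C.v y c) from nrm_nonneg _).eq_or_lt' with e | e
    · dsimp only
      rw [heq x y e, sub_self, abs_zero, Real.zero_rpow hp0.ne']
      refine mul_nonneg ?_ (sum_nonneg fun e _ => Real.rpow_nonneg (abs_nonneg _) _)
      have : 0 < Cfg.top (γ * ℓ) N a.2.2 := Real.exp_pos _
      positivity
    · obtain ⟨s0, sL, sT, se⟩ := hscale x y e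
      obtain ⟨-, hlo⟩ := h.bundle_norm ha hγ N T hT hgr x y rfl s0 sL sT se hθ
      have hsl := h.bundle_slope ha hJ N T hT hgr hN x y rfl s0 sL sT
      have hd : dyadicBundle C (δ * ℓ) ha (γ * ℓ) N T (C.v x) a
          - dyadicBundle C (δ * ℓ) ha (γ * ℓ) N T (C.v y) a
          = ((K:ℝ) ^ (1 / C.p))⁻¹ * ((C.withTau _ (ha a.1)).avgMap (γ * ℓ) N T (C.v x) a.2
            - (C.withTau _ (ha a.1)).avgMap (γ * ℓ) N T (C.v y) a.2) := by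
        unfold dyadicBundle bundle; ring
      dsimp only
      rw [hd, hw]
      refine sens_of_slope hp h.1 (by positivity) e.le (Real.exp_pos _).le h1ε (hsl a.1 a.2) ?_
      rw [← nrm_rpow hp]
      exact Real.rpow_le_rpow (by positivity) hlo hp0.le
  · dsimp only
    rw [← nrm_rpow hp (fun c => C.v x c - C.v y c), ← nrm_rpow hp]
    rcases (show 0 ≤ nrm C.p (fun c => C.v x c - C.v y c) from nrm_nonneg _).eq_or_lt' with e | e
    · rw [e, heq x y e]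
      simp only [sub_self, nrm_zero hp, Real.zero_rpow hp0.ne', mul_zero, le_refl, and_self]
    · obtain ⟨s0, sL, sT, se⟩ := hscale x y e
      obtain ⟨hup, hlo⟩ := h.bundle_norm ha hγ N T hT hgr x y rfl s0 sL sT se hθ
      rw [← Real.mul_rpow h1ε.le (nrm_nonneg _), ← Real.mul_rpow (by linarith) (nrm_nonneg _)]
      exact ⟨Real.rpow_le_rpow (by positivity) hlo hp0.le,
        Real.rpow_le_rpow (nrm_nonneg _) hup hp0.le⟩

/-- The map into windows, for large `n`. -/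
theorem window_embedding {p : ℝ} (hp : 1 < p) {γ : ℝ} (hγ : 0 < γ) {ε : ℝ} (hε : 0 < ε)
    (hε1 : ε ≤ 1 / 2) :
    ∃ (ℓ₀ C : ℝ), 1 ≤ ℓ₀ ∧ 0 < C ∧ ∀ (ι : Type) [Fintype ι] (n : ℕ), 2 ≤ n → ℓ₀ ≤ Real.log n →
      ∀ v : Fin n → ι → ℝ, ∃ (α : Type) (_ : Fintype α) (G : Fin n → α → ℝ) (π : α → ℝ),
        (∀ a, 0 ≤ π a) ∧
        (∀ i j a, |G i a - G j a| ^ p ≤ π a * ∑ e, |G i e - G j e| ^ p) ∧
        (∀ i, ∑ a, (if G i a = 0 then 0 else π a)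
          ≤ C * ((n:ℝ) ^ (2 * γ) * Real.log n ^ p)) ∧
        ∀ i j, (1 - ε) ^ p * ∑ c, |v i c - v j c| ^ p ≤ ∑ a, |G i a - G j a| ^ p ∧
          ∑ a, |G i a - G j a| ^ p ≤ (1 + ε) ^ p * ∑ c, |v i c - v j c| ^ p := by
  obtain ⟨C₀, hC₀⟩ : ∃ C₀ : Cfg 1 (Fin 0),
      C₀ = ⟨fun _ _ => 0, p, 1, 1, 1, 0, hp.le, one_pos, le_rfl, one_pos⟩ := ⟨_, rfl⟩
  have hp0 : 0 < p := by linarith
  have hcn := C₀.one_le_cn
  have hcv := C₀.cv_nonneg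
  have hchh : 1 ≤ C₀.chh := C₀.hp.trans C₀.p_le_chh
  have hcp : 0 < C₀.cp := by unfold Cfg.cp; linarith
  have hchc : 0 ≤ C₀.chc := by unfold Cfg.chc; positivity
  obtain ⟨K, δ, ω, hK, hδ, hδh, hω, hU, hKω, hb1, hbω⟩ :=
    exists_params (A := 32 * C₀.cp / γ) hp (half_pos hε) (by positivity) hcn hcv
  obtain ⟨B, hB⟩ := exists_nat_ge ((2:ℝ) ^ K / δ)
  have h1ε : 0 < 1 - ε := by linarith
  refine ⟨max (max 2 (1 / γ)) (max ((2:ℝ) ^ K / δ)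
      (3 * ((2 * B : ℕ) : ℝ) * 2 ^ (2 * (2 * B) + 2) * 2 ^ K / δ)),
    (4 + C₀.chc * (((2 * B : ℕ) : ℝ) + 1) + 12 * ((2 * B : ℕ) : ℝ)) ^ p / (1 - ε) ^ p
      * (4 * (2:ℝ) ^ (2 * p * B + p) * (1 + C₀.cv)),
    le_trans (le_trans one_le_two (le_max_left _ _)) (le_max_left _ _), by positivity, ?_⟩
  intro ι _ n hn hℓ v
  have : NeZero n := ⟨by omega⟩
  obtain ⟨⟨hlog, hℓγ⟩, hℓK, hℓM⟩ := (max_le_iff.1 hℓ).imp max_le_iff.1 max_le_iff.1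
  rw [div_le_iff₀ hγ] at hℓγ
  rw [div_le_iff₀ hδ] at hℓK hℓM
  obtain ⟨r₀, L, T, hr₀, hT, hsc⟩ := exists_scales (κ := ι) hp hn v
    (θ := ε / 8) (τm := Real.log n) (by positivity) (by linarith) (by linarith)
  have hlarge : (2:ℝ) ^ K ≤ δ * Real.log n := by linarith
  have ha : ∀ j : Fin K, 1 ≤ δ * Real.log n / 2 ^ (j:ℕ) := fun j =>
    (tau_facts hδ.le (by linarith) hlarge j).1
  have ha1 : 1 ≤ δ * Real.log n := le_trans (one_le_pow₀ one_le_two) hlarge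
  obtain ⟨C, hC⟩ : ∃ C : Cfg n ι, C = ⟨v, p, r₀, δ * Real.log n,
      1 / ((Fintype.card ι : ℝ) + 1), L, hp.le, hr₀, ha1, by positivity⟩ := ⟨_, rfl⟩
  have hτm : C.τ ≤ Real.log n := by
    rw [hC]; exact mul_le_of_le_one_left (by linarith) (by linarith)
  have hCv : C.v = v := by rw [hC]
  have hCp : C.p = p := by rw [hC]
  have hCL : C.L = L := by rw [hC]
  have hCτ : C.τ = δ * Real.log n := by rw [hC]
  obtain ⟨hgr, hscale⟩ := hsc C hCv hCp (by rw [hC]) hCL hτm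
  have hcn' : C.cn = C₀.cn := by rw [hC, hC₀]; rfl
  have hcv' : C.cv = C₀.cv := by rw [hC, hC₀]; rfl
  have hcp' : C.cp = C₀.cp := by rw [hC, hC₀]; rfl
  have hchc' : C.chc = C₀.chc := by rw [hC, hC₀]; rfl
  have hη : (Fintype.card ι : ℝ) * C.η ≤ 1 := by
    rw [hC]
    show (Fintype.card ι : ℝ) * (1 / ((Fintype.card ι : ℝ) + 1)) ≤ 1
    rw [mul_one_div, div_le_one (by positivity)]
    linarith
  subst hCv hCp hCL
  have h : GoodParams C K B δ ω (Real.log n) :=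
    ⟨hK, rfl, by linarith, hδ, hδh, hω.le, hB, hlarge, by linarith, by rw [hcn']; exact hKω,
      hb1, by rw [hcv']; exact hbω, hη⟩
  choose N₀ hN₀ using fun j : Fin K =>
    (C.withTau _ (ha j)).wfun_range_exists (J := γ * Real.log n) (by linarith)
  obtain ⟨G, π, h1, h2, h3, h4⟩ := h.bundle_window ha hlog hγ (by linarith) (∑ j, N₀ j) T hT hgr
    (fun j u i k c hi hk => hN₀ j _ (single_le_sum (f := N₀) (fun _ _ => Nat.zero_le _)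
      (mem_univ j)) u i k c hi hk)
    (θ := 4 * (ε / 8)) (ε := ε) (by linarith) hε.le
    (fun x y e => by
      obtain ⟨s0, sL, sT, se⟩ := hscale x y e
      exact ⟨s0, sL, hCτ ▸ sT, se⟩)
    (by rw [hcn', hcv', hcp']; linarith) rfl
  refine ⟨_, inferInstance, G, π, h1, h2, fun i => (h3 i).trans_eq ?_, h4⟩
  rw [hcv', hchc']

end Vale.Agent.P249.Sharp
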