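import Mathlib
import Vale.Agent.P249.Sampling

/-!
Linear compression of vectors whose active atoms carry little sensitivity: sampling by the
sensitivities, followed by hashing along the graphs of polynomials over a prime field.
-/

namespace Vale.Agent.P249.Sharp

open Finset

/-- A family of `N` codewords in `(ZMod q)^q`, two of which agree in fewer than `dg` places. -/
lemma exists_code (q dg N : ℕ) [Fact q.Prime] (hN : N ≤ q ^ dg) :
    ∃ h : Fin N → ZMod q → ZMod q, ∀ a b, a ≠ b →
      (univ.filter fun e => h a e = h b e).card ≤ dg := by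
  classical
  obtain ⟨E⟩ := Function.Embedding.nonempty_of_card_le (α := Fin N) (β := Fin dg → ZMod q)
    (by simpa [ZMod.card] using hN)
  set P : Fin N → Polynomial (ZMod q) := fun a =>
    ∑ i : Fin dg, Polynomial.C (E a i) * Polynomial.X ^ (i:ℕ) with hP
  have hcoeff : ∀ a (i : Fin dg), (P a).coeff i = E a i := by
    intro a i
    simp only [hP, Polynomial.finsetSum_coeff, Polynomial.coeff_C_mul_X_pow, Fin.val_inj,
      Finset.sum_ite_eq, mem_univ, if_true]
  have hdeg : ∀ a, (P a).natDegree ≤ dg := fun a =>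
    Polynomial.natDegree_sum_le_of_forall_le _ _ fun i _ =>
      (Polynomial.natDegree_C_mul_X_pow_le _ _).trans i.isLt.le
  refine ⟨fun a e => (P a).eval e, fun a b hab => ?_⟩
  have hne : P a - P b ≠ 0 := by
    intro h
    refine hab (E.injective (funext fun i => ?_))
    rw [← hcoeff a i, ← hcoeff b i, sub_eq_zero.1 h]
  calc (univ.filter fun e => (P a).eval e = (P b).eval e).card
      ≤ (P a - P b).roots.toFinset.card := by
        refine card_le_card fun e he => ?_
        rw [Multiset.mem_toFinset, Polynomial.mem_roots hne, Polynomial.IsRoot.def,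
          Polynomial.eval_sub, sub_eq_zero]
        exact (mem_filter.1 he).2
    _ ≤ Multiset.card (P a - P b).roots := Multiset.toFinset_card_le _
    _ ≤ (P a - P b).natDegree := Polynomial.card_roots' _
    _ ≤ dg := (Polynomial.natDegree_sub_le _ _).trans (max_le (hdeg a) (hdeg b))

/-- Hashing of sparse vectors. -/
lemma hash_sparse {n N : ℕ} {p : ℝ} (hp : 1 ≤ p) (H : Fin n → Fin N → ℝ) (K : ℕ)
    (hK : ∀ i, (univ.filter fun a => H i a ≠ 0).card ≤ K) {ε : ℝ} (q dg : ℕ)
    [Fact q.Prime] (hN : N ≤ q ^ dg) (hq : (2 * (K:ℝ)) ^ (p + 1) * dg ≤ ε * q) {d : ℕ}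
    (hd : q * q ≤ d) :
    ∃ f : Fin n → Fin d → ℝ, ∀ i j,
      (1 - ε) * ∑ a, |H i a - H j a| ^ p ≤ ∑ b, |f i b - f j b| ^ p ∧
      ∑ b, |f i b - f j b| ^ p ≤ (1 + ε) * ∑ a, |H i a - H j a| ^ p := by
  classical
  have hp0 : 0 < p := by linarith
  obtain ⟨h, hh⟩ := exists_code q dg N hN
  have hq0 : (0:ℝ) < q := by exact_mod_cast (Fact.out : q.Prime).pos
  set σ : ℝ := ((q:ℝ) ^ (1 / p))⁻¹ with hσ
  have hσp : σ ^ p = (q:ℝ)⁻¹ := by
    rw [hσ, Real.inv_rpow (by positivity), ← Real.rpow_mul hq0.le, one_div_mul_cancel hp0.ne',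
      Real.rpow_one]
  have hσ0 : 0 ≤ σ := by positivity
  set g : Fin n → ZMod q × ZMod q → ℝ := fun i z =>
    σ * ∑ a ∈ univ.filter (fun a => h a z.1 = z.2), H i a with hg
  obtain ⟨Em⟩ := Function.Embedding.nonempty_of_card_le (α := ZMod q × ZMod q) (β := Fin d)
    (by simpa [ZMod.card] using hd)
  refine ⟨fun i => Function.extend Em (g i) 0, fun i j => ?_⟩
  have hsum : ∑ b, |Function.extend Em (g i) 0 b - Function.extend Em (g j) 0 b| ^ p
      = ∑ z, |g i z - g j z| ^ p := by
    rw [← sum_subset (subset_univ (univ.map Em)), sum_map]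
    · exact sum_congr rfl fun z _ => by simp only [Em.injective.extend_apply]
    · intro b _ hb
      have : ¬ ∃ z, Em z = b := fun ⟨z, hz⟩ => hb (mem_map.2 ⟨z, mem_univ _, hz⟩)
      simp [Function.extend_apply' _ _ _ this, Real.zero_rpow hp0.ne']
  rw [hsum]
  set Δ : Fin N → ℝ := fun a => H i a - H j a with hΔ
  set U := univ.filter (fun a => Δ a ≠ 0) with hU
  have hU2 : (U.card : ℝ) ≤ 2 * K := by
    have h1 : U.card ≤ (univ.filter fun a => H i a ≠ 0).card
        + (univ.filter fun a => H j a ≠ 0).card := by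
      refine le_trans (card_le_card fun a ha => ?_) (card_union_le _ _)
      simp only [hU, mem_filter, mem_univ, true_and, mem_union, hΔ] at ha ⊢
      by_contra hc
      push Not at hc
      exact ha (by rw [hc.1, hc.2, sub_zero])
    have := hK i
    have := hK j
    exact_mod_cast (show U.card ≤ 2 * K by omega)
  set Sz : ZMod q × ZMod q → Finset (Fin N) := fun z => U.filter (fun a => h a z.1 = z.2) with hSz
  have hdiff : ∀ z, |g i z - g j z| ^ p = (q:ℝ)⁻¹ * |∑ a ∈ Sz z, Δ a| ^ p := by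
    intro z
    rw [hg]
    simp only [← mul_sub, ← sum_sub_distrib, abs_mul, abs_of_nonneg hσ0]
    rw [Real.mul_rpow hσ0 (abs_nonneg _), hσp]
    congr 3
    refine (sum_subset (fun a ha => ?_) fun a ha ha' => ?_).symm
    · exact mem_filter.2 ⟨mem_univ _, (mem_filter.1 ha).2⟩
    · simp only [hSz, hU, mem_filter, mem_univ, true_and, not_and'] at ha ha'
      exact not_not.1 (ha' ha)
  set bad : Fin N → ZMod q → Prop := fun a e => ∃ a' ∈ U, a' ≠ a ∧ h a' e = h a e with hbad
  have hterm : ∀ z, |(|∑ a ∈ Sz z, Δ a| ^ p) - ∑ a ∈ Sz z, |Δ a| ^ p|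
      ≤ (2 * (K:ℝ)) ^ p * ∑ a ∈ Sz z, (if bad a z.1 then |Δ a| ^ p else 0) := by
    intro z
    have hn : ∀ a, 0 ≤ if bad a z.1 then |Δ a| ^ p else 0 := fun a => by
      split_ifs <;> [exact Real.rpow_nonneg (abs_nonneg _) p; exact le_rfl]
    rcases (Sz z).card.lt_or_ge 2 with hc | hc
    · have e0 : (|∑ a ∈ Sz z, Δ a| ^ p) - ∑ a ∈ Sz z, |Δ a| ^ p = 0 := by
        rcases Nat.lt_or_ge (Sz z).card 1 with h1 | h1
        · simp [card_eq_zero.1 (show (Sz z).card = 0 by omega), Real.zero_rpow hp0.ne']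
        · obtain ⟨a, ha⟩ := card_eq_one.1 (show (Sz z).card = 1 by omega)
          simp [ha]
      rw [e0, abs_zero]
      exact mul_nonneg (by positivity) (sum_nonneg fun a _ => hn a)
    · have hallbad : ∀ a ∈ Sz z, bad a z.1 := by
        intro a ha
        obtain ⟨a', ha', hne⟩ := exists_mem_ne (show 1 < (Sz z).card by omega) a
        exact ⟨a', (mem_filter.1 ha').1, hne, (mem_filter.1 ha').2.trans (mem_filter.1 ha).2.symm⟩
      rw [sum_congr rfl fun a ha => if_pos (hallbad a ha)]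
      obtain ⟨am, ham, hmax⟩ := exists_max_image (Sz z) (fun a => |Δ a|)
        (card_pos.1 (by omega))
      have hcard : ((Sz z).card : ℝ) ≤ 2 * K :=
        le_trans (by exact_mod_cast card_filter_le _ _) hU2
      have h1 : |∑ a ∈ Sz z, Δ a| ^ p ≤ (2 * (K:ℝ)) ^ p * ∑ a ∈ Sz z, |Δ a| ^ p := by
        calc |∑ a ∈ Sz z, Δ a| ^ p ≤ (2 * (K:ℝ) * |Δ am|) ^ p := by
              refine Real.rpow_le_rpow (abs_nonneg _) ?_ hp0.le
              refine (abs_sum_le_sum_abs _ _).trans ((sum_le_sum hmax).trans ?_)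
              rw [sum_const, nsmul_eq_mul]
              exact mul_le_mul_of_nonneg_right hcard (abs_nonneg _)
          _ ≤ _ := by
              rw [Real.mul_rpow (by positivity) (abs_nonneg _)]
              exact mul_le_mul_of_nonneg_left (single_le_sum (f := fun a => |Δ a| ^ p)
                (fun a _ => Real.rpow_nonneg (abs_nonneg _) p) ham) (by positivity)
      have h2 : (1:ℝ) ≤ (2 * (K:ℝ)) ^ p := Real.one_le_rpow (by
        have : (2:ℝ) ≤ (Sz z).card := by exact_mod_cast hc
        linarith) hp0.le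
      have h0 : 0 ≤ ∑ a ∈ Sz z, |Δ a| ^ p :=
        sum_nonneg fun a _ => Real.rpow_nonneg (abs_nonneg _) p
      have h3 : 0 ≤ |∑ a ∈ Sz z, Δ a| ^ p := Real.rpow_nonneg (abs_nonneg _) p
      have := le_mul_of_one_le_left h0 h2
      exact abs_sub_le_iff.2 ⟨by linarith, by linarith⟩
  have hfib : ∀ F : Fin N → ZMod q → ℝ,
      ∑ z : ZMod q × ZMod q, ∑ a ∈ Sz z, F a z.1 = ∑ a ∈ U, ∑ e, F a e := by
    intro F
    rw [Fintype.sum_prod_type, sum_comm (γ := Fin N) (s := U)]
    refine sum_congr rfl fun e _ => ?_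
    exact sum_fiberwise U (fun a => h a e) (fun a => F a e)
  have hUsum : ∑ a ∈ U, |Δ a| ^ p = ∑ a, |Δ a| ^ p := by
    refine sum_subset (subset_univ U) fun a _ ha => ?_
    simp only [hU, mem_filter, mem_univ, true_and, not_not] at ha
    rw [ha, abs_zero, Real.zero_rpow hp0.ne']
  have hbadcount : ∀ a ∈ U, ((univ.filter fun e => bad a e).card : ℝ) ≤ 2 * (K:ℝ) * dg := by
    intro a _
    have h1 : (univ.filter fun e => bad a e).card ≤ U.card * dg := by
      calc (univ.filter fun e => bad a e).card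
          ≤ ((U.erase a).biUnion fun a' => univ.filter fun e => h a' e = h a e).card := by
            refine card_le_card fun e he => ?_
            obtain ⟨a', ha', hne, heq⟩ := (mem_filter.1 he).2
            exact mem_biUnion.2 ⟨a', mem_erase.2 ⟨hne, ha'⟩, mem_filter.2 ⟨mem_univ _, heq⟩⟩
        _ ≤ ∑ a' ∈ U.erase a, (univ.filter fun e => h a' e = h a e).card := card_biUnion_le
        _ ≤ ∑ _a' ∈ U.erase a, dg := sum_le_sum fun a' ha' => hh a' a (mem_erase.1 ha').1
        _ ≤ _ := by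
            rw [sum_const, smul_eq_mul]
            exact Nat.mul_le_mul_right dg (card_le_card (erase_subset a U))
    calc ((univ.filter fun e => bad a e).card : ℝ) ≤ ((U.card * dg : ℕ) : ℝ) := by exact_mod_cast h1
      _ ≤ _ := by push_cast; gcongr
  set T := ∑ a, |Δ a| ^ p with hT
  have hT0 : 0 ≤ T := sum_nonneg fun a _ => Real.rpow_nonneg (abs_nonneg _) p
  have hexact : ∑ z : ZMod q × ZMod q, ∑ a ∈ Sz z, |Δ a| ^ p = q * T := by
    rw [hfib (fun a _ => |Δ a| ^ p)]
    simp only [sum_const, card_univ, ZMod.card, nsmul_eq_mul, ← mul_sum, hUsum, hT]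
  have herr : ∑ z : ZMod q × ZMod q, ∑ a ∈ Sz z, (if bad a z.1 then |Δ a| ^ p else 0)
      ≤ 2 * (K:ℝ) * dg * T := by
    rw [hfib (fun a e => if bad a e then |Δ a| ^ p else 0), ← hUsum, mul_sum]
    refine sum_le_sum fun a ha => ?_
    rw [← sum_filter, sum_const, nsmul_eq_mul]
    exact mul_le_mul_of_nonneg_right (hbadcount a ha) (Real.rpow_nonneg (abs_nonneg _) p)
  simp only [hdiff, ← mul_sum]
  have habs : |∑ z, |∑ a ∈ Sz z, Δ a| ^ p - q * T| ≤ ε * q * T := by
    rw [← hexact, ← sum_sub_distrib]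
    refine (abs_sum_le_sum_abs _ _).trans ((sum_le_sum fun z _ => hterm z).trans ?_)
    rw [← mul_sum]
    calc (2 * (K:ℝ)) ^ p * _ ≤ (2 * (K:ℝ)) ^ p * (2 * (K:ℝ) * dg * T) :=
          mul_le_mul_of_nonneg_left herr (by positivity)
      _ = (2 * (K:ℝ)) ^ (p + 1) * dg * T := by
          rw [Real.rpow_add_one' (by positivity) (by linarith)]; ring
      _ ≤ _ := by
          rw [mul_assoc ε]
          calc _ ≤ ε * q * T := mul_le_mul_of_nonneg_right hq hT0
            _ = _ := by ring
  obtain ⟨h1, h2⟩ := abs_le.1 habs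
  constructor
  · rw [le_inv_mul_iff₀ hq0]; linarith
  · rw [inv_mul_le_iff₀ hq0]; linarith

/-- Compression: if every point has active atoms of total sensitivity at most `R`, then `n`
points need only polynomially many coordinates in `R` and `log n`. -/
theorem compress {p : ℝ} (hp : 1 ≤ p) {ε : ℝ} (hε : 0 < ε) (hε1 : ε ≤ 1) :
    ∃ C : ℝ, 0 < C ∧ ∀ (α : Type) [Fintype α] (n : ℕ), 2 ≤ n → ∀ (G : Fin n → α → ℝ) (π : α → ℝ)
      (R : ℝ), 1 ≤ R → (∀ a, 0 ≤ π a) →
      (∀ i j a, |G i a - G j a| ^ p ≤ π a * ∑ e, |G i e - G j e| ^ p) →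
      (∀ i, ∑ a, (if G i a = 0 then 0 else π a) ≤ R) →
      ∀ d : ℕ, C * (R * (1 + Real.log n)) ^ (2 * p + 4) ≤ d →
      ∃ (f : Fin n → Fin d → ℝ) (s : ℝ), 0 < s ∧ ∀ i j,
        (1 - ε) * (1 - ε) * (s * ∑ a, |G i a - G j a| ^ p) ≤ ∑ b, |f i b - f j b| ^ p ∧
        ∑ b, |f i b - f j b| ^ p ≤ (1 + ε) * (1 + ε) * (s * ∑ a, |G i a - G j a| ^ p) := by
  have hp0 : 0 < p := by linarith
  obtain ⟨c, hc⟩ : ∃ c : ℝ, c = 200 / ε ^ 2 := ⟨_, rfl⟩
  have hc1 : 200 ≤ c := by
    rw [hc]; exact le_div_self (by norm_num) (by positivity) (pow_le_one₀ hε.le hε1)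
  refine ⟨4 * ((2 * c) ^ (p + 1) * c / ε + 2) ^ 2, by positivity, ?_⟩
  intro α _ n hn G π R hR hπ hsens hact d hd
  classical
  set ℓ := Real.log n with hℓdef
  have hnR : (2:ℝ) ≤ n := by exact_mod_cast hn
  have hℓ : 0 < ℓ := Real.log_pos (by linarith)
  -- drop the atoms that are never active
  set π' : α → ℝ := fun a => if ∃ i, G i a ≠ 0 then π a else 0 with hπ'
  have hπ'0 : ∀ a, 0 ≤ π' a := fun a => by
    simp only [hπ']; split_ifs <;> [exact hπ a; exact le_rfl]
  have hsens' : ∀ i j a, |G i a - G j a| ^ p ≤ π' a * ∑ e, |G i e - G j e| ^ p := by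
    intro i j a
    simp only [hπ']
    split_ifs with h
    · exact hsens i j a
    · push Not at h; simp [h i, h j, Real.zero_rpow hp0.ne']
  have hact' : ∀ i, ∑ a, (if G i a = 0 then 0 else π' a) ≤ R := fun i => by
    refine le_trans (sum_le_sum fun a _ => ?_) (hact i)
    split_ifs with h
    · exact le_rfl
    · simp only [hπ']; rw [if_pos ⟨i, h⟩]
  set S := ∑ a, π' a + R with hS
  have hsum0 : 0 ≤ ∑ a, π' a := sum_nonneg fun a _ => hπ'0 a
  have hS1 : 1 ≤ S := by linarith
  have hSle : S ≤ ((n:ℝ) + 1) * R := by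
    have h1 : ∑ a, π' a ≤ ∑ i, ∑ a, (if G i a = 0 then 0 else π' a) := by
      rw [sum_comm]
      refine sum_le_sum fun a _ => ?_
      by_cases h : ∃ i, G i a ≠ 0
      · obtain ⟨i, hi⟩ := h
        refine le_trans (le_of_eq (by rw [if_neg hi])) (single_le_sum
          (f := fun i => if G i a = 0 then 0 else π' a) (fun i _ => ?_) (mem_univ i))
        split_ifs <;> [exact le_rfl; exact hπ'0 a]
      · simp only [hπ', if_neg h]; simp
    have h2 := h1.trans (sum_le_sum fun i _ => hact' i)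
    rw [sum_const, card_univ, Fintype.card_fin, nsmul_eq_mul] at h2
    linarith
  -- sampling
  set P : Option α → ℝ := fun o => o.elim R π' / S with hP
  have hP0 : ∀ o, 0 ≤ P o := fun o => by
    cases o <;> simp only [hP, Option.elim] <;>
      exact div_nonneg (by first | linarith | exact hπ'0 _) (by linarith)
  have hP1 : ∑ o, P o = 1 := by
    rw [Fintype.sum_option]
    simp only [hP, Option.elim]
    rw [← sum_div, ← add_div, add_comm, ← hS, div_self (by linarith)]
  set D : Fin n × Fin n → ℝ := fun z => ∑ e, |G z.1 e - G z.2 e| ^ p with hD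
  have hD0 : ∀ z, 0 ≤ D z := fun z => sum_nonneg fun e _ => Real.rpow_nonneg (abs_nonneg _) p
  set Y : Fin n × Fin n → Option α → ℝ := fun z o =>
    if z.1 = z.2 then o.elim 1 (fun a => if G z.1 a = 0 then 0 else 1)
    else o.elim 0 (fun a => |G z.1 a - G z.2 a| ^ p / π' a / D z) with hY
  have hY0 : ∀ z o, 0 ≤ Y z o := fun z o => by
    simp only [hY]
    by_cases h : z.1 = z.2
    · simp only [if_pos h]
      cases o with
      | none => exact zero_le_one
      | some a =>
        simp only [Option.elim]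
        by_cases ha : G z.1 a = 0
        · rw [if_pos ha]
        · rw [if_neg ha]; exact zero_le_one
    · simp only [if_neg h]
      cases o with
      | none => exact le_rfl
      | some a =>
        exact div_nonneg (div_nonneg (Real.rpow_nonneg (abs_nonneg _) p) (hπ'0 _)) (hD0 z)
  have hY1 : ∀ z o, Y z o ≤ 1 := fun z o => by
    simp only [hY]
    by_cases h : z.1 = z.2
    · simp only [if_pos h]
      cases o with
      | none => exact le_rfl
      | some a =>
        simp only [Option.elim]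
        by_cases ha : G z.1 a = 0
        · rw [if_pos ha]; exact zero_le_one
        · rw [if_neg ha]
    · simp only [if_neg h]
      cases o with
      | none => exact zero_le_one
      | some a =>
        refine div_le_one_of_le₀ (div_le_of_le_mul₀ (hπ'0 _) (hD0 z) ?_) (hD0 z)
        rw [mul_comm]; exact hsens' _ _ _
  have hzero : ∀ (i j : Fin n) a, π' a = 0 → |G i a - G j a| ^ p = 0 := fun i j a ha =>
    le_antisymm (by have := hsens' i j a; rwa [ha, zero_mul] at this)
      (Real.rpow_nonneg (abs_nonneg _) p)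
  have hmean : ∀ z, z.1 ≠ z.2 → D z ≠ 0 → ∑ o, P o * Y z o = 1 / S := by
    intro z hne hz
    rw [Fintype.sum_option]
    simp only [hP, hY, if_neg hne, Option.elim, mul_zero, zero_add]
    have : ∀ a, π' a / S * (|G z.1 a - G z.2 a| ^ p / π' a / D z)
        = |G z.1 a - G z.2 a| ^ p / (S * D z) := by
      intro a
      by_cases ha : π' a = 0
      · rw [ha, hzero z.1 z.2 a ha]; simp
      · field_simp
    rw [sum_congr rfl fun a _ => this a, ← sum_div]
    show D z / _ = _
    field_simp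
  have hmeanD : ∀ z, z.1 = z.2 → R / S ≤ ∑ o, P o * Y z o ∧ ∑ o, P o * Y z o ≤ 2 * R / S := by
    intro z hz
    rw [Fintype.sum_option]
    simp only [hP, hY, if_pos hz, Option.elim, mul_one]
    have e : ∑ a, π' a / S * (if G z.1 a = 0 then (0:ℝ) else 1)
        = (∑ a, (if G z.1 a = 0 then 0 else π' a)) / S := by
      rw [sum_div]; exact sum_congr rfl fun a _ => by split_ifs <;> simp
    rw [e]
    have h0 : 0 ≤ ∑ a, (if G z.1 a = 0 then 0 else π' a) :=
      sum_nonneg fun a _ => by split_ifs <;> [exact le_rfl; exact hπ'0 a]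
    constructor
    · exact le_add_of_nonneg_right (div_nonneg h0 (by linarith))
    · rw [← add_div]; exact div_le_div_of_nonneg_right (by linarith [hact' z.1]) (by linarith)
  set pairs := (univ : Finset (Fin n × Fin n)).filter (fun z => z.1 = z.2 ∨ D z ≠ 0) with hpairs
  obtain ⟨N, hNdef⟩ : ∃ N : ℕ, N = ⌈13 * ℓ * S / ε ^ 2⌉₊ := ⟨_, rfl⟩
  have hNge : 13 * ℓ * S / ε ^ 2 ≤ N := hNdef ▸ Nat.le_ceil _
  have hNle : (N:ℝ) ≤ 13 * ℓ * S / ε ^ 2 + 1 :=
    hNdef ▸ (Nat.ceil_lt_add_one (by positivity)).le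
  have hNpos : (0:ℝ) < N := lt_of_lt_of_le (by positivity) hNge
  obtain ⟨F, hF⟩ := exists_good hP0 hP1 pairs Y hY0 hY1 (n := n) (d := N) hn
    ((card_le_univ _).trans (le_of_eq (by simp))) hε hε1 (fun z hz => by
      have hb : 13 / 4 * ℓ ≤ (N:ℝ) * (1 / S) * (ε ^ 2 / 4) := by
        rw [div_le_iff₀ (by positivity)] at hNge
        have e : (N:ℝ) * (1 / S) * (ε ^ 2 / 4) = N * ε ^ 2 / 4 / S := by ring
        rw [e, le_div_iff₀ (by linarith)]
        linarith
      refine hb.trans ?_
      gcongr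
      rcases (mem_filter.1 hz).2 with h | h
      · exact (div_le_div_of_nonneg_right hR (by linarith)).trans (hmeanD z h).1
      · by_cases he : z.1 = z.2
        · exact (div_le_div_of_nonneg_right hR (by linarith)).trans (hmeanD z he).1
        · exact (hmean z he h).ge)
  set H : Fin n → Fin N → ℝ := fun i b =>
    (F b).elim 0 (fun a => G i a / π' a ^ (1 / p)) with hH
  have hNS : (N:ℝ) / S ≤ 14 * (1 + ℓ) / ε ^ 2 := by
    rw [div_le_iff₀ (by linarith)]
    have h1 : (1:ℝ) ≤ S / ε ^ 2 :=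
      hS1.trans (le_div_self (by linarith) (by positivity) (pow_le_one₀ hε.le hε1))
    have h2 : 0 ≤ ℓ * (S / ε ^ 2) := by positivity
    have e : 14 * (1 + ℓ) / ε ^ 2 * S = 14 * (S / ε ^ 2) + 14 * (ℓ * (S / ε ^ 2)) := by ring
    have e2 : 13 * ℓ * S / ε ^ 2 = 13 * (ℓ * (S / ε ^ 2)) := by ring
    linarith
  -- the support of a sampled vector
  set B := R * (1 + ℓ) with hB
  have hBR : R ≤ B := le_mul_of_one_le_right (by linarith) (by linarith)
  have hB1 : 1 ≤ B := hR.trans hBR
  have hBℓ : 1 + ℓ ≤ B := le_mul_of_one_le_left (by linarith) hR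
  obtain ⟨K, hKdef⟩ : ∃ K : ℕ, K = ⌊56 * B / ε ^ 2⌋₊ := ⟨_, rfl⟩
  have hsupp : ∀ i, (univ.filter fun b => H i b ≠ 0).card ≤ K := by
    intro i
    rw [hKdef]
    refine Nat.le_floor ?_
    have hz : (i, i) ∈ pairs := by simp [hpairs]
    have h1 := (hF (i, i) hz).2
    have h2 : ((univ.filter fun b => H i b ≠ 0).card : ℝ) ≤ ∑ b, Y (i, i) (F b) := by
      rw [← sum_boole (R := ℝ) (fun b => H i b ≠ 0) univ]
      refine sum_le_sum fun b _ => ?_
      simp only [hY, hH, if_pos]
      have hite : ∀ (Q : Prop) {hQ : Decidable Q}, (if Q then (1:ℝ) else 0) ≤ 1 :=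
        fun Q hQ => by split_ifs <;> norm_num
      cases F b with
      | none => simp
      | some a =>
        simp only [Option.elim]
        by_cases ha : G i a = 0
        · simp [ha]
        · simp only [if_neg ha]
          exact hite _
    refine h2.trans (h1.trans ?_)
    calc (1 + ε) * ((N:ℝ) * ∑ o, P o * Y (i, i) o) ≤ 2 * ((N:ℝ) * (2 * R / S)) := by
          gcongr
          · exact mul_nonneg hNpos.le (sum_nonneg fun o _ => mul_nonneg (hP0 o) (hY0 _ o))
          · linarith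
          · exact (hmeanD (i, i) rfl).2
      _ = 4 * R * ((N:ℝ) / S) := by ring
      _ ≤ 4 * R * (14 * (1 + ℓ) / ε ^ 2) := by gcongr
      _ = _ := by rw [hB]; ring
  have hterm : ∀ i j b, |H i b - H j b| ^ p
      = (F b).elim 0 (fun a => |G i a - G j a| ^ p / π' a) := by
    intro i j b
    simp only [hH]
    cases F b with
    | none => simp [Real.zero_rpow hp0.ne']
    | some a =>
      simp only [Option.elim]
      rw [← sub_div, abs_div, abs_of_nonneg (Real.rpow_nonneg (hπ'0 _) _),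
        Real.div_rpow (abs_nonneg _) (Real.rpow_nonneg (hπ'0 _) _), ← Real.rpow_mul (hπ'0 _),
        one_div_mul_cancel hp0.ne', Real.rpow_one]
  have hHdist : ∀ i j, (1 - ε) * (N / S * D (i, j)) ≤ ∑ b, |H i b - H j b| ^ p ∧
      ∑ b, |H i b - H j b| ^ p ≤ (1 + ε) * (N / S * D (i, j)) := by
    intro i j
    simp only [hterm]
    by_cases hz : D (i, j) = 0
    · have hall : ∀ a, |G i a - G j a| ^ p = 0 := fun a => le_antisymm
        ((single_le_sum (fun e _ => Real.rpow_nonneg (abs_nonneg (G i e - G j e)) p)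
          (mem_univ a)).trans hz.le) (Real.rpow_nonneg (abs_nonneg _) p)
      have : ∀ b, (F b).elim 0 (fun a => |G i a - G j a| ^ p / π' a) = 0 := fun b => by
        cases F b <;> simp [hall]
      simp [this, hz]
    have hij : i ≠ j := by
      rintro rfl
      exact hz (by simp [hD, Real.zero_rpow hp0.ne'])
    have hb := hF (i, j) (mem_filter.2 ⟨mem_univ _, Or.inr hz⟩)
    rw [hmean (i, j) hij hz] at hb
    have e : ∑ b, (F b).elim 0 (fun a => |G i a - G j a| ^ p / π' a)
        = D (i, j) * ∑ b, Y (i, j) (F b) := by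
      rw [mul_sum]
      refine sum_congr rfl fun b _ => ?_
      simp only [hY, if_neg hij]
      cases F b with
      | none => simp
      | some a => simp only [Option.elim]; field_simp
    rw [e]
    constructor
    · calc (1 - ε) * (N / S * D (i, j)) = D (i, j) * ((1 - ε) * (N * (1 / S))) := by ring
        _ ≤ _ := mul_le_mul_of_nonneg_left hb.1 (hD0 _)
    · calc _ ≤ D (i, j) * ((1 + ε) * (N * (1 / S))) := mul_le_mul_of_nonneg_left hb.2 (hD0 _)
        _ = _ := by ring
  -- hashing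
  obtain ⟨dg, hdg⟩ : ∃ dg : ℕ, dg = Nat.log 2 N + 1 := ⟨_, rfl⟩
  have hN2 : N ≤ 2 ^ dg := hdg ▸ (Nat.lt_pow_succ_log_self one_lt_two N).le
  have hdgle : (dg:ℝ) ≤ c * B := by
    have hN0 : N ≠ 0 := by
      intro h; rw [h] at hNpos; simp at hNpos
    have h1 : (2:ℝ) ^ Nat.log 2 N ≤ N := by exact_mod_cast Nat.pow_log_le_self 2 hN0
    have h2 := Real.log_le_log (by positivity) h1
    rw [Real.log_pow] at h2
    have hl2 : (1:ℝ) / 2 ≤ Real.log 2 := by linarith [Real.log_two_gt_d9]
    have hNX : (N:ℝ) ≤ 14 * (1 + ℓ) / ε ^ 2 * (((n:ℝ) + 1) * R) := by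
      rw [div_le_iff₀ (by linarith)] at hNS
      exact hNS.trans (mul_le_mul_of_nonneg_left hSle (by positivity))
    have h3 := Real.log_le_log hNpos hNX
    rw [Real.log_mul (by positivity) (by positivity),
      Real.log_mul (by positivity) (by positivity)] at h3
    have a1 := Real.log_le_sub_one_of_pos (show 0 < 14 * (1 + ℓ) / ε ^ 2 by positivity)
    have a2 := Real.log_le_sub_one_of_pos (show 0 < R by linarith)
    have a3 : Real.log ((n:ℝ) + 1) ≤ ℓ + 1 := by
      have : Real.log ((n:ℝ) + 1) ≤ Real.log (2 * n) :=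
        Real.log_le_log (by linarith) (by linarith)
      rw [Real.log_mul (by norm_num) (by linarith)] at this
      linarith [Real.log_two_lt_d9]
    have hk : (0:ℝ) ≤ Nat.log 2 N := Nat.cast_nonneg _
    have h4 := mul_le_mul_of_nonneg_left hl2 hk
    have hi : 1 ≤ 1 / ε ^ 2 := one_le_one_div (by positivity) (pow_le_one₀ hε.le hε1)
    have e14 : 14 * (1 + ℓ) / ε ^ 2 = 14 * ((1 + ℓ) * (1 / ε ^ 2)) := by ring
    have ec : c * B = 200 * (B * (1 / ε ^ 2)) := by rw [hc]; ring
    have h5 := mul_le_mul_of_nonneg_right hBℓ (show 0 ≤ 1 / ε ^ 2 by positivity)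
    have h6 := le_mul_of_one_le_right (show 0 ≤ B by linarith) hi
    rw [hdg]; push_cast
    linarith
  obtain ⟨Q, hQ⟩ : ∃ Q : ℕ, Q = ⌈(2 * (K:ℝ)) ^ (p + 1) * dg / ε⌉₊ + 1 := ⟨_, rfl⟩
  obtain ⟨q, hqp, hqlt, hqle⟩ := Nat.exists_prime_lt_and_le_two_mul Q (by omega)
  have : Fact q.Prime := ⟨hqp⟩
  have hQge : (2 * (K:ℝ)) ^ (p + 1) * dg / ε ≤ q := by
    have h1 : (Q:ℝ) ≤ q := by exact_mod_cast hqlt.le
    have h2 := Nat.le_ceil ((2 * (K:ℝ)) ^ (p + 1) * dg / ε)
    rw [hQ] at h1; push_cast at h1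
    linarith
  have hKB : (K:ℝ) ≤ c * B := by
    rw [hKdef]
    refine (Nat.floor_le (by positivity)).trans ?_
    rw [hc, div_mul_eq_mul_div]
    gcongr
    norm_num
  have hQd : q * q ≤ d := by
    refine Nat.cast_le (α := ℝ).1 (le_trans ?_ hd)
    push_cast
    have hQle : (Q:ℝ) ≤ ((2 * c) ^ (p + 1) * c / ε + 2) * B ^ (p + 2) := by
      rw [hQ]; push_cast
      have hBp : 1 ≤ B ^ (p + 2) := Real.one_le_rpow hB1 (by linarith)
      have h1 := (Nat.ceil_lt_add_one
        (show 0 ≤ (2 * (K:ℝ)) ^ (p + 1) * dg / ε by positivity)).le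
      have h2 : (2 * (K:ℝ)) ^ (p + 1) * dg / ε ≤ (2 * c) ^ (p + 1) * c / ε * B ^ (p + 2) := by
        rw [div_mul_eq_mul_div]
        refine div_le_div_of_nonneg_right ?_ hε.le
        calc (2 * (K:ℝ)) ^ (p + 1) * dg ≤ (2 * c * B) ^ (p + 1) * (c * B) := by
              gcongr ?_ ^ (p + 1) * ?_
              linarith
          _ = _ := by
              rw [Real.mul_rpow (by linarith) (by linarith), show p + 2 = p + 1 + 1 by ring,
                Real.rpow_add_one (by linarith : B ≠ 0) (p + 1)]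
              ring
      linarith
    have hq2 : (q:ℝ) ≤ 2 * Q := by exact_mod_cast hqle
    have hB2 : (B ^ (p + 2)) ^ 2 = B ^ (2 * p + 4) := by
      rw [← Real.rpow_natCast, ← Real.rpow_mul (by linarith)]; congr 1; push_cast; ring
    calc (q:ℝ) * q ≤ (2 * (((2 * c) ^ (p + 1) * c / ε + 2) * B ^ (p + 2))) ^ 2 := by
          rw [← sq]; gcongr; linarith
      _ = _ := by rw [← hB2]; ring
  have hqN : N ≤ q ^ dg := hN2.trans (Nat.pow_le_pow_left hqp.two_le dg)
  obtain ⟨f, hf⟩ := hash_sparse hp H K hsupp (ε := ε) q dg hqN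
    (by rw [div_le_iff₀ hε] at hQge; linarith) hQd
  refine ⟨f, N / S, by positivity, fun i j => ?_⟩
  obtain ⟨h1, h2⟩ := hf i j
  obtain ⟨h3, h4⟩ := hHdist i j
  constructor
  · refine le_trans ?_ h1
    rw [mul_assoc]
    exact mul_le_mul_of_nonneg_left h3 (by linarith)
  · refine h2.trans ?_
    rw [mul_assoc]
    exact mul_le_mul_of_nonneg_left h4 (by linarith)

end Vale.Agent.P249.Sharp
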