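import Mathlib
import Vale.Agent.P249.Sharp.Assemble
import Vale.Agent.P249.Sharp.Compress
import Vale.Agent.P249.SpannerSampling

/-!
For `p > 1`, finite subsets of `ℓ_p^κ` embed with distortion arbitrarily close to one into
`ℓ_p^d` with `d = O(n^γ)`.
-/

namespace Vale.Agent.P249.Sharp

open Finset

/-- A small enough step makes the total `p`-th power distortion at most `r ^ p`. -/
lemma exists_eps {p r : ℝ} (hp : 0 < p) (hr : 1 < r) :
    ∃ ε : ℝ, 0 < ε ∧ ε ≤ 1 / 4 ∧ (1 + ε) ^ (p + 2) ≤ r ^ p * (1 - ε) ^ (p + 2) := by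
  obtain ⟨q, hq⟩ : ∃ q : ℝ, q = r ^ (p / (p + 2)) := ⟨_, rfl⟩
  have hq1 : 1 < q := by rw [hq]; exact Real.one_lt_rpow hr (by positivity)
  refine ⟨min (1 / 4) ((q - 1) / (q + 1)),
    lt_min (by norm_num) (div_pos (by linarith) (by linarith)), min_le_left _ _, ?_⟩
  have h4 : min (1 / 4) ((q - 1) / (q + 1)) ≤ 1 / 4 := min_le_left _ _
  have h0 : 0 ≤ min (1 / 4) ((q - 1) / (q + 1)) :=
    le_min (by norm_num) (div_nonneg (by linarith) (by linarith))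
  have hle : min (1 / 4) ((q - 1) / (q + 1)) ≤ (q - 1) / (q + 1) := min_le_right _ _
  rw [le_div_iff₀ (by linarith)] at hle
  generalize min (1 / 4) ((q - 1) / (q + 1)) = e at h4 h0 hle ⊢
  have h1 : 1 + e ≤ q * (1 - e) := by linarith
  refine (Real.rpow_le_rpow (by linarith) h1 (by linarith)).trans_eq ?_
  rw [Real.mul_rpow (by linarith) (by linarith), hq, ← Real.rpow_mul (by linarith),
    div_mul_cancel₀ p (by linarith)]

/-- Composition of the two distortions. -/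
lemma combine {p ε r s S M F : ℝ} (hp : 0 < p) (hε : 0 ≤ ε) (hε1 : ε < 1) (hs : 0 ≤ s)
    (hS : 0 ≤ S) (hdist : (1 + ε) ^ (p + 2) ≤ r ^ p * (1 - ε) ^ (p + 2))
    (hMlo : (1 - ε) ^ p * S ≤ M) (hMhi : M ≤ (1 + ε) ^ p * S)
    (hFlo : (1 - ε) * (1 - ε) * (s * M) ≤ F) (hFhi : F ≤ (1 + ε) * (1 + ε) * (s * M)) :
    (1 - ε) ^ (p + 2) * s * S ≤ F ∧ F ≤ r ^ p * ((1 - ε) ^ (p + 2) * s) * S := by
  have e : ∀ x : ℝ, 0 < x → x ^ (p + 2) = x * x * x ^ p := fun x hx => by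
    rw [Real.rpow_add hx, Real.rpow_two]; ring
  have h1 := mul_le_mul_of_nonneg_left hMlo (show 0 ≤ (1 - ε) * (1 - ε) * s by positivity)
  have h2 := mul_le_mul_of_nonneg_left hMhi (show 0 ≤ (1 + ε) * (1 + ε) * s by positivity)
  have h3 := mul_le_mul_of_nonneg_right hdist (show 0 ≤ s * S by positivity)
  rw [e _ (by linarith), e _ (by linarith)] at h3
  rw [e _ (by linarith)]
  constructor <;> linarith

/-- Powers of the logarithm are absorbed by a small power. -/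
lemma dim_bound {p γ Cc Cw ℓ R : ℝ} {n : ℕ} (hp : 1 < p) (hγ : 0 < γ) (hn : 2 ≤ n) (hCc : 0 ≤ Cc)
    (hCw : 0 ≤ Cw) (hℓ : ℓ = Real.log n) (hℓ1 : 1 ≤ ℓ)
    (hR : R = Cw * ((n:ℝ) ^ (2 * (γ / (4 * (2 * p + 4)))) * ℓ ^ p) + 1) :
    Cc * (R * (1 + ℓ)) ^ (2 * p + 4)
      ≤ Cc * (2 * (Cw + 1) / (2 * (γ / (4 * (2 * p + 4))) / (p + 1)) ^ (p + 1)) ^ (2 * p + 4)
        * (n:ℝ) ^ γ := by
  obtain ⟨g, hg⟩ : ∃ g : ℝ, g = γ / (4 * (2 * p + 4)) := ⟨_, rfl⟩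
  rw [← hg] at hR ⊢
  have hg0 : 0 < g := by rw [hg]; positivity
  have hnR : (0:ℝ) < n := by exact_mod_cast (show 0 < n by omega)
  have hn1 : (1:ℝ) ≤ n := by exact_mod_cast (show 1 ≤ n by omega)
  have hA1 : (1:ℝ) ≤ (n:ℝ) ^ (2 * g) * ℓ ^ p :=
    one_le_mul_of_one_le_of_one_le (Real.one_le_rpow hn1 (by linarith))
      (Real.one_le_rpow hℓ1 (by linarith))
  have h1 : R * (1 + ℓ) ≤ 2 * (Cw + 1) * ((n:ℝ) ^ (2 * g) * ℓ ^ (p + 1)) := by
    have hR1 : R ≤ (Cw + 1) * ((n:ℝ) ^ (2 * g) * ℓ ^ p) := by rw [hR]; linarith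
    refine (mul_le_mul hR1 (show 1 + ℓ ≤ 2 * ℓ by linarith) (by linarith) (by positivity)).trans_eq ?_
    rw [Real.rpow_add_one (by linarith)]
    ring
  have hσ : 0 < 2 * g / (p + 1) := by positivity
  have h2 : ℓ ^ (p + 1) ≤ (n:ℝ) ^ (2 * g) / (2 * g / (p + 1)) ^ (p + 1) := by
    have h := Real.log_le_rpow_div hnR.le hσ
    rw [← hℓ] at h
    refine (Real.rpow_le_rpow (by linarith) h (by linarith)).trans_eq ?_
    rw [Real.div_rpow (by positivity) hσ.le, ← Real.rpow_mul hnR.le,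
      div_mul_cancel₀ _ (by linarith : p + 1 ≠ 0)]
  have h3 : R * (1 + ℓ) ≤ 2 * (Cw + 1) / (2 * g / (p + 1)) ^ (p + 1) * (n:ℝ) ^ (4 * g) := by
    refine h1.trans ((mul_le_mul_of_nonneg_left (mul_le_mul_of_nonneg_left h2 (by positivity))
      (by positivity)).trans_eq ?_)
    rw [show 4 * g = 2 * g + 2 * g by ring, Real.rpow_add hnR]
    ring
  rw [mul_assoc]
  refine mul_le_mul_of_nonneg_left ?_ hCc
  have hR0 : 0 ≤ R := by rw [hR]; positivity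
  refine (Real.rpow_le_rpow (mul_nonneg hR0 (by linarith)) h3 (by linarith)).trans_eq ?_
  rw [Real.mul_rpow (by positivity) (by positivity), ← Real.rpow_mul hnR.le]
  congr 2
  rw [hg]; field_simp

/-- Finite configurations of `ℓ_p^κ` embed almost isometrically in small power dimension. -/
theorem embed_sharp {p : ℝ} (hp : 1 < p) {r : ℝ} (hr : 1 < r) {γ : ℝ} (hγ : 0 < γ) :
    ∃ C : ℝ, 0 < C ∧ ∀ (ι : Type) [Fintype ι] (n : ℕ), 2 ≤ n → ∀ (v : Fin n → ι → ℝ) (d : ℕ),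
      C * (n:ℝ) ^ γ ≤ d →
      ∃ (f : Fin n → Fin d → ℝ) (s : ℝ), 0 < s ∧ ∀ i j,
        s * ∑ c, |v i c - v j c| ^ p ≤ ∑ b, |f i b - f j b| ^ p ∧
        ∑ b, |f i b - f j b| ^ p ≤ r ^ p * s * ∑ c, |v i c - v j c| ^ p := by
  have hp0 : 0 < p := by linarith
  obtain ⟨ε, hε, hε4, hdist⟩ := exists_eps hp0 hr
  obtain ⟨ℓ₀, Cw, hℓ₀, hCw, hwin⟩ := window_embedding hp
    (γ := γ / (4 * (2 * p + 4))) (by positivity) hε (by linarith)
  obtain ⟨Cc, hCc, hcomp⟩ := compress hp.le hε (by linarith)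
  obtain ⟨Cn, hCn, hsmall⟩ := embed_near_linear hp.le (Real.one_lt_rpow hr hp0)
  refine ⟨max (Cc * (2 * (Cw + 1) / (2 * (γ / (4 * (2 * p + 4))) / (p + 1)) ^ (p + 1))
      ^ (2 * p + 4)) (Cn * Real.exp ℓ₀ * ℓ₀ ^ (p + 3)),
    lt_of_lt_of_le (by positivity) (le_max_right _ _), ?_⟩
  intro ι _ n hn v d hd
  have hn1 : (1:ℝ) ≤ n := by exact_mod_cast (show 1 ≤ n by omega)
  have hpow : 0 ≤ (n:ℝ) ^ γ := by positivity
  rcases le_or_gt ℓ₀ (Real.log n) with hℓ | hℓ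
  · obtain ⟨α, hfin, G, π, hπ, hsens, hact, hG⟩ := hwin ι n hn hℓ v
    have hR1 : 1 ≤ Cw * ((n:ℝ) ^ (2 * (γ / (4 * (2 * p + 4)))) * Real.log n ^ p) + 1 := by
      have : 0 ≤ Real.log n := Real.log_nonneg hn1
      have : 0 ≤ Cw * ((n:ℝ) ^ (2 * (γ / (4 * (2 * p + 4)))) * Real.log n ^ p) := by positivity
      linarith
    have hdim := (dim_bound hp hγ hn hCc.le hCw.le rfl (hℓ₀.trans hℓ) rfl).trans
      ((mul_le_mul_of_nonneg_right (le_max_left _ (Cn * Real.exp ℓ₀ * ℓ₀ ^ (p + 3))) hpow).trans hd)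
    obtain ⟨f, s, hs, hf⟩ := @hcomp α hfin n hn G π _ hR1 hπ hsens
      (fun i => (hact i).trans (by linarith)) d hdim
    refine ⟨f, (1 - ε) ^ (p + 2) * s,
      mul_pos (Real.rpow_pos_of_pos (by linarith) _) hs, fun i j => ?_⟩
    exact combine hp0 hε.le (by linarith) hs.le
      (sum_nonneg fun c _ => Real.rpow_nonneg (abs_nonneg _) p) hdist (hG i j).1 (hG i j).2
      (hf i j).1 (hf i j).2
  · refine hsmall ι n hn v d (le_trans ?_ hd)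
    have hlog : 0 ≤ Real.log n := Real.log_nonneg hn1
    have h1 : (n:ℝ) ≤ Real.exp ℓ₀ :=
      ((Real.log_lt_iff_lt_exp (by linarith)).1 hℓ).le
    have h2 : Real.log n ^ (p + 3) ≤ ℓ₀ ^ (p + 3) :=
      Real.rpow_le_rpow hlog hℓ.le (by linarith)
    have h3 : (1:ℝ) ≤ (n:ℝ) ^ γ := Real.one_le_rpow hn1 hγ.le
    calc Cn * (n:ℝ) * Real.log n ^ (p + 3) ≤ Cn * Real.exp ℓ₀ * ℓ₀ ^ (p + 3) :=
          mul_le_mul (mul_le_mul_of_nonneg_left h1 hCn.le) h2 (by positivity) (by positivity)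
      _ ≤ Cn * Real.exp ℓ₀ * ℓ₀ ^ (p + 3) * (n:ℝ) ^ γ :=
          le_mul_of_one_le_right (by positivity) h3
      _ ≤ _ := mul_le_mul_of_nonneg_right (le_max_right _ _) hpow

end Vale.Agent.P249.Sharp
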